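import Vale.Agent.N144.Sf.Soft

/-!
Moments of the smeared spin field in small balls whose distance to the boundary is a fixed
multiple of the radius, with constants that do not depend on the ball.
-/

set_option linter.all false

noncomputable section

namespace Vale.Agent.N144.Sf.Bk

open MeasureTheory Filter Topology Metric Vale.Agent.P144 Vale.Agent.P144Z Vale.Agent.P144W
open Vale.Agent.P144F58

section gen

variable {Ω : Type} [MeasurableSpace Ω]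

/-- the bound on separated points at one mesh -/
def SepA (μ : Measure Ω) (φ : ℝ → ℂ → Ω → ℝ) (n : ℕ) (δ K T a : ℝ) : Prop :=
  ∀ (ε : ℝ) (z : ℂ) (x : Fin n → ℂ), T * a ≤ ε → (∀ i, x i ∈ ball z ε) →
    (∀ i j, i ≠ j → δ * ε ≤ ‖x i - x j‖) → |cr μ φ a x| ≤ K * (ε ^ (-(1 / 8) : ℝ)) ^ n

open Sp Finset in
theorem stepU (n : ℕ) (he : Even n) (h2 : 2 ≤ n) : ∃ c : ℝ, 0 ≤ c ∧ ∀ (Ω : Type)
    [MeasurableSpace Ω] (μ : Measure Ω) φ, Fd μ φ → ∀ δ > (0 : ℝ), δ ≤ 1 → ∀ K T a : ℝ, 0 ≤ K →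
    0 < T → 0 < a → SepA μ φ n δ K T a → ∀ (ε B : ℝ) z g, T * a ≤ ε → Tf z ε g → 0 ≤ B →
    (∀ z' g', Tf z' (2 * δ * ε) g' → ∫ ω, sm φ a g' ω ^ n ∂μ ≤ B) →
    ∫ ω, sm φ a g ω ^ n ∂μ ≤
      4 ^ n * (2 * K) * (ε ^ (-(1 / 8) : ℝ) * ∫ x, |g x|) ^ n + c * δ⁻¹ ^ n * B := by
  obtain ⟨k', hk⟩ := he
  obtain ⟨k, rfl⟩ : ∃ k, n = 2 * (k + 1) := ⟨k' - 1, by omega⟩
  obtain ⟨c, hc, P⟩ := pw dl k
  set n := 2 * (k + 1) with hn
  refine ⟨4 ^ n * (c * 4 ^ n), by positivity,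
    fun Ω _ μ φ hF δ d0 d1 K T a K0 T0 ha hs ε B z g hT hg B0 hB => ?_⟩
  have e0 : 0 < ε := lt_of_lt_of_le (by positivity) hT
  have h0 : 0 < δ * ε := by positivity
  let b : ℂ → ℤ × ℤ := fun x => ((bx (δ * ε) x).1 % 2, (bx (δ * ε) x).2 % 2)
  have hb : Measurable b := (measurable_from_top (f := fun u : ℤ × ℤ => (u.1 % 2, u.2 % 2))).comp
    ((bx_meas _).mono le_rfl (by
      intro s _
      exact (Set.to_countable s).measurableSet))
  let W : Finset (ℤ × ℤ) := Icc 0 1 ×ˢ Icc 0 1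
  have cW : Fintype.card W = 4 := by rw [Fintype.card_coe]; rfl
  obtain ⟨s1, -⟩ := sm_sum fub hF ha W hb hg fun x _ => by
    simp only [W, b, mem_product, mem_Icc]; omega
  have t : ∀ w : W, Tf z ε (pc g {y | b y = w}) := fun w =>
    pc_tf hg (hb (measurableSet_singleton w.1)) fun x _ => hg.sup x
  have ev : Even n := ⟨k + 1, by omega⟩
  set M := 2 * (K * (ε ^ (-(1 / 8) : ℝ) * ∫ x, |g x|) ^ n) + c * 4 ^ n * δ⁻¹ ^ n * B
  have o : ∀ w : W, ∫ ω, sm φ a (pc g {y | b y = w}) ω ^ n ∂μ ≤ M := fun w => by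
    refine (one fub hF hc P (K := K * (ε ^ (-(1 / 8) : ℝ)) ^ n) ha h0 (by positivity) (t w)
      (fun x hx hi => hs ε z x hT (fun i => (t w).sup _ (hx i)) fun i j ij => ?_)
      (by simpa only [← mul_assoc] using hB)).trans (add_le_add ?_ ?_)
    · have e := ((pc_ne (hx i)).1.trans (pc_ne (hx j)).1.symm : b (x i) = b (x j))
      have d : bx (δ * ε) (x i) ≠ bx (δ * ε) (x j) := fun e => ij (hi e)
      simp only [b, bx, Prod.mk.injEq, ne_eq, not_and_or] at e d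
      rcases d with d | d
      · exact (far h0 e.1 d).trans (by rw [← Complex.sub_re]; exact Complex.abs_re_le_norm _)
      · exact (far h0 e.2 d).trans (by rw [← Complex.sub_im]; exact Complex.abs_im_le_norm _)
    · rw [mul_pow, mul_assoc]
      have : ∫ x, |pc g {y | b y = w} x| ≤ ∫ x, |g x| :=
        integral_mono ((fub Ω μ φ hF a ha).1 z ε _ (t w)).2.1.abs
          ((fub Ω μ φ hF a ha).1 z ε _ hg).2.1.abs fun x => pc_abs _ _ x
      have p0 : 0 ≤ ∫ x, |pc g {y | b y = w} x| := integral_nonneg fun _ => abs_nonneg _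
      gcongr
    · have c1 := card_bxs h0 e0.le z
      have c2 : 2 * ε / (δ * ε) + 2 ≤ 4 * δ⁻¹ := by
        have : 1 ≤ δ⁻¹ := one_le_inv_iff₀.2 ⟨d0, d1⟩
        rw [show 2 * ε / (δ * ε) = 2 * δ⁻¹ by field_simp]
        linarith
      rw [mul_assoc c (4 ^ n), ← mul_pow, hn, pow_mul]
      gcongr
      exact c1.trans (by gcongr)
  have i2 := fun w => int_pow fub hF ha n (t w)
  have M0 : 0 ≤ M := by
    have : 0 ≤ ∫ x, |g x| := integral_nonneg fun _ => abs_nonneg _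
    positivity
  calc ∫ ω, sm φ a g ω ^ n ∂μ
      ≤ ∫ ω, (4 : ℝ) ^ (2 * k + 1) * ∑ w : W, sm φ a (pc g {y | b y = w}) ω ^ n ∂μ := by
        refine integral_mono (int_pow fub hF ha n hg)
          ((integrable_finset_sum univ fun w _ => i2 w).const_mul _) fun ω => ?_
        show sm φ a g ω ^ n ≤ _
        rw [s1 ω, ← ev.pow_abs]
        refine (pow_le_pow_left₀ (abs_nonneg _) (abs_sum_le_sum_abs _ _) n).trans ?_
        have := pow_sum_le_card_mul_sum_pow (s := univ)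
          (f := fun w : W => |sm φ a (pc g {y | b y = w}) ω|) (fun _ _ => abs_nonneg _) (2 * k + 1)
        rw [card_univ, cW, show 2 * k + 1 + 1 = n by omega] at this
        simpa only [ev.pow_abs, Nat.cast_ofNat] using this
    _ ≤ 4 ^ (2 * k + 1) * (4 * M) := by
        rw [integral_const_mul, integral_finset_sum _ fun w _ => i2 w]
        refine mul_le_mul_of_nonneg_left ((sum_le_sum fun w _ => o w).trans ?_) (by positivity)
        rw [sum_const, card_univ, cW, nsmul_eq_mul, Nat.cast_ofNat]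
    _ = _ := by
        rw [← mul_assoc, ← pow_succ, show 2 * k + 1 + 1 = n by omega]
        ring

theorem momU (n : ℕ) (hn : Even n) (h2 : 2 ≤ n) : ∃ δ > (0 : ℝ), δ ≤ 1 ∧ ∀ K₀ T : ℝ, 0 ≤ K₀ →
    0 < T → ∃ A : ℝ, 0 ≤ A ∧ ∀ (Ω : Type) [MeasurableSpace Ω] (μ : Measure Ω) φ, Fd μ φ →
    ∀ a > (0 : ℝ), SepA μ φ n δ K₀ T a → ∀ ε > (0 : ℝ), ∀ z g, Tf z ε g →
    ∫ ω, sm φ a g ω ^ n ∂μ ≤ A * (ε ^ (15 / 8 : ℝ)) ^ n := by
  obtain ⟨c, hc, hst⟩ := stepU n hn h2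
  obtain ⟨δ, hδ, hδ4, hcδ⟩ := mom_delta c n (by omega)
  refine ⟨δ, hδ, by linarith, fun K₀ T hK₀ hT => ?_⟩
  obtain ⟨K, hKe⟩ : ∃ K, K = 4 ^ n * (2 * K₀) := ⟨_, rfl⟩
  have hK : 0 ≤ K := by rw [hKe]; positivity
  have hT8 : 0 ≤ T ^ (1 / 8 : ℝ) := Real.rpow_nonneg hT.le _
  set A : ℝ := 2 * (K * 4 ^ n) + (4 * T ^ (1 / 8 : ℝ)) ^ n with hA
  have hA1 : 0 ≤ K * 4 ^ n := by positivity
  have hA2 : 0 ≤ (4 * T ^ (1 / 8 : ℝ)) ^ n := by positivity
  have hA0 : 0 ≤ A := by positivity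
  refine ⟨A, hA0, fun Ω _ μ φ hF a ha hS => ?_⟩
  haveI := hF.prob
  have hs := hst Ω μ φ hF δ hδ (by linarith) K₀ T a hK₀ hT ha hS
  rw [← hKe] at hs
  obtain ⟨hf, -⟩ := fub Ω μ φ hF a ha
  have base : ∀ ε > (0 : ℝ), ε ≤ T * a → ∀ z g, Tf z ε g →
      ∫ ω, sm φ a g ω ^ n ∂μ ≤ A * (ε ^ (15 / 8 : ℝ)) ^ n := by
    intro ε hε hle z g hg
    obtain ⟨-, -, -, hb, hi⟩ := hf z ε g hg
    have hi := hi hε.le
    have h1 : a ^ (-(1 / 8) : ℝ) ≤ T ^ (1 / 8 : ℝ) * ε ^ (-(1 / 8) : ℝ) := by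
      have h3 : ε / T ≤ a := by
        rw [div_le_iff₀ hT]
        linarith
      have h4 := Real.rpow_le_rpow_of_nonpos (div_pos hε hT) h3 (show (-(1 / 8) : ℝ) ≤ 0 by norm_num)
      refine h4.trans (le_of_eq ?_)
      rw [Real.div_rpow hε.le hT.le, Real.rpow_neg hT.le, div_inv_eq_mul, mul_comm]
    have h5 : ∀ ω, |sm φ a g ω| ≤ 4 * T ^ (1 / 8 : ℝ) * ε ^ (15 / 8 : ℝ) := by
      intro ω
      refine (hb ω).trans ?_
      calc a ^ (-(1 / 8) : ℝ) * ∫ x, |g x|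
          ≤ (T ^ (1 / 8 : ℝ) * ε ^ (-(1 / 8) : ℝ)) * (4 * ε ^ 2) :=
            mul_le_mul h1 hi (integral_nonneg fun x => abs_nonneg _) (by positivity)
        _ = T ^ (1 / 8 : ℝ) * (ε ^ (-(1 / 8) : ℝ) * (4 * ε ^ 2)) := by ring
        _ = 4 * T ^ (1 / 8 : ℝ) * ε ^ (15 / 8 : ℝ) := by
            rw [mom_scale hε]
            ring
    have h6 : ∫ ω, sm φ a g ω ^ n ∂μ ≤
        ∫ _ω, (4 * T ^ (1 / 8 : ℝ) * ε ^ (15 / 8 : ℝ)) ^ n ∂μ := by
      refine integral_mono_of_nonneg (Eventually.of_forall fun ω => hn.pow_nonneg _)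
        (integrable_const _) (Eventually.of_forall fun ω => ?_)
      show sm φ a g ω ^ n ≤ _
      rw [← hn.pow_abs]
      exact pow_le_pow_left₀ (abs_nonneg _) (h5 ω) n
    rw [integral_const, probReal_univ, one_smul, mul_pow] at h6
    refine h6.trans (mul_le_mul_of_nonneg_right (by linarith) (by positivity))
  have ind : ∀ k : ℕ, ∀ ε > (0 : ℝ), ε * (2 * δ) ^ k ≤ T * a → ∀ z g, Tf z ε g →
      ∫ ω, sm φ a g ω ^ n ∂μ ≤ A * (ε ^ (15 / 8 : ℝ)) ^ n := by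
    intro k
    induction k with
    | zero =>
      intro ε hε hle
      exact base ε hε (by simpa using hle)
    | succ k ih =>
      intro ε hε hle z g hg
      rcases le_total ε (T * a) with h | h
      · exact base ε hε h z g hg
      have hε' : 0 < 2 * δ * ε := by positivity
      have h1 := hs ε (A * ((2 * δ * ε) ^ (15 / 8 : ℝ)) ^ n) z g h hg (by positivity)
        (fun z' g' hg' => ih (2 * δ * ε) hε' (by
          have : 2 * δ * ε * (2 * δ) ^ k = ε * (2 * δ) ^ (k + 1) := by ring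
          rw [this]
          exact hle) z' g' hg')
      refine h1.trans ?_
      obtain ⟨-, -, -, -, hi⟩ := hf z ε g hg
      have hi := hi hε.le
      have hE : 0 ≤ (ε ^ (15 / 8 : ℝ)) ^ n := by positivity
      have h3 : (ε ^ (-(1 / 8) : ℝ) * ∫ x, |g x|) ^ n ≤ 4 ^ n * (ε ^ (15 / 8 : ℝ)) ^ n := by
        rw [← mul_pow, ← mom_scale hε]
        exact pow_le_pow_left₀ (mul_nonneg (by positivity) (integral_nonneg fun x => abs_nonneg _))
          (mul_le_mul_of_nonneg_left hi (by positivity)) n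
      have h4 : c * δ⁻¹ ^ n * (A * ((2 * δ * ε) ^ (15 / 8 : ℝ)) ^ n) ≤
          1 / 2 * (A * (ε ^ (15 / 8 : ℝ)) ^ n) := by
        rw [Real.mul_rpow (by positivity) hε.le, mul_pow]
        calc c * δ⁻¹ ^ n * (A * (((2 * δ) ^ (15 / 8 : ℝ)) ^ n * (ε ^ (15 / 8 : ℝ)) ^ n))
            = (c * δ⁻¹ ^ n * ((2 * δ) ^ (15 / 8 : ℝ)) ^ n) * (A * (ε ^ (15 / 8 : ℝ)) ^ n) := by ring
          _ ≤ 1 / 2 * (A * (ε ^ (15 / 8 : ℝ)) ^ n) :=
            mul_le_mul_of_nonneg_right hcδ (mul_nonneg hA0 hE)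
      have h5 := mul_le_mul_of_nonneg_left h3 hK
      have h6 : K * 4 ^ n * (ε ^ (15 / 8 : ℝ)) ^ n ≤ 1 / 2 * A * (ε ^ (15 / 8 : ℝ)) ^ n :=
        mul_le_mul_of_nonneg_right (by linarith) hE
      nlinarith
  intro ε hε z g hg
  obtain ⟨k, hk⟩ := exists_pow_lt_of_lt_one (div_pos (mul_pos hT ha) hε)
    (show 2 * δ < 1 by linarith)
  refine ind k ε hε ?_ z g hg
  rw [lt_div_iff₀ hε] at hk
  linarith

/-- Minkowski's inequality for even moments -/
theorem mink {μ : Measure Ω} {ι : Type} (s : Finset ι) {X : ι → Ω → ℝ} {r : ι → ℝ} {n : ℕ}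
    (hn : Even n) (h0 : n ≠ 0) (hr : ∀ i ∈ s, 0 < r i) (hi : ∀ i ∈ s, Integrable (fun ω => X i ω ^ n) μ)
    (hX : ∀ i ∈ s, ∫ ω, X i ω ^ n ∂μ ≤ r i ^ n) :
    ∫ ω, (∑ i ∈ s, X i ω) ^ n ∂μ ≤ (∑ i ∈ s, r i) ^ n := by
  rcases s.eq_empty_or_nonempty with rfl | hs
  · simp [h0]
  obtain ⟨R, hR⟩ : ∃ R, R = ∑ i ∈ s, r i := ⟨_, rfl⟩
  have R0 : 0 < R := hR ▸ Finset.sum_pos hr hs
  rw [← hR]
  have i1 : ∀ i ∈ s, Integrable (fun ω => r i / R * (R / r i) ^ n * X i ω ^ n) μ :=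
    fun i h => (hi i h).const_mul _
  have w1 : ∑ i ∈ s, r i / R = 1 := by rw [← Finset.sum_div, ← hR, div_self R0.ne']
  refine (integral_mono_of_nonneg (Eventually.of_forall fun ω => hn.pow_nonneg _)
    (integrable_finset_sum s i1) (Eventually.of_forall fun ω => ?_)).trans ?_
  · have := (hn.convexOn_pow (𝕜 := ℝ)).map_sum_le (t := s) (w := fun i => r i / R)
      (p := fun i => R / r i * X i ω) (fun i h => (div_pos (hr i h) R0).le) w1
      fun _ _ => Set.mem_univ _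
    simp only [smul_eq_mul, mul_pow] at this
    have e : ∑ i ∈ s, r i / R * (R / r i * X i ω) = ∑ i ∈ s, X i ω :=
      Finset.sum_congr rfl fun i h => by
        have := (hr i h).ne'
        field_simp
    rw [e] at this
    simpa only [mul_assoc] using this
  · rw [integral_finset_sum s i1]
    refine (Finset.sum_le_sum (g := fun i => r i / R * R ^ n) fun i h => ?_).trans ?_
    · have p := hr i h
      rw [integral_const_mul, mul_assoc]
      refine mul_le_mul_of_nonneg_left ((mul_le_mul_of_nonneg_left (hX i h)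
        (by positivity)).trans_eq ?_) (by positivity)
      rw [← mul_pow, div_mul_cancel₀ _ p.ne']
    · rw [← Finset.sum_mul, w1, one_mul]

theorem mink2 {μ : Measure Ω} {X Y : Ω → ℝ} {r s : ℝ} {n : ℕ} (hn : Even n) (h0 : n ≠ 0)
    (hr : 0 < r) (hs : 0 < s) (iX : Integrable (fun ω => X ω ^ n) μ)
    (iY : Integrable (fun ω => Y ω ^ n) μ) (hX : ∫ ω, X ω ^ n ∂μ ≤ r ^ n)
    (hY : ∫ ω, Y ω ^ n ∂μ ≤ s ^ n) : ∫ ω, (X ω + Y ω) ^ n ∂μ ≤ (r + s) ^ n := by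
  have := mink (μ := μ) (Finset.univ : Finset Bool) (X := fun b => bif b then X else Y)
    (r := fun b => bif b then r else s) hn h0 (by rintro (_ | _) - <;> assumption)
    (by rintro (_ | _) - <;> assumption) (by rintro (_ | _) - <;> assumption)
  simpa only [Fintype.sum_bool, cond_true, cond_false] using this

theorem cr_bd {μ : Measure Ω} [IsProbabilityMeasure μ] {φ : ℝ → ℂ → Ω → ℝ} {a A : ℝ}
    (h : ∀ x ω, |φ a x ω| ≤ A) {n : ℕ} (x : Fin n → ℂ) : |cr μ φ a x| ≤ A ^ n := by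
  have k := norm_integral_le_of_norm_le_const (μ := μ) (f := fun ω => ∏ i, φ a (x i) ω)
    (C := A ^ n) (Eventually.of_forall fun ω => by
      rw [Real.norm_eq_abs, Finset.abs_prod]
      refine (Finset.prod_le_prod (fun i _ => abs_nonneg _) fun i _ => h (x i) ω).trans ?_
      rw [Finset.prod_const, Finset.card_univ, Fintype.card_fin])
  simpa [cr] using k

end gen

/-- the field cut to `K`, at one mesh only -/
def p1 (K : Set ℂ) (a a' : ℝ) (x : ℂ) (ω : ℝ → Config) : ℝ := if a' = a then pk K a x ω else 0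

variable {E : Fam} {μ : Measure (ℝ → Config)} {K D : Set ℂ} {n : ℕ}

theorem pk_bd {a : ℝ} (ha : 0 < a) (x : ℂ) (ω : ℝ → Config) :
    |pk K a x ω| ≤ a ^ (-(1 / 8) : ℝ) := by
  have p : 0 ≤ a ^ (-(1 / 8) : ℝ) := Real.rpow_nonneg ha.le _
  by_cases hx : x ∈ K
  · rw [pk, Set.indicator_of_mem hx, abs_mul, abs_sp, mul_one, abs_of_nonneg p]
  · rw [pk, Set.indicator_of_notMem hx, abs_zero]
    exact p

theorem cr_one (a : ℝ) (x : Fin n → ℂ) : cr μ (p1 K a) a x = cr μ (pk K) a x := by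
  simp only [cr, p1, if_true]

theorem sm_one {g : ℂ → ℝ} (hg : ∀ x, g x ≠ 0 → x ∈ K) (a : ℝ) (ω : ℝ → Config) :
    sm (p1 K a) a g ω = smear a g (ω a) := by
  rw [← sm_eq (K := K) hg]
  simp only [sm, p1, if_true]

theorem fd_one (hK : MeasurableSet K) (hb : Bornology.IsBounded K) (h : IsProbabilityMeasure μ)
    {a : ℝ} (ha : 0 < a) : Fd μ (p1 K a) where
  prob := h
  meas := fun a' => by
    by_cases e : a' = a
    · simp only [p1, if_pos e]
      exact Measurable.indicator (f := fun p : ℂ × (ℝ → Config) =>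
        a ^ (-(1 / 8) : ℝ) * sp (p.2 a (fl a p.1))) (s := Prod.fst ⁻¹' K)
        ((spin_meas a).comp (f := fun p : ℂ × (ℝ → Config) => (p.1, p.2 a))
          (measurable_fst.prodMk ((measurable_pi_apply a).comp measurable_snd)))
        (measurable_fst hK)
    · simp only [p1, if_neg e]
      exact measurable_const
  bd := fun a' ha' x ω => by
    by_cases e : a' = a
    · rw [p1, if_pos e, e]
      exact pk_bd ha x ω
    · rw [p1, if_neg e, abs_zero]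
      positivity
  sep := fun n he h2 δ hδ => by
    obtain ⟨B, hB0, hB⟩ := hb.subset_ball_lt 0 (0 : ℂ)
    have hW : 0 < 2 * B / δ := by positivity
    have pW : 0 < ((2 * B / δ) ^ (-(1 / 8) : ℝ)) ^ n := by positivity
    refine ⟨(a ^ (-(1 / 8) : ℝ)) ^ n / ((2 * B / δ) ^ (-(1 / 8) : ℝ)) ^ n, 1, by positivity,
      one_pos, fun a' ε z x ha' hTa hx hsep => ?_⟩
    have hε : 0 < ε := by linarith
    by_cases e : a' = a
    swap
    · have : ∀ ω, ∏ i, p1 K a a' (x i) ω = 0 := fun ω =>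
        Finset.prod_eq_zero (Finset.mem_univ ⟨0, by omega⟩) (if_neg e)
      simp only [cr, this, integral_zero, abs_zero]
      positivity
    subst e
    rw [cr_one]
    by_cases hxK : ∀ i, x i ∈ K
    swap
    · rw [cr_out a' hxK, abs_zero]
      positivity
    have w1 := hsep ⟨0, by omega⟩ ⟨1, by omega⟩ (by simp)
    have w2 := mem_ball_zero_iff.1 (hB (hxK ⟨0, by omega⟩))
    have w3 := mem_ball_zero_iff.1 (hB (hxK ⟨1, by omega⟩))
    have w4 := norm_sub_le (x ⟨0, by omega⟩) (x ⟨1, by omega⟩)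
    have w5 : ε ≤ 2 * B / δ := by
      rw [le_div_iff₀ hδ]
      linarith
    refine (cr_bd (pk_bd ha) x).trans ?_
    rw [div_mul_eq_mul_div, le_div_iff₀ pW]
    exact mul_le_mul_of_nonneg_left (pow_le_pow_left₀ (by positivity)
      (Real.rpow_le_rpow_of_nonpos hε w5 (by norm_num)) n) (by positivity)

/-- the bound at all scales up to the boundary -/
def SepL (D : Set ℂ) (E : Fam) : Prop :=
  ∀ n : ℕ, Even n → ∀ δ > (0 : ℝ), ∃ K T κ ε₀ : ℝ, 0 ≤ K ∧ 0 < T ∧ 1 ≤ κ ∧ 0 < ε₀ ∧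
    ∀ (a ε : ℝ) (z : ℂ) (x : Fin n → ℂ), 0 < a → T * a ≤ ε → ε ≤ ε₀ →
      ball z (κ * ε) ⊆ D → (∀ i, x i ∈ ball z ε) → (∀ i j, i ≠ j → δ * ε ≤ ‖x i - x j‖) →
      |cs E a x| ≤ K * (ε ^ (-(1 / 8) : ℝ)) ^ n

/-- moments in deep balls -/
def Blk (D : Set ℂ) (μ : Measure (ℝ → Config)) (n : ℕ) (A κ ε₀ : ℝ) : Prop :=
  ∀ a > (0 : ℝ), ∀ ε > (0 : ℝ), ε ≤ ε₀ → ∀ z g, ball z (κ * ε) ⊆ D → Tf z ε g →
    ∫ ω, smear a g (ω a) ^ n ∂μ ≤ (A * ε ^ (15 / 8 : ℝ)) ^ n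

theorem blk (h : Rp E μ) (hS : SepL D E) (hn : Even n) (h0 : n ≠ 0) :
    ∃ A κ ε₀ : ℝ, 0 < A ∧ 1 ≤ κ ∧ 0 < ε₀ ∧ Blk D μ n A κ ε₀ := by
  have h2 : 2 ≤ n := by
    obtain ⟨k, rfl⟩ := hn
    omega
  obtain ⟨δ, hδ, -, hm⟩ := momU n hn h2
  obtain ⟨K, T, κ, ε₀, hK, hT, hκ, hε₀, hs⟩ := hS n hn δ hδ
  obtain ⟨A, hA, hm⟩ := hm K T hK hT
  have q : 0 ≤ 2 * (1 + κ) / δ := by positivity
  refine ⟨A + 1, 1 + 2 * (1 + κ) / δ, δ * ε₀ / 2, by positivity, by linarith, by positivity,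
    fun a ha ε hε he z g hz hg => ?_⟩
  have := hm _ μ _ (fd_one (K := Metric.ball z ε) measurableSet_ball isBounded_ball h.1 ha) a ha
    (fun ε' z' x hTa hx hsep => ?_) ε hε z g hg
  · simp only [sm_one hg.sup] at this
    refine this.trans ?_
    rw [mul_pow]
    exact mul_le_mul_of_nonneg_right (((le_add_iff_nonneg_right A).2 zero_le_one).trans
      (le_self_pow₀ (by linarith) h0)) (by positivity)
  have hε' : 0 < ε' := lt_of_lt_of_le (by positivity) hTa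
  rw [cr_one]
  by_cases hxK : ∀ i, x i ∈ ball z ε
  swap
  · rw [cr_out a hxK, abs_zero]
    positivity
  rw [cr_in h a hxK]
  have w1 := hsep ⟨0, by omega⟩ ⟨1, by omega⟩ (by simp)
  have w2 := mem_ball.1 (hxK ⟨0, by omega⟩)
  have w3 := mem_ball.1 (hxK ⟨1, by omega⟩)
  have w4 := dist_triangle_right (x ⟨0, by omega⟩) (x ⟨1, by omega⟩) z
  rw [← dist_eq_norm] at w1
  have w5 : ε' ≤ 2 * ε / δ := by
    rw [le_div_iff₀ hδ]
    linarith
  refine hs a ε' z' x ha hTa (by nlinarith) (fun y hy => hz ?_) hx hsep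
  have y1 := mem_ball.1 hy
  have y2 := mem_ball.1 (hx ⟨0, by omega⟩)
  have y3 := dist_triangle4 y z' (x ⟨0, by omega⟩) z
  rw [dist_comm z'] at y3
  have y4 : (1 + κ) * ε' ≤ (1 + κ) * (2 * ε / δ) := mul_le_mul_of_nonneg_left w5 (by linarith)
  have y5 : (1 + 2 * (1 + κ) / δ) * ε = ε + (1 + κ) * (2 * ε / δ) := by ring
  rw [mem_ball, y5]
  linarith

end Vale.Agent.N144.Sf.Bk
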