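import Vale.Agent.N144.W.Defs
import Vale.Agent.N144.G.Gap
import Vale.Agent.P144E.An3.Shr

/-!
A small cluster of fluxes keeps the change of scale and the gap, wherever the boundary is.
-/

namespace Vale.Agent.N144.Cl

open Finset Matrix Vale.Agent.P144Z Tele

variable {M : ℕ} [NeZero M]

/-- The energy in the square of radius `ρ`. -/
noncomputable def en (A : Gauge M) (z : Tor M) (ρ : ℕ) (φ : Tor M × Fin 4 → ℝ) : ℝ :=
  l2sq (ball z ρ) φ + (ρ : ℝ) ^ 2 * l2sq (ball z ρ) (Dm A *ᵥ φ)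

theorem en_nonneg (A : Gauge M) (z : Tor M) (ρ : ℕ) (φ : Tor M × Fin 4 → ℝ) : 0 ≤ en A z ρ φ :=
  add_nonneg (E5.l2sq_nonneg _ _) (mul_nonneg (sq_nonneg _) (E5.l2sq_nonneg _ _))

/-- The decay between all scales from `8` to `ρ₀`, at all centres. -/
def Dec1 (A : Gauge M) (ρ₀ : ℕ) (c β : ℝ) : Prop :=
  ∀ (z : Tor M) (s ρ : ℕ), 8 ≤ s → s ≤ ρ → ρ ≤ ρ₀ → ∀ φ,
    l2sq (ball z s) φ ≤ c * ((s : ℝ) / ρ) ^ (1 + β) * en A z ρ φ

theorem hsq_hom {A : Gauge M} {z : Tor M} {ρ r : ℕ} {φ : Tor M × Fin 4 → ℝ} (h : Hom A z ρ φ)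
    (hr : r + 3 ≤ ρ) (x : ℝ) : hsq A x (ball z r) φ = l2sq (ball z r) φ := by
  rw [E4.hsq_eq, add_eq_left]
  refine sum_eq_zero fun k hk => ?_
  rw [mem_range] at hk
  rw [E5.l2sq_congr (g := 0) fun s hs => ?_]
  · simp [l2sq]
  · have k1 := Dm_local A (φ := Dm A *ᵥ φ) (φ' := 0) (z := z) (r := r) k
      (fun t ht => h t (by omega)) s (E5.mem_ball.1 hs)
    rw [mulVec_zero, mulVec_mulVec, ← pow_succ] at k1
    exact k1

theorem homDec {A : Gauge M} {ρ₀ : ℕ} {c β : ℝ} (hc : 1 ≤ c) (h0 : 0 < β) (h1 : β ≤ 1 / 2)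
    (h : ShA A ρ₀ c β) (z : Tor M) {ρ₁ : ℕ} (hρ : ρ₁ ≤ ρ₀) : HomDecH A z 8 ρ₁ (4 * c) β := by
  intro s ρ a1 a2 a3 φ hφ
  have n0 := E5.l2sq_nonneg (ball z ρ) φ
  have s0 : (0 : ℝ) < s := by exact_mod_cast (by omega : 0 < s)
  have s1 : (s : ℝ) ≤ ρ := by exact_mod_cast a2
  have r0 := s0.trans_le s1
  have c2 : 1 ≤ c ^ 2 := one_le_pow₀ hc
  by_cases hs : (s + 1) / 2 ≤ (ρ - 3) / 2
  · have k1 := h ((s + 1) / 2) ((ρ - 3) / 2) (by omega) hs (by omega) z φ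
    rw [hsq_hom hφ (r := 2 * ((ρ - 3) / 2)) (by omega)] at k1
    have k2 := (E5.l2sq_mono (E5.ball_mono z (by omega : s ≤ 2 * ((s + 1) / 2))) φ).trans
      ((E4.l2sq_le_hsq A (((s + 1) / 2 : ℕ) : ℝ) _ φ).trans k1)
    have k3 := E5.l2sq_mono (E5.ball_mono z (by omega : 2 * ((ρ - 3) / 2) ≤ ρ)) φ
    have p0 : (0 : ℝ) < ((ρ - 3) / 2 : ℕ) := by exact_mod_cast (by omega : 0 < (ρ - 3) / 2)
    have p1 : (((s + 1) / 2 : ℕ) : ℝ) ≤ s := by exact_mod_cast (by omega : (s + 1) / 2 ≤ s)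
    have p2 : (ρ : ℝ) ≤ 4 * ((ρ - 3) / 2 : ℕ) := by
      exact_mod_cast (by omega : ρ ≤ 4 * ((ρ - 3) / 2))
    have k4 := An3.rpow_le_mul (x := (((s + 1) / 2 : ℕ) : ℝ) / ((ρ - 3) / 2 : ℕ))
      (y := (s : ℝ) / ρ) (k := 4) (by positivity) (by positivity) (by norm_num) (by
        rw [← mul_div_assoc, div_le_div_iff₀ p0 r0]
        nlinarith) h0 h1
    calc _ ≤ c ^ 2 * (4 ^ 2 * ((s : ℝ) / ρ) ^ (1 + β)) * l2sq (ball z ρ) φ :=
          k2.trans (mul_le_mul (by gcongr) k3 (E5.l2sq_nonneg _ _) (by positivity))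
      _ = _ := by ring
  · have p1 : (ρ : ℝ) ≤ 2 * s := by exact_mod_cast (by omega : ρ ≤ 2 * s)
    have k1 := An3.sq_le_rpow s0 s1 h1
    have k2 : 1 ≤ 4 * ((s : ℝ) / ρ) ^ 2 := by
      rw [div_pow, ← mul_div_assoc, le_div_iff₀ (by positivity)]
      nlinarith
    refine (E5.l2sq_mono (E5.ball_mono z a2) φ).trans (le_mul_of_one_le_left n0 ?_)
    nlinarith

theorem solv_of {A : Gauge M} {ρ₀ : ℕ} {c : ℝ} (hc : 1 ≤ c) (h : Coe A ρ₀ c) (z : Tor M) {ρ₁ : ℕ}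
    (hρ : ρ₁ ≤ ρ₀) : Solv A z 8 ρ₁ (4 * c) := by
  intro ρ h1 h2 σ
  have n1 := E5.l2sq_nonneg (ball z ρ) σ
  obtain ⟨w, hw, hw'⟩ := exists_solve A (ball z ρ) σ
    (c := (4 * c) ^ 2 * (ρ : ℝ) ^ 2 * l2sq (ball z ρ) σ) (by positivity) fun ζ hζ => by
      have k1 := h z ρ h1 (by omega) ζ fun t ht => hζ t fun h => by
        have := E5.mem_ball.1 h
        omega
      have n2 := E5.l2sq_nonneg univ (Dm A *ᵥ ζ)
      rw [dotProduct_comm]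
      refine (E5.dot_sq_le hζ σ).trans ((mul_le_mul_of_nonneg_right k1 n1).trans ?_)
      calc _ = (1 * c) ^ 2 * (ρ : ℝ) ^ 2 * l2sq (ball z ρ) σ * l2sq univ (Dm A *ᵥ ζ) := by ring
        _ ≤ _ := by gcongr; norm_num
  exact ⟨w, hw, fun t ht => hw' t (E5.mem_ball.2 ht)⟩

theorem dec1 {A : Gauge M} {ρ₀ : ℕ} {c β : ℝ} (hc : 1 ≤ c) (h0 : 0 < β) (h1 : β ≤ 1 / 2)
    (h : ShA A ρ₀ c β) (h' : Coe A ρ₀ c) : Dec1 A ρ₀ ((34 * (4 * c) ^ 2) ^ 2) β := by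
  intro z s ρ a1 a2 a3 w
  have hd := homDec hc h0 h1 h z a3
  have hs := solv_of hc h' z a3
  have hc1 : 1 ≤ 4 * c := by linarith
  generalize 4 * c = c at hd hs hc1
  have hcc : c ≤ c ^ 2 := by nlinarith
  have hc0 : 0 ≤ c := by linarith
  set H := √(en A z ρ w) with hH
  have hH0 : 0 ≤ H := Real.sqrt_nonneg _
  have hH2 : H ^ 2 = en A z ρ w := Real.sq_sqrt (en_nonneg _ _ _ _)
  have hρ : (0 : ℝ) < ρ := by exact_mod_cast (by omega : 0 < ρ)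
  have a0 : nr (ball z ρ) w ≤ H := Real.sqrt_le_sqrt
    (le_add_of_nonneg_right (mul_nonneg (sq_nonneg _) (E5.l2sq_nonneg _ _)))
  have b1 : ρ * nr (ball z ρ) (Dm A *ᵥ w) ≤ H := le_of_sq hH0 (by
    rw [mul_pow, nr_sq, hH2]; exact le_add_of_nonneg_left (E5.l2sq_nonneg _ _))
  obtain ⟨v, hv1, hv2⟩ := solv hs hc0 (a1.trans a2) le_rfl w
  have h3 := An3.step hd hs hc1 h0 h1 (by omega) a1 w ρ a2 le_rfl v hv1 hv2
  have h4 := An3.decH hd hc0 (by omega) a1 a2 le_rfl hv2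
  have h5 := nr_sub (ball z ρ) w v
  have h6 := (nr_mono (subset_univ (ball z ρ)) v).trans hv1
  set G := nr (ball z ρ) (Dm A *ᵥ w) with hG
  set a := (s : ℝ) ^ ((1 + β) / 2) with ha
  have ha0 : 0 ≤ a := by positivity
  have h7 : c * a * nr (ball z ρ) (w - v) ≤ c * a * (H + c * H) :=
    mul_le_mul_of_nonneg_left (by nlinarith) (by positivity)
  have h8 := mul_le_mul_of_nonneg_right h3 (Real.rpow_nonneg hρ.le ((1 + β) / 2))
  have h9 : 32 * c ^ 2 * a * ((ρ : ℝ) ^ ((1 - β) / 2) * G) * (ρ : ℝ) ^ ((1 + β) / 2) ≤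
      32 * c ^ 2 * a * H := by
    rw [mul_assoc]
    refine mul_le_mul_of_nonneg_left (le_of_eq_of_le ?_ b1) (by positivity)
    nth_rw 3 [← An3.gh hρ β]
    ring
  have h10 : nr (ball z s) w * (ρ : ℝ) ^ ((1 + β) / 2) ≤ 34 * c ^ 2 * a * H := by
    have := mul_le_mul_of_nonneg_right hcc (mul_nonneg ha0 hH0)
    linarith
  have h11 := pow_le_pow_left₀ (mul_nonneg (nr_nonneg _ _) (by positivity)) h10 2
  rw [mul_pow, nr_sq, mul_pow, mul_pow, hH2, An3.rpow_sq hρ.le, ha,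
    An3.rpow_sq (by positivity)] at h11
  rwa [Real.div_rpow (by positivity) hρ.le, mul_div_assoc', div_mul_eq_mul_div,
    le_div_iff₀ (by positivity)]

omit [NeZero M] in
theorem l2sq_cutB {η : Tor M → ℝ} (hη : ∀ x, 0 ≤ η x ∧ η x ≤ 1) (B : Finset (Tor M))
    (f : Tor M × Fin 4 → ℝ) : l2sq B (fun s => η s.1 * f s) ≤ l2sq B f := by
  refine sum_le_sum fun x _ => sum_le_sum fun a _ => ?_
  rw [mul_pow]
  exact mul_le_of_le_one_left (sq_nonneg _) (pow_le_one₀ (hη x).1 (hη x).2)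

/-- Removal of the neighbourhood of the cluster, with local norms. -/
theorem split : ∃ C : ℝ, 1 ≤ C ∧ ∀ (M : ℕ) [NeZero M] (A A₀ A' : Gauge M) (c : Tor M)
    (R : ℕ), IsSign A' → 1 ≤ R → (∀ e, R < tdist e.1 c → A e = A₀ e) →
    (∀ e : Tor M × Fin 2, tdist e.1 c ≤ 2 * R + 2 → A e = A' e) →
    ∀ φ : Tor M × Fin 4 → ℝ, ∃ ψ h s : Tor M × Fin 4 → ℝ,
      Dm A₀ *ᵥ ψ = h - s ∧ (∀ B, l2sq B h ≤ l2sq B (Dm A *ᵥ φ)) ∧ (∀ B, l2sq B ψ ≤ l2sq B φ) ∧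
      SuppIn s c (2 * R + 1) ∧ (R : ℝ) ^ 2 * l2sq univ s ≤ C * l2sq (ball c (4 * R)) φ ∧
      l2sq univ (φ - ψ) ≤ l2sq (ball c (4 * R)) φ := by
  obtain ⟨C, hC, hc⟩ := E5.cut_est
  refine ⟨C, hC, fun M _ A A₀ A' c R h hR hO hA φ => ?_⟩
  obtain ⟨η, e0, e1, e2, e3⟩ := hc M A' h c (R + 1) R hR
  have e0' : ∀ x, 0 ≤ 1 - η x ∧ 1 - η x ≤ 1 := fun x => ⟨by linarith [(e0 x).2], by
    linarith [(e0 x).1]⟩
  refine ⟨fun s => (1 - η s.1) * φ s, fun s => (1 - η s.1) * (Dm A *ᵥ φ) s,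
    Dm A' *ᵥ (fun s => η s.1 * φ s) - fun s => η s.1 * (Dm A' *ᵥ φ) s, ?_,
    fun B => l2sq_cutB e0' B _, fun B => l2sq_cutB e0' B _, fun s hs => ?_,
    (e3 φ).trans (mul_le_mul_of_nonneg_left
      (E5.l2sq_mono (E5.ball_mono c (by omega)) φ) (by linarith)), ?_⟩
  · rw [← E5.Dm_congr hO fun s hs => by rw [e1 _ hs, sub_self, zero_mul]]
    have k1 : (fun s : Tor M × Fin 4 => (1 - η s.1) * φ s) = φ - fun s => η s.1 * φ s := by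
      funext s
      simp only [Pi.sub_apply]
      ring
    have k2 : Dm A *ᵥ (fun s => η s.1 * φ s) = Dm A' *ᵥ fun s => η s.1 * φ s :=
      B3b.Dm_congr (z := c) (ρ := 2 * R + 1) (fun x i hx _ => hA (x, i) hx)
        fun s hs => by rw [e2 _ (by omega), zero_mul]
    rw [k1, mulVec_sub, k2]
    funext s
    have k3 : η s.1 * (Dm A' *ᵥ φ) s = η s.1 * (Dm A *ᵥ φ) s := by
      rcases le_or_gt (tdist s.1 c) (2 * R + 1) with hs | hs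
      · rw [G.Dm_near hA φ s hs]
      · rw [e2 _ (by omega), zero_mul, zero_mul]
    simp only [Pi.sub_apply, k3]
    ring
  · have k := Dm_local A' (φ := fun s => η s.1 * φ s) (φ' := 0) (z := s.1) (r := 0) 1
      (fun t ht => by
        have t1 := tdist_triangle s.1 t.1 c
        rw [tdist_comm s.1 t.1] at t1
        rw [e2 _ (by omega), zero_mul, Pi.zero_apply]) s (by rw [tdist_self])
    rw [pow_one, mulVec_zero] at k
    rw [Pi.sub_apply, k, e2 _ (by omega), zero_mul, Pi.zero_apply, sub_zero]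
  · have : φ - (fun s : Tor M × Fin 4 => (1 - η s.1) * φ s) = fun s => η s.1 * φ s := by
      funext s
      simp only [Pi.sub_apply]
      ring
    rw [this]
    refine E5.l2sq_cut e0 (fun x hx => e2 x ?_) _
    rw [E5.mem_ball] at hx
    omega

theorem rpow_split {u β : ℝ} (hu : 0 < u) : u ^ (1 + β) = u * u ^ β := by
  rw [Real.rpow_add hu, Real.rpow_one]

theorem le_rpow {u β : ℝ} (hu : 0 < u) (h : u ≤ 1) (h1 : β ≤ 1 / 2) : u ≤ u ^ β := by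
  nth_rw 1 [← Real.rpow_one u]
  exact Real.rpow_le_rpow_of_exponent_ge hu h (by linarith)

/-- The source left by the cluster is removed by a small field. -/
theorem dual {A : Gauge M} {ρ₀ : ℕ} {c β g Cs X : ℝ} (hc : 0 ≤ c) (h0 : 0 < β) (h1 : β ≤ 1 / 2)
    (h : Dec1 A ρ₀ c β) {c₀ : Tor M} {R ρ : ℕ} (hR : 2 ≤ R) (h2 : 4 * R ≤ ρ) (h3 : ρ ≤ ρ₀)
    (S : Finset (Tor M)) (hg : ∀ ζ : Tor M × Fin 4 → ℝ, (∀ t, t.1 ∉ S → ζ t = 0) →
      l2sq univ ζ ≤ (g * ρ) ^ 2 * l2sq univ (Dm A *ᵥ ζ))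
    {s : Tor M × Fin 4 → ℝ} (hs : SuppIn s c₀ (2 * R + 1))
    (hX : (R : ℝ) ^ 2 * l2sq univ s ≤ Cs * X) :
    ∃ w : Tor M × Fin 4 → ℝ, (R : ℝ) / ρ * l2sq univ w ≤
      16 * c * (g ^ 2 + 1) * Cs * ((R : ℝ) / ρ) ^ β * X ∧
      ∀ t, t.1 ∈ S → (Dm A *ᵥ w) t = s t := by
  have r0 : (0 : ℝ) < R := by exact_mod_cast (by omega : 0 < R)
  have p0 : (0 : ℝ) < ρ := by exact_mod_cast (by omega : 0 < ρ)
  have u0 : 0 < (R : ℝ) / ρ := by positivity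
  have hS := E5.l2sq_nonneg univ s
  obtain ⟨w, w1, w2⟩ := exists_solve A S s (c := l2sq univ s *
      (c * (4 ^ 2 * ((R : ℝ) / ρ) ^ (1 + β)) * ((g ^ 2 + 1) * ρ ^ 2))) (by positivity)
    fun ζ hζ => by
      have k1 := E5.dot_sq_le (B := ball c₀ (4 * R))
        (fun u hu => hs u (by rw [E5.mem_ball] at hu; omega)) ζ
      have k2 := h c₀ (4 * R) ρ (by omega) h2 h3 ζ
      have k3 := hg ζ hζ
      have k4 := An3.rpow_le_mul (x := ((4 * R : ℕ) : ℝ) / ρ) (y := (R : ℝ) / ρ) (k := 4)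
        (by positivity) u0.le (by norm_num) (le_of_eq (by push_cast; ring)) h0 h1
      have k5 : en A c₀ ρ ζ ≤ (g ^ 2 + 1) * ρ ^ 2 * l2sq univ (Dm A *ᵥ ζ) := by
        have := mul_le_mul_of_nonneg_left (E5.l2sq_le_univ (ball c₀ ρ) (Dm A *ᵥ ζ))
          (sq_nonneg (ρ : ℝ))
        have := E5.l2sq_le_univ (ball c₀ ρ) ζ
        rw [en]
        nlinarith
      refine k1.trans ?_
      rw [mul_assoc]
      refine mul_le_mul_of_nonneg_left (k2.trans ?_) hS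
      rw [mul_assoc _ ((g ^ 2 + 1) * (ρ : ℝ) ^ 2)]
      exact mul_le_mul (by gcongr) k5 (en_nonneg _ _ _ _) (by positivity)
  refine ⟨w, (mul_le_mul_of_nonneg_left w1 u0.le).trans ?_, w2⟩
  rw [rpow_split u0]
  calc _ = 16 * c * (g ^ 2 + 1) * ((R : ℝ) / ρ) ^ β * ((R : ℝ) ^ 2 * l2sq univ s) := by
        field_simp
        ring
    _ ≤ 16 * c * (g ^ 2 + 1) * ((R : ℝ) / ρ) ^ β * (Cs * X) :=
        mul_le_mul_of_nonneg_left hX (by positivity)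
    _ = _ := by ring

/-- The cluster carries a small part of the local energy, where the weights are those of the
cluster. -/
theorem base (Λ : ℕ) : ∃ K : ℝ, 1 ≤ K ∧ ∀ (M : ℕ) [NeZero M] (A B : Gauge M) (c : Tor M)
    (R r ρ : ℕ), Cluster B 1 c R r → 256 ≤ r → r ≤ R → R ≤ Λ * r → 32 * R ≤ ρ →
    ρ + 1 ≤ M → (∀ e : Tor M × Fin 2, tdist e.1 c ≤ ρ + 1 → A e = B e) →
    ∀ φ : Tor M × Fin 4 → ℝ, l2sq (ball c (4 * R)) φ ≤ K * ((R : ℝ) / ρ) * en A c ρ φ := by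
  obtain ⟨K, hK, hk⟩ := G.clus_loc Λ
  obtain ⟨C, hC, hc⟩ := E5.cut_est
  refine ⟨3 * K * (18 * C + 1), by nlinarith, fun M _ A B c R r ρ h h1 h2 h3 h4 hM hA g => ?_⟩
  obtain ⟨η, e0, e1, e2, e3⟩ := hc M B h.sign c (ρ / 2) (ρ / 2 / 2) (by omega)
  have e4 : ∀ x, x ∉ ball c ρ → η x = 0 := fun x hx => e2 x (by
    rw [E5.mem_ball] at hx
    omega)
  have k0 := hk M B B 1 c R r (ρ / 2) h h1 h2 h3 (by omega) (by omega) (fun _ _ => rfl)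
    fun s => η s.1 * g s
  rw [E5.l2sq_congr (g := g) fun t ht => by
    simp only [e1 _ ((E5.mem_ball.1 ht).trans (by omega : 4 * R ≤ ρ / 2)), one_mul]] at k0
  have k1 := E5.l2sq_cut e0 e4 g
  have k2 := E5.l2sq_add_le univ (Dm B *ᵥ (fun s => η s.1 * g s) -
    fun s => η s.1 * (Dm B *ᵥ g) s) fun s => η s.1 * (Dm B *ᵥ g) s
  rw [sub_add_cancel] at k2
  have k3 := E5.l2sq_cut e0 e4 (Dm B *ᵥ g)
  rw [E5.l2sq_congr (B := ball c ρ) (g := Dm A *ᵥ g) fun s hs =>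
    (G.Dm_near hA g s (E5.mem_ball.1 hs)).symm] at k3
  have k4 := (e3 g).trans (mul_le_mul_of_nonneg_left
    (E5.l2sq_mono (E5.ball_mono c (by omega : ρ / 2 + ρ / 2 / 2 ≤ ρ)) g) (by linarith))
  have n1 := E5.l2sq_nonneg (ball c ρ) g
  have n2 := E5.l2sq_nonneg (ball c ρ) (Dm A *ᵥ g)
  have n3 := E5.l2sq_nonneg univ (Dm B *ᵥ (fun s => η s.1 * g s) - fun s => η s.1 * (Dm B *ᵥ g) s)
  have q0 : (0 : ℝ) < (ρ / 2 : ℕ) := by exact_mod_cast (by omega : 0 < ρ / 2)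
  have q1 : ((ρ / 2 : ℕ) : ℝ) ≤ ρ := by exact_mod_cast Nat.div_le_self ρ 2
  have q2 : (ρ : ℝ) ≤ 3 * (ρ / 2 : ℕ) := by exact_mod_cast (by omega : ρ ≤ 3 * (ρ / 2))
  have q3 : ((ρ / 2 : ℕ) : ℝ) ≤ 3 * (ρ / 2 / 2 : ℕ) := by
    exact_mod_cast (by omega : ρ / 2 ≤ 3 * (ρ / 2 / 2))
  have q4 : (R : ℝ) / (ρ / 2 : ℕ) ≤ 3 * ((R : ℝ) / ρ) := by
    rw [← mul_div_assoc, div_le_div_iff₀ q0 (by linarith)]
    nlinarith [Nat.cast_nonneg (α := ℝ) R]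
  have k5 := mul_le_mul_of_nonneg_right (pow_le_pow_left₀ q0.le q3 2) n3
  have k6 := mul_le_mul_of_nonneg_left k2 (sq_nonneg ((ρ / 2 : ℕ) : ℝ))
  have k7 := mul_le_mul (pow_le_pow_left₀ q0.le q1 2) k3 (E5.l2sq_nonneg _ _) (sq_nonneg _)
  have k8 := mul_le_mul_of_nonneg_right hC (mul_nonneg (sq_nonneg (ρ : ℝ)) n2)
  have k9 : l2sq univ (fun s => η s.1 * g s) + ((ρ / 2 : ℕ) : ℝ) ^ 2 *
      l2sq univ (Dm B *ᵥ fun s => η s.1 * g s) ≤ (18 * C + 1) * en A c ρ g := by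
    rw [en]
    nlinarith
  calc _ ≤ K * (3 * ((R : ℝ) / ρ)) * ((18 * C + 1) * en A c ρ g) :=
        k0.trans (mul_le_mul (by gcongr) k9 (add_nonneg (E5.l2sq_nonneg _ _)
          (mul_nonneg (sq_nonneg _) (E5.l2sq_nonneg _ _))) (by positivity))
    _ = _ := by ring

theorem small_rpow (Q : ℝ) {β : ℝ} (h0 : 0 < β) : ∃ T : ℕ, 2 ≤ T ∧ ∀ x : ℝ, 0 ≤ x → T * x ≤ 1 →
    Q * x ^ β ≤ 1 := by
  refine ⟨⌈|Q| ^ β⁻¹⌉₊ + 2, by omega, fun x hx h => ?_⟩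
  have k1 : |Q| ^ β⁻¹ * x ≤ 1 := by
    refine le_trans (mul_le_mul_of_nonneg_right ((Nat.le_ceil _).trans ?_) hx) h
    push_cast
    linarith
  have k2 := Real.rpow_le_one (by positivity) k1 h0.le
  rw [Real.mul_rpow (by positivity) hx, Real.rpow_inv_rpow (abs_nonneg Q) h0.ne'] at k2
  exact (mul_le_mul_of_nonneg_right (le_abs_self Q) (by positivity)).trans k2

theorem step_num {u v a b K c C T X N' N E Y' Y W : ℝ} (hu : 0 ≤ u) (hv : 0 < v) (ua : u ≤ a)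
    (vb : v ≤ b) (hK : 0 ≤ K) (hc : 0 ≤ c) (hT : 0 < T) (hX : 0 ≤ X) (hN : 0 ≤ N)
    (hE : 0 ≤ E) (hW : 0 ≤ W) (s1 : 1 ≤ 2 * T * v) (s2 : 4 * T * (K * (6 * C + 4)) * a ≤ 1)
    (s3 : 2 * (4 * c + 1) * b ≤ 1) (h1 : v * X ≤ K * u * (N' + v ^ 2 * E))
    (h2 : N' ≤ 2 * Y' + 4 * X + 4 * W) (h3 : Y' ≤ c * (v * b) * (Y + E)) (h4 : Y ≤ 2 * N + 2 * W)
    (h5 : u * W ≤ C * a * X) (hv1 : v ≤ 1) : X ≤ K * u * (N + E) := by
  have ha : 0 ≤ a := hu.trans ua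
  have hb : 0 ≤ b := hv.le.trans vb
  have k1 : Y' ≤ c * (v * b) * (2 * (N + E) + 2 * W) :=
    h3.trans (mul_le_mul_of_nonneg_left (by linarith) (by positivity))
  have k2 : c * (v * b) ≤ 1 / 2 := by
    have : c * (v * b) ≤ c * (1 * b) := by gcongr
    linarith
  have k3 : c * (v * b) * W ≤ 1 / 2 * W := mul_le_mul_of_nonneg_right k2 hW
  have k4 : v ^ 2 * E ≤ v * b * (N + E) := by
    rw [pow_two]
    gcongr
    linarith
  have k5 : N' + v ^ 2 * E ≤ v * ((4 * c + 1) * b) * (N + E) + 6 * W + 4 * X := by nlinarith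
  have k6 : v * ((4 * c + 1) * b) * (N + E) ≤ v * (1 / 2) * (N + E) := by
    gcongr
    linarith
  have k7 : u * X ≤ a * X := mul_le_mul_of_nonneg_right ua hX
  have k8 : u * (N' + v ^ 2 * E) ≤ u * (v * (1 / 2) * (N + E)) + (6 * C + 4) * a * X := by
    have := mul_le_mul_of_nonneg_left (k5.trans (by linarith :
      _ ≤ v * (1 / 2) * (N + E) + 6 * W + 4 * X)) hu
    nlinarith
  have k9 : K * (6 * C + 4) * a ≤ v / 2 := by
    refine le_of_mul_le_mul_left ?_ (by positivity : 0 < 4 * T)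
    nlinarith
  have k10 := mul_le_mul_of_nonneg_right k9 hX
  have k11 := mul_le_mul_of_nonneg_left k8 hK
  refine le_of_mul_le_mul_left ?_ (by positivity : 0 < v / 2)
  nlinarith

/-- The cluster carries a small part of the local energy at all scales. -/
theorem clus {c g β : ℝ} (hc : 0 ≤ c) (h0 : 0 < β) (h1 : β ≤ 1 / 2) (Λ : ℕ) :
    ∃ K : ℝ, 1 ≤ K ∧ ∃ p : ℕ, 32 ≤ p ∧ ∀ (M : ℕ) [NeZero M] (A B : Gauge M) (c₀ : Tor M)
    (R r ρ₀ : ℕ), Dec1 A ρ₀ c β → Coe A ρ₀ g → (∀ e, tdist e.1 c₀ ≤ p * R → A e = 1) →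
    Cluster B 1 c₀ R r → 256 ≤ r → r ≤ R → R ≤ Λ * r → ρ₀ + 1 ≤ M → ∀ ρ, 32 * R ≤ ρ → ρ ≤ ρ₀ →
    ∀ φ : Tor M × Fin 4 → ℝ,
      l2sq (ball c₀ (4 * R)) φ ≤ K * ((R : ℝ) / ρ) * en (A * B) c₀ ρ φ := by
  obtain ⟨K, hK, hk⟩ := base Λ
  obtain ⟨Cs, hCs, hs⟩ := split
  obtain ⟨T, hT, ht⟩ := small_rpow (2 * (4 * c + 1)) h0
  obtain ⟨C, eC⟩ : ∃ C, C = 16 * c * (g ^ 2 + 1) * Cs := ⟨_, rfl⟩
  have hC : 0 ≤ C := by rw [eC]; positivity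
  obtain ⟨K₁, hK₁, hk₁⟩ := small_rpow (4 * T * (K * (6 * C + 4))) h0
  have p1 : 2 * 32 ≤ T * (K₁ + 32) := Nat.mul_le_mul hT (by omega)
  refine ⟨K, hK, T * (K₁ + 32) + 1, by omega,
    fun M _ A B c₀ R r ρ₀ hd ho hA hB a1 a2 a3 hM ρ => ?_⟩
  have p2 : (T * (K₁ + 32) + 1) * R = T * (K₁ * R) + T * (32 * R) + R := by ring
  have p3 : 2 * (32 * R) ≤ T * (32 * R) := Nat.mul_le_mul_right _ hT
  rw [p2] at hA
  have hAB : ∀ e : Tor M × Fin 2, tdist e.1 c₀ ≤ T * (K₁ * R) + T * (32 * R) + R →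
      (A * B) e = B e := fun e he => by rw [Pi.mul_apply, hA e he, one_mul]
  induction ρ using Nat.strong_induction_on with
  | _ ρ ih =>
  intro b1 b2 φ
  by_cases hρ : ρ ≤ T * (K₁ * R) + T * (32 * R)
  · exact hk M (A * B) B c₀ R r ρ hB a1 a2 a3 b1 (by omega) (fun e he => hAB e (by omega)) φ
  have d1 : K₁ * R + 32 * R ≤ ρ / T := by
    rw [Nat.le_div_iff_mul_le (by omega), add_mul, mul_comm _ T, mul_comm _ T]
    omega
  have d2 : T * (ρ / T) ≤ ρ := Nat.mul_div_le ρ T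
  have d3 : ρ < T * (ρ / T + 1) := Nat.lt_mul_div_succ ρ (by omega)
  have d4 : 2 * (ρ / T) ≤ T * (ρ / T) := Nat.mul_le_mul_right _ hT
  have d5 : T * (ρ / T + 1) ≤ T * (2 * (ρ / T)) := Nat.mul_le_mul_left _ (by omega)
  generalize ρ / T = ρ' at d1 d2 d3 d4 d5
  have i1 := ih ρ' (by omega) (by omega) (by omega) φ
  obtain ⟨ψ, h, σ, c1, c2, c3, c4, c5, c6⟩ := hs M (A * B) A B c₀ R hB.sign (by omega)
    (fun e he => by rw [Pi.mul_apply, hB.out e he, Pi.one_apply, mul_one])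
    (fun e he => hAB e (by omega)) φ
  obtain ⟨w, w1, w2⟩ := dual (g := g) hc h0 h1 hd (by omega) (by omega : 4 * R ≤ ρ) b2 (ball c₀ ρ)
    (fun ζ hζ => ho c₀ ρ (by omega) b2 ζ fun t ht => hζ t fun h => by
      have := E5.mem_ball.1 h
      omega) c4 c5
  have y1 := hd c₀ ρ' ρ (by omega) (by omega) b2 (ψ + w)
  have y2 : l2sq (ball c₀ ρ) (Dm A *ᵥ (ψ + w)) = l2sq (ball c₀ ρ) h :=
    E5.l2sq_congr fun t ht => by
      rw [mulVec_add, Pi.add_apply, c1, w2 t ht, Pi.sub_apply, sub_add_cancel]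
  have y3 := E5.l2sq_add_le (ball c₀ ρ') (ψ + w) (φ - ψ - w)
  rw [show ψ + w + (φ - ψ - w) = φ by abel] at y3
  have y4 := (E5.l2sq_le_univ (ball c₀ ρ') _).trans (E5.l2sq_sub_le univ (φ - ψ) w)
  have y5 := E5.l2sq_add_le (ball c₀ ρ) ψ w
  have y6 := E5.l2sq_le_univ (ball c₀ ρ) w
  have y7 := c3 (ball c₀ ρ)
  have r0 : (0 : ℝ) < R := by exact_mod_cast (by omega : 0 < R)
  have q0 : (0 : ℝ) < ρ' := by exact_mod_cast (by omega : 0 < ρ')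
  have q1 : (0 : ℝ) < ρ := by exact_mod_cast (by omega : 0 < ρ)
  have q2 : (ρ' : ℝ) ≤ ρ := by exact_mod_cast (by omega : ρ' ≤ ρ)
  have q3 : (R : ℝ) ≤ ρ := by exact_mod_cast (by omega : R ≤ ρ)
  have q4 : (T : ℝ) * ρ' ≤ ρ := by exact_mod_cast d2
  have q5 : (ρ : ℝ) ≤ T * (2 * ρ') := by exact_mod_cast (by omega : ρ ≤ T * (2 * ρ'))
  have q6 : (K₁ : ℝ) * R ≤ ρ := by exact_mod_cast (by omega : K₁ * R ≤ ρ)
  have u0 : 0 < (R : ℝ) / ρ := by positivity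
  have v0 : 0 < (ρ' : ℝ) / ρ := by positivity
  have v1 : (ρ' : ℝ) / ρ ≤ 1 := (div_le_one q1).2 q2
  have n1 := E5.l2sq_nonneg (ball c₀ ρ) (Dm (A * B) *ᵥ φ)
  rw [rpow_split v0, en, y2] at y1
  refine step_num (T := T) (C := C) (Y := l2sq (ball c₀ ρ) (ψ + w)) (W := l2sq univ w)
    (N' := l2sq (ball c₀ ρ') φ) (Y' := l2sq (ball c₀ ρ') (ψ + w)) u0.le v0
    (le_rpow u0 ((div_le_one q1).2 q3) h1) (le_rpow v0 v1 h1) (by linarith) hc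
    (by exact_mod_cast (by omega : 0 < T)) (E5.l2sq_nonneg _ _) (E5.l2sq_nonneg _ _)
    (by positivity) (E5.l2sq_nonneg _ _) ?_ (hk₁ _ u0.le ?_) (ht _ v0.le ?_) ?_ (by linarith)
    (y1.trans ?_) (by linarith) (eC ▸ w1) v1
  · rw [← mul_div_assoc, le_div_iff₀ q1]
    linarith
  · rwa [← mul_div_assoc, div_le_one q1]
  · rwa [← mul_div_assoc, div_le_one q1]
  · have k1 := mul_le_mul_of_nonneg_left (E5.l2sq_mono (E5.ball_mono c₀ (by omega : ρ' ≤ ρ))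
      (Dm (A * B) *ᵥ φ)) (sq_nonneg (ρ' : ℝ))
    calc _ ≤ (ρ' : ℝ) / ρ * (K * ((R : ℝ) / ρ') * (l2sq (ball c₀ ρ') φ +
          (ρ' : ℝ) ^ 2 * l2sq (ball c₀ ρ) (Dm (A * B) *ᵥ φ))) := by
          refine mul_le_mul_of_nonneg_left (i1.trans (mul_le_mul_of_nonneg_left ?_
            (by positivity))) v0.le
          rw [en]
          linarith
      _ = _ := by field_simp
  · have k1 := mul_le_mul_of_nonneg_left (c2 (ball c₀ ρ)) (sq_nonneg (ρ : ℝ))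
    exact mul_le_mul_of_nonneg_left (by linarith) (by positivity)

theorem w_num {u a K C X W H : ℝ} (hu : 0 < u) (ha : 0 ≤ a) (hC : 0 ≤ C) (h1 : X ≤ K * u * H)
    (h2 : u * W ≤ C * a * X) : W ≤ C * a * K * H := by
  refine le_of_mul_le_mul_left (h2.trans ?_) hu
  calc C * a * X ≤ C * a * (K * u * H) := mul_le_mul_of_nonneg_left h1 (by positivity)
    _ = _ := by ring

theorem gapW3 : GapW3 := by
  intro c β Γ hc h0 h1 hΓ Λ
  obtain ⟨c₁, ec⟩ : ∃ c₁, c₁ = (34 * (4 * c) ^ 2) ^ 2 := ⟨_, rfl⟩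
  have hc₁ : 0 ≤ c₁ := by rw [ec]; positivity
  obtain ⟨K, hK, p, hp, hk⟩ := clus (g := c) hc₁ h0 h1 Λ
  obtain ⟨Cs, hCs, hs⟩ := split
  obtain ⟨C, eC⟩ : ∃ C, C = 16 * c₁ * (Γ ^ 2 + 1) * Cs := ⟨_, rfl⟩
  have hC : 0 ≤ C := by rw [eC]; positivity
  obtain ⟨T, hT, ht⟩ := small_rpow (8 * K * (1 + C)) h0
  refine ⟨p + T, fun M _ A B c₀ r R ρ _ a1 a2 hA hB b1 b2 b3 b4 hM hG φ => ?_⟩
  rw [add_mul] at hA b4
  have p1 : 32 * R ≤ p * R := Nat.mul_le_mul_right _ hp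
  have hd := ec ▸ dec1 hc h0 h1 a1 a2
  have i1 := hk M A B c₀ R r (4 * ρ) hd a2 (fun e he => hA e (by omega)) hB b1 b2 b3 (by omega) ρ
    (by omega) (by omega) φ
  obtain ⟨ψ, h, σ, c1, c2, -, c4, c5, c6⟩ := hs M (A * B) A B c₀ R hB.sign (by omega)
    (fun e he => by rw [Pi.mul_apply, hB.out e he, Pi.one_apply, mul_one])
    (fun e he => by rw [Pi.mul_apply, hA e (by omega), one_mul]) φ
  have hG' : ∀ ζ, l2sq univ ζ ≤ (Γ * ρ) ^ 2 * l2sq univ (Dm A *ᵥ ζ) := fun ζ => by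
    rw [E1.l2sq_univ, E1.l2sq_univ]
    exact hG ζ
  obtain ⟨w, w1, w2⟩ := dual (g := Γ) hc₁ h0 h1 hd (by omega) (by omega : 4 * R ≤ ρ) (by omega)
    univ (fun ζ _ => hG' ζ) c4 c5
  have y2 : Dm A *ᵥ (ψ + w) = h := by
    funext t
    rw [mulVec_add, Pi.add_apply, c1, w2 t (mem_univ _), Pi.sub_apply, sub_add_cancel]
  have y1 := (hG' (ψ + w)).trans (mul_le_mul_of_nonneg_left (y2 ▸ c2 univ) (sq_nonneg _))
  have y3 := E5.l2sq_add_le univ (ψ + w) (φ - ψ - w)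
  rw [show ψ + w + (φ - ψ - w) = φ by abel] at y3
  have y4 := E5.l2sq_sub_le univ (φ - ψ) w
  have r0 : (0 : ℝ) < R := by exact_mod_cast (by omega : 0 < R)
  have q1 : (0 : ℝ) < ρ := by exact_mod_cast (by omega : 0 < ρ)
  have q3 : (R : ℝ) ≤ ρ := by exact_mod_cast (by omega : R ≤ ρ)
  have q6 : (T : ℝ) * R ≤ ρ := by exact_mod_cast (by omega : T * R ≤ ρ)
  have u0 : 0 < (R : ℝ) / ρ := by positivity
  have u1 := le_rpow u0 ((div_le_one q1).2 q3) h1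
  have u2 := ht _ u0.le (by rwa [← mul_div_assoc, div_le_one q1])
  rw [← E1.l2sq_univ, ← E1.l2sq_univ]
  have n1 := E5.l2sq_nonneg univ φ
  have n2 := mul_nonneg (sq_nonneg (ρ : ℝ)) (E5.l2sq_nonneg univ (Dm (A * B) *ᵥ φ))
  have i2 : en (A * B) c₀ ρ φ ≤ l2sq univ φ + (ρ : ℝ) ^ 2 * l2sq univ (Dm (A * B) *ᵥ φ) :=
    add_le_add (E5.l2sq_le_univ _ _)
      (mul_le_mul_of_nonneg_left (E5.l2sq_le_univ _ _) (sq_nonneg _))
  have i3 := i1.trans (mul_le_mul_of_nonneg_left i2 (by positivity))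
  have i4 := w_num u0 (by positivity) hC i3 (eC ▸ w1)
  have i5 := i3.trans (mul_le_mul_of_nonneg_right
    (mul_le_mul_of_nonneg_left u1 (by linarith : 0 ≤ K)) (add_nonneg n1 n2))
  have i6 := mul_le_mul_of_nonneg_right u2 (add_nonneg n1 n2)
  have i7 := mul_le_mul_of_nonneg_right (one_le_pow₀ hΓ : 1 ≤ Γ ^ 2) n2
  nlinarith

theorem pow_scale {L l β : ℝ} (hL : 0 < L) (hl : 0 < l) :
    (l / (L * l)) ^ (1 + β) = L⁻¹ * L⁻¹ ^ β := by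
  rw [show l / (L * l) = L⁻¹ by field_simp, rpow_split (by positivity)]

theorem shr_far {A B : Gauge M} {c₀ z : Tor M} {r R ℓ L : ℕ} {c β κ : ℝ} (h0 : 0 < β)
    (h1 : β ≤ 1 / 2) (a1 : ShA A (4 * (L * ℓ)) c β) (hB : Cluster B 1 c₀ R r) (b1 : 8 ≤ R)
    (b2 : R ≤ ℓ) (hL : 4 ≤ L) (e1 : 16 * c ^ 2 * (L : ℝ)⁻¹ ^ β ≤ κ ^ 2)
    (hz : L * ℓ < tdist z c₀) : RN.Shr (A * B) ℓ (L * ℓ) z κ := by
  have p2 : 4 * ℓ ≤ L * ℓ := Nat.mul_le_mul_right _ hL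
  have L0 : (0 : ℝ) < L := by exact_mod_cast (by omega : 0 < L)
  have l0 : (0 : ℝ) < ℓ := by exact_mod_cast (by omega : 0 < ℓ)
  have eL : ((L * ℓ : ℕ) : ℝ) = L * ℓ := Nat.cast_mul _ _
  have hAB : ∀ e : Tor M × Fin 2, tdist e.1 z + R ≤ L * ℓ → (A * B) e = A e := fun e he => by
    have t1 := tdist_triangle z e.1 c₀
    rw [tdist_comm z e.1] at t1
    rw [Pi.mul_apply, hB.out e (by omega), Pi.one_apply, mul_one]
  obtain ⟨m, hm⟩ : ∃ m, m = (L * ℓ - R - 4) / 2 := ⟨_, rfl⟩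
  have m0 : (0 : ℝ) < m := by exact_mod_cast (by omega : 0 < m)
  have m1 : ((L * ℓ : ℕ) : ℝ) ≤ 4 * m := by exact_mod_cast (by omega : L * ℓ ≤ 4 * m)
  refine RN.shr_of (b := c ^ 2 * (4 ^ 2 * ((L : ℝ)⁻¹ * (L : ℝ)⁻¹ ^ β))) (fun u => ?_) ?_
  · have k1 := a1 ℓ m (by omega) (by omega) (by omega) z u
    rw [← W.hsq_congrA (A := A * B) fun e he => hAB e (by omega),
      ← W.hsq_congrA (A := A * B) (r := 2 * m) fun e he => hAB e (by omega)] at k1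
    have k2 := An3.rpow_le_mul (x := (ℓ : ℝ) / m) (y := (ℓ : ℝ) / (L * ℓ)) (k := 4)
      (by positivity) (by positivity) (by norm_num) (by
        rw [← mul_div_assoc, div_le_div_iff₀ m0 (by positivity), ← eL]
        nlinarith) h0 h1
    rw [pow_scale L0 l0] at k2
    exact k1.trans (mul_le_mul (by gcongr) (RN.hsq_mono _ m0.le
      (by exact_mod_cast (by omega : m ≤ L * ℓ)) (E5.ball_mono z (by omega)) u)
      (RN.hsq_nonneg _ _ _ _) (by positivity))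
  · calc _ = 16 * c ^ 2 * (L : ℝ)⁻¹ ^ β * ℓ := by rw [eL]; field_simp; ring
      _ ≤ _ := mul_le_mul_of_nonneg_right e1 l0.le

theorem near_num {u a K C c k τ X W H N Y' : ℝ} (hu : 0 < u) (ua : u ≤ a) (hK : 0 ≤ K)
    (hC : 0 ≤ C) (hc : 0 ≤ c) (hH : 0 ≤ H) (s1 : 2 * C * K * a ≤ 1)
    (s2 : 16 * K * (1 + C) * a ≤ τ) (s3 : 32 * c ≤ τ) (h1 : X ≤ K * u * (H + H))
    (h2 : u * W ≤ C * a * X) (h3 : Y' ≤ c * k) (h4 : k ≤ 6 * H + 2 * W)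
    (h5 : N ≤ 2 * Y' + 4 * X + 4 * W) : N ≤ 1 * τ * H := by
  have ha : 0 ≤ a := hu.le.trans ua
  have i4 := w_num hu ha hC h1 h2
  have i5 : X ≤ K * a * (H + H) := h1.trans (by gcongr)
  have j1 := mul_le_mul_of_nonneg_right s1 hH
  have j2 := mul_le_mul_of_nonneg_right s2 hH
  have j3 : Y' ≤ c * (8 * H) := h3.trans (mul_le_mul_of_nonneg_left (by linarith) hc)
  have j4 := mul_le_mul_of_nonneg_right s3 hH
  linarith

theorem shr_near {c₁ g β : ℝ} (hc₁ : 0 ≤ c₁) (h0 : 0 < β) (h1 : β ≤ 1 / 2) :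
    ∃ C : ℝ, 0 ≤ C ∧ ∀ (M : ℕ) [NeZero M] (A B : Gauge M) (c₀ z : Tor M) (r R ℓ ρ : ℕ) (K τ : ℝ),
    0 ≤ K → Dec1 A (4 * ρ) c₁ β → Coe A (4 * ρ) g → (∀ e, tdist e.1 c₀ ≤ 4 * R → A e = 1) →
    Cluster B 1 c₀ R r → 8 ≤ R → 4 * R ≤ ℓ → ℓ ≤ ρ → tdist z c₀ ≤ ρ →
    2 * C * K * ((R : ℝ) / ρ) ^ β ≤ 1 → 16 * K * (1 + C) * ((R : ℝ) / ρ) ^ β ≤ τ →
    32 * (c₁ * ((ℓ : ℝ) / ρ) ^ (1 + β)) ≤ τ → ∀ φ,
    l2sq (ball c₀ (4 * R)) φ ≤ K * ((R : ℝ) / ρ) * en (A * B) c₀ ρ φ →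
    l2sq (ball z (2 * ℓ)) φ ≤ 1 * τ * hsq (A * B) ρ (ball z (2 * ρ)) φ := by
  obtain ⟨Cs, hCs, hs⟩ := split
  refine ⟨16 * c₁ * ((2 * g) ^ 2 + 1) * Cs, by positivity,
    fun M _ A B c₀ z r R ℓ ρ K τ hK hd a2 hA hB b1 b2 b3 hz s1 s2 s3 φ i1 => ?_⟩
  obtain ⟨ψ, h, σ, c1, c2, c3, c4, c5, c6⟩ := hs M (A * B) A B c₀ R hB.sign (by omega)
    (fun e he => by rw [Pi.mul_apply, hB.out e he, Pi.one_apply, mul_one])
    (fun e he => by rw [Pi.mul_apply, hA e (by omega), one_mul]) φ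
  obtain ⟨w, w1, w2⟩ := dual (g := 2 * g) hc₁ h0 h1 hd (by omega) (by omega : 4 * R ≤ ρ)
    (by omega) (ball z (2 * ρ)) (fun ζ hζ => (a2 z (2 * ρ) (by omega) (by omega) ζ
      fun t ht => hζ t fun h => by
        have := E5.mem_ball.1 h
        omega).trans (le_of_eq (by push_cast; ring))) c4 c5
  have y1 := hd z (2 * ℓ) (2 * ρ) (by omega) (by omega) (by omega) (ψ + w)
  have y2 : l2sq (ball z (2 * ρ)) (Dm A *ᵥ (ψ + w)) = l2sq (ball z (2 * ρ)) h :=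
    E5.l2sq_congr fun t ht => by
      rw [mulVec_add, Pi.add_apply, c1, w2 t ht, Pi.sub_apply, sub_add_cancel]
  have r0 : (0 : ℝ) < R := by exact_mod_cast (by omega : 0 < R)
  have q1 : (0 : ℝ) < ρ := by exact_mod_cast (by omega : 0 < ρ)
  have q3 : (R : ℝ) ≤ ρ := by exact_mod_cast (by omega : R ≤ ρ)
  have y0 : (((2 * ℓ : ℕ) : ℝ) / (2 * ρ : ℕ)) = (ℓ : ℝ) / ρ := by
    push_cast
    field_simp
  rw [en, y2, y0, Nat.cast_mul 2, Nat.cast_ofNat] at y1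
  have y3 := E5.l2sq_add_le (ball z (2 * ℓ)) (ψ + w) (φ - ψ - w)
  rw [show ψ + w + (φ - ψ - w) = φ by abel] at y3
  have y4 := (E5.l2sq_le_univ (ball z (2 * ℓ)) _).trans (E5.l2sq_sub_le univ (φ - ψ) w)
  have y5 := E5.l2sq_add_le (ball z (2 * ρ)) ψ w
  have y6 := E5.l2sq_le_univ (ball z (2 * ρ)) w
  have y7 := c3 (ball z (2 * ρ))
  have y8 := mul_le_mul_of_nonneg_left (c2 (ball z (2 * ρ))) (sq_nonneg (ρ : ℝ))
  have hb : ball c₀ ρ ⊆ ball z (2 * ρ) := fun x hx => by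
    have t1 := tdist_triangle x c₀ z
    rw [tdist_comm c₀ z] at t1
    have := E5.mem_ball.1 hx
    exact E5.mem_ball.2 (by omega)
  have g1 := E4.l2sq_le_hsq (A * B) (ρ : ℝ) (ball z (2 * ρ)) φ
  have g2 := E4.l2sq_D_le_hsq (A * B) (ρ : ℝ) (ball z (2 * ρ)) φ
  have i2 : en (A * B) c₀ ρ φ ≤ _ := add_le_add ((E5.l2sq_mono hb _).trans g1)
    ((mul_le_mul_of_nonneg_left (E5.l2sq_mono hb _) (sq_nonneg _)).trans g2)
  have u0 : 0 < (R : ℝ) / ρ := by positivity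
  exact near_num u0 (le_rpow u0 ((div_le_one q1).2 q3) h1) hK (by positivity) (by positivity)
    (RN.hsq_nonneg _ _ _ _) s1 s2 s3 (i1.trans (mul_le_mul_of_nonneg_left i2 (by positivity))) w1
    y1 (by linarith) (by linarith)

theorem shrW : ShrW := by
  intro c β κ hc h0 h1 hκ
  obtain ⟨c₁, ec⟩ : ∃ c₁, c₁ = (34 * (4 * c) ^ 2) ^ 2 := ⟨_, rfl⟩
  have hc₁ : 0 ≤ c₁ := by rw [ec]; positivity
  obtain ⟨L₀, hL₀, hl⟩ := small_rpow ((64 * c₁ + 16 * c ^ 2 + 2) / κ ^ 2) h0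
  obtain ⟨C, hC, hn⟩ := shr_near (g := c) hc₁ h0 h1
  refine ⟨L₀ + 4, fun L hL Λ => ?_⟩
  obtain ⟨K, hK, p, hp, hk⟩ := clus (g := c) hc₁ h0 h1 Λ
  obtain ⟨T, hT, ht⟩ := small_rpow (2 * C * K + 32 * K * (1 + C) * L / κ ^ 2) h0
  refine ⟨p + T, fun M _ A B c₀ r R ℓ _ a1 a2 hA hB b1 b2 b3 b4 hM z => ?_⟩
  rw [add_mul] at hA b4
  have p1 : 32 * R ≤ p * R := Nat.mul_le_mul_right _ hp
  have p2 : 4 * ℓ ≤ L * ℓ := Nat.mul_le_mul_right _ (by omega)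
  have L0 : (0 : ℝ) < L := by exact_mod_cast (by omega : 0 < L)
  have L1 : (L₀ : ℝ) ≤ L := by exact_mod_cast (by omega : L₀ ≤ L)
  have L4 : (4 : ℝ) ≤ L := by exact_mod_cast (by omega : 4 ≤ L)
  have l0 : (0 : ℝ) < ℓ := by exact_mod_cast (by omega : 0 < ℓ)
  have κ2 : 0 < κ ^ 2 := by positivity
  have K0 : 0 ≤ K := by linarith
  have e1 := hl (L : ℝ)⁻¹ (by positivity) (by rwa [← div_eq_mul_inv, div_le_one L0])
  rw [div_mul_eq_mul_div, div_le_one κ2, add_mul, add_mul] at e1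
  have e0 : 0 ≤ (L : ℝ)⁻¹ ^ β := by positivity
  have e2 := le_rpow (inv_pos.2 L0) (inv_le_one_of_one_le₀ (by linarith)) h1
  have e3 : 0 ≤ 64 * c₁ * (L : ℝ)⁻¹ ^ β := by positivity
  have e4 : 0 ≤ 16 * c ^ 2 * (L : ℝ)⁻¹ ^ β := by positivity
  have eL : ((L * ℓ : ℕ) : ℝ) = L * ℓ := Nat.cast_mul _ _
  rcases lt_or_ge (L * ℓ) (tdist z c₀) with hz | hz
  · exact shr_far h0 h1 a1 hB (by omega) (by omega) (by omega) (by linarith) hz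
  have hd := ec ▸ dec1 hc h0 h1 a1 a2
  have q1 : (0 : ℝ) < (L * ℓ : ℕ) := by exact_mod_cast (by omega : 0 < L * ℓ)
  have q6 : (T : ℝ) * R ≤ (L * ℓ : ℕ) := by exact_mod_cast (by omega : T * R ≤ L * ℓ)
  have u2 := ht ((R : ℝ) / (L * ℓ : ℕ)) (by positivity) (by rwa [← mul_div_assoc, div_le_one q1])
  have a0 : 0 ≤ ((R : ℝ) / (L * ℓ : ℕ)) ^ β := by positivity
  refine RN.shr_of (b := (1 + 1) * (κ ^ 2 / 2 * (L : ℝ)⁻¹)) (fun φ => ?_)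
    (le_of_eq (by rw [eL]; field_simp; ring))
  refine An3.hsq_zero (A * B) l0 (by exact_mod_cast (by omega : ℓ ≤ L * ℓ)) ?_
    (E5.ball_mono z (by omega)) φ (hn M A B c₀ z r R ℓ (L * ℓ) K _ K0 hd a2
      (fun e he => hA e (by omega)) hB (by omega) (by omega) (by omega) hz ?_ ?_ ?_ φ
      (hk M A B c₀ R r (4 * (L * ℓ)) hd a2 (fun e he => hA e (by omega)) hB b1 b2 b3
        (by omega) (L * ℓ) (by omega) (by omega) φ))
  · rw [eL, show (ℓ : ℝ) / (L * ℓ) = (L : ℝ)⁻¹ by field_simp, pow_two]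
    exact mul_le_mul_of_nonneg_right (by linarith) (by positivity)
  · exact le_trans (mul_le_mul_of_nonneg_right (le_add_of_nonneg_right (by positivity)) a0) u2
  · have k1 := le_trans (mul_le_mul_of_nonneg_right
      (le_add_of_nonneg_left (by positivity : 0 ≤ 2 * C * K)) a0) u2
    rw [div_mul_eq_mul_div, div_le_one κ2] at k1
    rw [← div_eq_mul_inv, le_div_iff₀ L0]
    linarith
  · rw [eL, pow_scale L0 l0]
    calc _ = 64 * c₁ * (L : ℝ)⁻¹ ^ β / 2 * (L : ℝ)⁻¹ := by ring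
      _ ≤ _ := mul_le_mul_of_nonneg_right (by linarith) (by positivity)

end Vale.Agent.N144.Cl
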