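import Vale.Agent.N144.DefsL
import Vale.Agent.N144.DefsS
import Vale.Agent.N144.DefsB
import Vale.Agent.P144U.Free.Lat
import Vale.Agent.P144L.Defs

/-!
The spin field up to the boundary: the statements of the blocks.
-/

namespace Vale.Agent.N144

open Finset Matrix Vale.Agent.P144Z

section

variable {M : ℕ} [NeZero M]

/-- The change of scale at all centres and between all scales up to `ρ₀`. -/
def ShA (A : Gauge M) (ρ₀ : ℕ) (c β : ℝ) : Prop :=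
  ∀ ℓ ℓ' : ℕ, 1 ≤ ℓ → ℓ ≤ ℓ' → ℓ' ≤ ρ₀ → ∀ z w, hsq A ℓ (ball z (2 * ℓ)) w ≤
    c ^ 2 * ((ℓ : ℝ) / ℓ') ^ (1 + β) * hsq A ℓ' (ball z (2 * ℓ')) w

/-- Coercivity in all squares of radius up to `ρ₀`. -/
def Coe (A : Gauge M) (ρ₀ : ℕ) (c : ℝ) : Prop :=
  ∀ (z : Tor M) (ρ : ℕ), 8 ≤ ρ → ρ ≤ ρ₀ → ∀ ζ, SuppIn ζ z ρ →
    l2sq univ ζ ≤ (c * ρ) ^ 2 * l2sq univ (Dm A *ᵥ ζ)

end

/-- The class `QU` with estimates whose constants do not depend on `L`. -/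
def QD (L : ℕ) (ε : ℝ) (k N : ℕ) (c β : ℝ) : Cls := fun M _ A J =>
  QU L ε k N M A J ∧ ((∀ f, flux A f ≠ -1) → ShA A (4 * sc L J) c β ∧ Coe A (4 * sc L J) c)

/-- A small cluster of fluxes keeps the change of scale, wherever the boundary is. -/
def ShrW : Prop :=
  ∀ c β κ : ℝ, 1 ≤ c → 0 < β → β ≤ 1 / 2 → 0 < κ → ∃ L₀ : ℕ, ∀ L ≥ L₀, ∀ Λ₁ : ℕ, ∃ p : ℕ,
    ∀ (M : ℕ) [NeZero M] (A B : Gauge M) (c₀ : Tor M) (r R ℓ : ℕ), IsW A →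
    ShA A (4 * (L * ℓ)) c β → Coe A (4 * (L * ℓ)) c → (∀ e, tdist e.1 c₀ ≤ p * R → A e = 1) →
    Cluster B 1 c₀ R r → 256 ≤ r → r ≤ R → R ≤ Λ₁ * r → p * R ≤ ℓ → 64 * (L * ℓ) ≤ M →
    ∀ z, RN.Shr (A * B) ℓ (L * ℓ) z κ

/-- A small cluster of fluxes keeps the gap, wherever the boundary is. -/
def GapW3 : Prop :=
  ∀ c β Γ : ℝ, 1 ≤ c → 0 < β → β ≤ 1 / 2 → 1 ≤ Γ → ∀ Λ₁ : ℕ, ∃ p : ℕ,
    ∀ (M : ℕ) [NeZero M] (A B : Gauge M) (c₀ : Tor M) (r R ρ : ℕ), IsW A →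
    ShA A (4 * ρ) c β → Coe A (4 * ρ) c → (∀ e, tdist e.1 c₀ ≤ p * R → A e = 1) →
    Cluster B 1 c₀ R r → 256 ≤ r → r ≤ R → R ≤ Λ₁ * r → p * R ≤ ρ → 64 * ρ ≤ M →
    Gap A (Γ * ρ) → Gap (A * B) (4 * Γ * ρ)

open Classical in
/-- As `DomMS`, but the region is only known to contain the square of radius `64 * sc L J''`
around the cluster, and the gap is only given without the cluster. -/
structure DomMW (Q : Cls) {M : ℕ} [NeZero M] (P H B : Gauge M) (c : Tor M)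
    (L J J'' J' N Λ Λ₁ : ℕ) (Γ : ℝ) : Prop where
  P_ok : IsP P
  str : Str P H (64 * sc L J')
  nofl : ∀ f, flux (P * H) f ≠ -1
  lo : 1024 * sc L J' ≤ M
  hi : M ≤ Λ * sc L J'
  bd : Q M (P * H) J'
  bd0 : Q M P J'
  gap0 : Gap P (Γ * sc L J')
  gap1 : Gap (P * H) (Γ * sc L J')
  one : ∀ e, tdist e.1 c ≤ 64 * sc L J'' → P e = 1 ∧ H e = 1
  cl : Cluster B 1 c (Λ₁ * sc L J) (16 * sc L J)
  cnt : (univ.filter fun f => flux B f = -1).card ≤ N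

/-- The bound of `MSMain` for clusters near the boundary. -/
def MWMain (Q : Cls) (q : Par) (L : ℕ) (σ γ : ℝ) : Prop :=
  ∀ (N Λ Λ₁ : ℕ) (Γ : ℝ), 1 ≤ Γ → ∃ C : ℝ, 0 ≤ C ∧ ∃ J₀ p₀ : ℕ, ∀ J ≥ J₀, ∀ J' ≥ J + p₀,
    ∀ (M : ℕ) [NeZero M] (P H B : Gauge M) (c : Tor M) (u : Cor M) (K : ℝ),
    DomMW Q P H B c L J (J + p₀) J' N Λ Λ₁ Γ → u.Ok → u.Wt σ γ → u.Off P → 0 ≤ K →
    |Zw par0 (P * H * B) 1| ≤ K * |Zw par0 P 1| →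
      |ZwC q u (P * H * B) 1| ≤ C * K * |ZwC q u P 1|

/-- The bound holds for corrections a little larger than those of the regions. -/
def UnivMW (Q : Cls) (q : Par) (L : ℕ) : Prop :=
  ∃ σ γ θ : ℝ, 0 ≤ σ ∧ 0 < θ ∧ (∀ (M : ℕ) [NeZero M] (R : Reg M),
    (R.cor q).Ok ∧ (R.cor q).Off R.pw ∧ (R.cor q).Wt σ γ) ∧ MWMain Q q L σ (γ + θ)

/-- The bound for the classes `QD`. -/
def GenMW : Prop :=
  ∃ ε₀ > (0 : ℝ), ∀ ε > (0 : ℝ), ε ≤ ε₀ → ∀ c β : ℝ, 1 ≤ c → 0 < β → β ≤ 1 / 2 → ∃ L₀ : ℕ,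
    ∀ L ≥ L₀, ∃ kf : ℕ → ℕ, ∃ η₀ > (0 : ℝ), ∀ R : ℕ, ∃ δ₀ > (0 : ℝ), ∀ q : Par, q.R = R →
    Crit L q η₀ δ₀ → ∀ N k, kf N ≤ k → UnivMW (QD L ε k N c β) q L

/-- The sets with tips can be dug so that the boundary is of the class `QD`. -/
def GeoTD : Prop :=
  ∃ c β : ℝ, 1 ≤ c ∧ 0 < β ∧ β ≤ 1 / 2 ∧ ∀ ε > (0 : ℝ), ∃ L₀ : ℕ, ∀ L ≥ L₀, ∀ α > (0 : ℝ),
    ∃ κ > (0 : ℝ), ∃ N k₀ : ℕ, ∀ k ≥ k₀,
      GeoF (fun Λ r => ∃ P, RawU Λ P α κ r) (QD L ε k N c β) L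

/-- The Lipschitz sets are of the class `QD`. -/
def GeoLD : Prop :=
  ∀ κ < √2 / 2, ∃ c β : ℝ, 1 ≤ c ∧ 0 < β ∧ β ≤ 1 / 2 ∧ ∀ ε > (0 : ℝ), ∃ L₀ : ℕ, ∀ L ≥ L₀,
    ∀ k, 1 ≤ k → GeoF (P144L.LipZ κ) (QD L ε k 0 c β) L

open P144 in
/-- The bound on the even spin correlations at all scales up to the boundary, on the lattice. -/
def MWLat (Raw : Finset Site → ℕ → Prop) (q : Par) : Prop :=
  ∀ J lam β : ℝ, 0 < J → q.μ = β * lam → q.x = Real.exp (-(2 * β * J)) →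
    ∀ n Λ₀ Λ₁ : ℕ, Even n → ∃ C : ℝ, 0 ≤ C ∧ ∃ r₀ K₀ : ℕ, ∀ (r R ρ : ℕ) (Λ : Finset Site)
      (b : Option Config) (c : Site) (x : Fin n → Site), (b = none ∨ b = some fun _ => true) →
      Raw Λ ρ → (∀ v ∈ Λ, zd v 0 ≤ Λ₀ * ρ) → (∀ v, zd v c ≤ K₀ * R → v ∈ Λ) →
      (∀ i, zd (x i) c ≤ R) → (∀ i i', i ≠ i' → r < zd (x i) (x i')) → r₀ ≤ r → r ≤ R →
      R ≤ Λ₁ * r → K₀ * R ≤ ρ →
        |gibbs J lam q.V β b Λ fun σ => ∏ i, sp (σ (x i))| ≤ C * (r : ℝ) ^ (-((n : ℝ) / 8))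

open P144 in
/-- The bound on the even spin correlations at all scales: points in a ball whose distance to the
boundary is a fixed multiple of its radius. -/
def SepW (D : Set ℂ) (E : Fam) : Prop :=
  ∀ n : ℕ, Even n → ∀ δ > (0 : ℝ), ∃ K T κ ε₀ : ℝ, 0 ≤ K ∧ 0 < T ∧ 1 ≤ κ ∧ 0 < ε₀ ∧
    ∀ (a ε : ℝ) (z : ℂ) (x : Fin n → ℂ), 0 < a → T * a ≤ ε → ε ≤ ε₀ →
      Metric.ball z (κ * ε) ⊆ D → (∀ i, x i ∈ Metric.ball z ε) →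
      (∀ i j, i ≠ j → δ * ε ≤ ‖x i - x j‖) →
      |corr a (E a) ⟨n, 0, x, ![], ![]⟩| ≤ K * (ε ^ (-(1 / 8) : ℝ)) ^ n

/-- The layer of width `t` along the boundary has area `O(t)`. -/
def Lay (D : Set ℂ) : Prop :=
  ∃ C : ℝ, ∀ t > (0 : ℝ), MeasureTheory.volume
    {x | (Metric.ball x t ∩ D).Nonempty ∧ ¬Metric.ball x t ⊆ D} ≤ ENNReal.ofReal (C * (t + t ^ 2))

/-- The domains of the theorem have thin layers. -/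
def LayStmt : Prop :=
  ∀ D, ((∃ α κ, κ < 1 ∧ TameK α κ D) ∨ ∃ K, IsLip K D) → Lay D

open P144 in
/-- From the bound at all scales to the field up to the boundary. -/
def SoftW : Prop :=
  ∀ J > (0 : ℝ), ∀ (lam β Z Zε : ℝ) (V : Finset Site → ℝ) (D : Set ℂ) (b : Option (ℝ → Config))
    (C : Pts → ℝ), Bornology.IsBounded D → IsOpen D → Lay D → 0 < Z →
    LocDiff D (crit J D b) (inDom J lam V β D b) Z Zε → SepW D (inDom J lam V β D b) →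
    (∀ p, Good D p → p.m = 0 → Lim (crit J D b) p (C p)) →
      MomB D (inDom J lam V β D b) Z C ∧ LawB D (inDom J lam V β D b) Z C ∧
        FieldB D (inDom J lam V β D b) Z C

end Vale.Agent.N144
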