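import Vale.Agent.N144.W.Defs
import Vale.Agent.P144L.F.All
import Vale.Agent.N144.MS.Tr

/-!
The dug sets and the Lipschitz sets are of the class `QD`.
-/

namespace Vale.Agent.N144.WG

open Finset Matrix Vale.Agent.P144 Vale.Agent.P144Z UL

/-- The change of scale at all centres, from the one at the centres near an outer face. -/
theorem shA_of (c β : ℝ) (hc : 1 ≤ c) (hβ' : β ≤ 1 / 2) : ∃ c' : ℝ, c ≤ c' ∧
    ∀ (M : ℕ) [NeZero M] (R : Reg M) (B : Gauge M) (ρ₀ : ℕ), IsSign B →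
    (∀ f, flux (R.pw * B) f ≠ -1) → 2 * ρ₀ + 11 ≤ M →
    (∀ ℓ ℓ' : ℕ, 1 ≤ ℓ → ℓ ≤ ℓ' → ℓ' ≤ ρ₀ → ∀ z, (∃ f, f ∉ R.In ∧ tdist f z ≤ ℓ' + 1) → ∀ w,
      hsq (R.pw * B) ℓ (ball z (2 * ℓ)) w ≤
        c ^ 2 * ((ℓ : ℝ) / ℓ') ^ (1 + β) * hsq (R.pw * B) ℓ' (ball z (2 * ℓ')) w) →
    ShA (R.pw * B) ρ₀ c' β := by
  obtain ⟨Cb, hCb, hb⟩ := W.bulk_est
  refine ⟨c + Cb + 2, by linarith, fun M _ R B ρ₀ hB hf hM h ℓ ℓ' h1 h2 h3 z w => ?_⟩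
  have l0 : (0 : ℝ) < ℓ := by exact_mod_cast h1
  have l1 : (ℓ : ℝ) ≤ ℓ' := by exact_mod_cast h2
  have l2 := l0.trans_le l1
  have t1 := An3.sq_le_rpow l0 l1 hβ'
  have H0 : 0 ≤ hsq (R.pw * B) ℓ' (ball z (2 * ℓ')) w := E4.hsq_nonneg _ _ _
  set τ := ((ℓ : ℝ) / ℓ') ^ (1 + β) with hτ
  have τ0 : 0 ≤ τ := by positivity
  suffices k : ∃ k ≤ (c + Cb + 2) ^ 2, hsq (R.pw * B) ℓ (ball z (2 * ℓ)) w ≤
      k * τ * hsq (R.pw * B) ℓ' (ball z (2 * ℓ')) w by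
    obtain ⟨k, k1, k2⟩ := k
    exact k2.trans (mul_le_mul_of_nonneg_right (mul_le_mul_of_nonneg_right k1 τ0) H0)
  by_cases h4 : ∃ f, f ∉ R.In ∧ tdist f z ≤ ℓ' + 1
  · exact ⟨c ^ 2, by nlinarith, h ℓ ℓ' h1 h2 h3 z h4 w⟩
  by_cases h5 : 2 * ℓ ≤ ℓ'
  · have hF : Flat (R.pw * B) z ℓ' := fun f hz => by
      have h6 : |flux (R.pw * B) f| = 1 := by
        by_contra h7
        obtain ⟨f', a1, a2⟩ := out_of_flux hB h7
        have := tdist_triangle f' f z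
        exact h4 ⟨f', a1, by omega⟩
      exact ((abs_eq zero_le_one).1 h6).resolve_right (hf f)
    refine ⟨Cb, by nlinarith, (hb M _ (B5c.isW R hB) z ℓ ℓ' h1 h5 (by omega) hF w).trans ?_⟩
    exact mul_le_mul (mul_le_mul_of_nonneg_left t1 (by linarith))
      (E4.hsq_mono _ (Nat.cast_nonneg _) le_rfl (E3.ball_mono z (by omega)) w)
      (E4.hsq_nonneg _ _ _) (by positivity)
  · have k1 : (ℓ' : ℝ) ≤ 2 * ℓ := by exact_mod_cast (by omega : ℓ' ≤ 2 * ℓ)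
    have k3 : 1 ≤ 4 * ((ℓ : ℝ) / ℓ') ^ 2 := by
      rw [div_pow, ← mul_div_assoc, le_div_iff₀ (by positivity)]
      nlinarith
    refine ⟨4, by nlinarith, (E4.hsq_mono _ l0.le l1
      (E3.ball_mono z (by omega : 2 * ℓ ≤ 2 * ℓ')) w).trans ?_⟩
    exact le_mul_of_one_le_left H0 (by linarith)

/-- Coercivity for strings without flux inside the region. -/
theorem coe_of (N : ℕ) : ∃ c : ℝ, 1 ≤ c ∧ ∀ (M : ℕ) [NeZero M] (R : Reg M) (B : Gauge M)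
    (r ρ₀ : ℕ), Str R.pw B r → (∀ f, flux (R.pw * B) f ≠ -1) → (∀ y, TrB R.In y r N) →
    3 * ρ₀ + 11 ≤ M → 3 * ρ₀ ≤ r → Coe (R.pw * B) ρ₀ c := by
  obtain ⟨C, hC, h⟩ := coercive
  have N0 : (0 : ℝ) ≤ N := Nat.cast_nonneg N
  refine ⟨C * (N + 1), by nlinarith, fun M _ R B r ρ₀ hB hf hT hM hr z ρ h1 h2 ζ hζ => ?_⟩
  by_cases hF : Flat B z (ρ + ρ / 2)
  · exact h M R B hB.sign z ρ N h1 (by omega) hF ((hT z).mono' (by omega) le_rfl) ζ hζ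
  simp only [Flat, not_forall] at hF
  obtain ⟨f, h3, h4⟩ := hF
  have h5 : flux B f = -1 := (DC.flux_sign hB.sign f).resolve_left h4
  rcases hB.fl f h5 with h6 | h6
  · refine absurd ?_ (hf f)
    rw [flux_mul, h5, MS.flux_near (z := f) (r := 0) (fun e he => h6 e (by omega))
      (by rw [tdist_self]), one_mul]
  · have h7 : ∀ x i, tdist x z ≤ ρ + 1 → R.pw (x, i) = 0 := fun x i hx => h6 _ (by
      have := tdist_triangle x z f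
      rw [tdist_comm z f] at this
      dsimp only
      omega)
    rw [B3b.Dm_congr (A' := R.pw * 1) (fun x i hx _ => by
      rw [Pi.mul_apply, Pi.mul_apply, h7 x i hx, zero_mul, zero_mul]) hζ]
    exact h M R 1 (fun _ => Or.inl rfl) z ρ N h1 (by omega) (fun g _ => by simp [flux])
      ((hT z).mono' (by omega) le_rfl) ζ hζ

theorem ShA.mono {M : ℕ} [NeZero M] {A : Gauge M} {ρ₀ : ℕ} {c c' β : ℝ} (h : ShA A ρ₀ c β)
    (h0 : 0 ≤ c) (hc : c ≤ c') : ShA A ρ₀ c' β := fun ℓ ℓ' h1 h2 h3 z w =>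
  (h ℓ ℓ' h1 h2 h3 z w).trans (mul_le_mul_of_nonneg_right (mul_le_mul_of_nonneg_right
    (pow_le_pow_left₀ h0 hc 2) (by positivity)) (E4.hsq_nonneg _ _ _))

theorem Coe.mono {M : ℕ} [NeZero M] {A : Gauge M} {ρ₀ : ℕ} {c c' : ℝ} (h : Coe A ρ₀ c)
    (h0 : 0 ≤ c) (hc : c ≤ c') : Coe A ρ₀ c' := fun z ρ h1 h2 ζ hζ =>
  (h z ρ h1 h2 ζ hζ).trans (mul_le_mul_of_nonneg_right (pow_le_pow_left₀ (by positivity)
    (mul_le_mul_of_nonneg_right hc (Nat.cast_nonneg _)) 2) (E5.l2sq_nonneg _ _))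

theorem uni_left {M : ℕ} {I : Finset (Tor M)} {N K₁ K₂ K' r : ℕ} (h : Uni I N (K₁ * K₂) K' r)
    (hK : 1 ≤ K₂) : Uni I N K₁ K' r := by
  refine ⟨h.one, h.esc, h.thk, h.tr, fun b hb s h1 h2 => ?_⟩
  obtain ⟨s', a1, a2, a3⟩ := h.win b hb s h1 h2
  have e : K₁ * (K₂ * s') = K₁ * K₂ * s' := (mul_assoc _ _ _).symm
  refine ⟨K₂ * s', a1.trans (Nat.le_mul_of_pos_left _ hK), e ▸ a2, ?_⟩
  rw [e]
  exact a3.imp id fun a => le_trans (Nat.mul_le_mul_right _ (Nat.le_mul_of_pos_right _ hK)) a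

theorem geoTD_of (hD : DigU) (hC : ClsU) (hS : ShrU) (hF : FlatW) : GeoTD := by
  obtain ⟨N, hD⟩ := hD
  obtain ⟨K₁, hK₁, hC⟩ := hC N
  obtain ⟨K₂, hK₂, hS⟩ := hS N
  obtain ⟨K', hD⟩ := hD (K₁ * K₂) (Nat.mul_pos hK₁ hK₂)
  obtain ⟨Q, hQ, hC⟩ := hC K'
  obtain ⟨c₁, β, hc₁, hβ, hβ', Qs, hS⟩ := hS K'
  obtain ⟨c₂, hc₂, hA⟩ := shA_of c₁ β hc₁ hβ'
  obtain ⟨c₃, hc₃, hE⟩ := coe_of N
  refine ⟨c₂ + c₃, β, by linarith, hβ, hβ', fun ε hε => ?_⟩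
  obtain ⟨L₀, hC⟩ := hC ε hε
  refine ⟨L₀ + 2, fun L hL α hα => ?_⟩
  obtain ⟨κ₁, hκ₁, hC⟩ := hC L (by omega)
  obtain ⟨κ₀, hκ₀, K₀, r₁, hD⟩ := hD α hα
  obtain ⟨N', hC⟩ := hC K₀
  refine ⟨min κ₀ κ₁, by positivity, N', r₁ + 1, fun k hk => ?_⟩
  have s1 := sc_ge (L := L) (J := k) (by omega)
  have s2 : sc L k ≤ Q * sc L k := Nat.le_mul_of_pos_left _ hQ
  obtain ⟨t, N₁, Qd, ht, hQd, hD⟩ := hD (Q * sc L k) (by omega)
  obtain ⟨D, hD'⟩ : ∃ D, D = Qd + Q + Q * sc L k + 4 * N₁ + 2 * t + 8 * Qs + 20 := ⟨_, rfl⟩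
  refine ⟨t, N₁, D, 0, ht, by omega, fun Λ r T ⟨P, hP⟩ h1 h2 hΛ => ?_⟩
  obtain ⟨c, c1, c2, c3⟩ := hD _ (by positivity) (min_le_left κ₀ κ₁) Λ P r T hP (by omega) hΛ
  have d1 : r / D ≤ r / Qd := Nat.div_le_div_left (by omega) hQd
  have d2 : r / D ≤ r / 2 := Nat.div_le_div_left (by omega) two_pos
  refine ⟨P.image c, fun p' hp' => ?_, fun p₁ h₁ p₂ h₂ e => ?_, fun M _ hM => ?_⟩
  · obtain ⟨p, hp, rfl⟩ := mem_image.1 hp'
    obtain ⟨a1, v, a2, a3⟩ := c2 p hp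
    have a4 := c1 p
    have a5 := GeoA.zd_tri (c p) p 0
    have a6 := GeoA.zd_tri v p (c p)
    rw [GeoA.zd_comm p] at a6
    exact ⟨by omega, v, a2, by omega⟩
  · obtain ⟨p, hp, rfl⟩ := mem_image.1 h₁
    obtain ⟨p', hp', rfl⟩ := mem_image.1 h₂
    have a1 := hP.sep p hp p' hp' fun k => e (k ▸ rfl)
    have a2 := c1 p
    have a3 := c1 p'
    have a4 := GeoA.zd_tri p (c p) p'
    have a5 := GeoA.zd_tri (c p) (c p') p'
    rw [GeoA.zd_comm p (c p)] at a4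
    omega
  · obtain ⟨Tc, hT⟩ := c3 M hM
    refine ⟨hT.rgh.mono d1, fun fr B ρ J b1 b2 _ b4 => ?_⟩
    have s3 := sc_ge (L := L) (J := J) (by omega)
    have s4 : Q * sc L J ≤ D * sc L J := Nat.mul_le_mul_right _ (by omega)
    have s5 : D ≤ D * sc L J := Nat.le_mul_of_pos_right _ (by omega)
    have s6 : (8 * Qs + 20) * sc L J ≤ D * sc L J := Nat.mul_le_mul_right _ (by omega)
    have s7 : (8 * Qs + 20) * sc L J = 2 * (Qs * (4 * sc L J)) + 20 * sc L J := by ring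
    have hT' := hT.mono (min_le_right _ _) (show ρ ≤ r / Qd by omega)
    refine ⟨hC k (by omega) N₁ M (regOf M _ fr) _ Tc B ρ J
      ⟨hT'.small, uni_left hT'.uni hK₂, hT'.rgh, hT'.sep, hT'.far⟩ b1 (by omega) (by omega)
      (by omega), fun hf => ⟨ShA.mono (hA M (regOf M _ fr) B _ b1.sign hf (by omega)
        fun ℓ ℓ' l1 l2 l3 => hS M (regOf M _ fr) B (ρ / 2)
          ((uni_left (mul_comm K₁ K₂ ▸ hT'.uni) hK₁).mono (Nat.div_le_self _ _))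
          (b1.mono (Nat.div_le_self _ _))
          (fun z d s e1 e2 => hF M (regOf M _ fr) B N₁ ρ hT'.rgh b1 z d s e1 (by omega))
          (by omega) ℓ ℓ' l1 l2 (by have := Nat.mul_le_mul_left Qs l3; omega))
        (by linarith) (by linarith),
      Coe.mono (hE M (regOf M _ fr) B ρ _ b1 hf hT'.uni.tr (by omega) (by omega)) (by linarith)
        (by linarith)⟩⟩

open P144L in
theorem geoLD_of (hT : TorL) (hR : RghL) (hB : BdL) (hS : ShrH) : GeoLD := by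
  intro κ hκ
  obtain ⟨N, Q, hQ, hR'⟩ := hR κ hκ
  obtain ⟨c₁, β, hc₁, hβ, hβ', Qs, hS⟩ := hS N
  obtain ⟨c₂, hc₂, hA⟩ := shA_of c₁ β hc₁ hβ'
  obtain ⟨c₃, hc₃, hE⟩ := coe_of N
  refine ⟨c₂ + c₃, β, by linarith, hβ, hβ', fun ε hε => ?_⟩
  obtain ⟨L₀, N', D, hD1, h⟩ := F.cls hT hR hB hκ hε
  refine ⟨L₀ + 2, fun L hL k k1 => ⟨1, N', D + Q + 4 * Qs + 20, k, le_rfl, by omega,
    fun Λ r T h1 h2 _ h3 => ⟨∅, by simp, by simp, fun M _ hM => ?_⟩⟩⟩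
  rw [F.dig_empty]
  obtain ⟨a1, a2⟩ := h L (by omega) k k1 (D + Q + 4 * Qs + 20) (by omega) Λ r T h1 h2 h3 M hM
  refine ⟨a1, fun fr B ρ J b1 b2 b3 b4 => ⟨a2 fr B ρ J b1 b2 b3 b4, fun hf => ?_⟩⟩
  have d1 : r / (D + Q + 4 * Qs + 20) ≤ r / Q := Nat.div_le_div_left (by omega) hQ
  have d2 : r / Q ≤ r := Nat.div_le_self _ _
  have a3 := (hR' M _ r (hT κ Λ r T M h1 h3 hM) (by omega) (by omega)).mono (b2.trans d1)
  have s3 := sc_ge (L := L) (J := J) (by omega)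
  have s6 : (4 * Qs + 20) * sc L J ≤ (D + Q + 4 * Qs + 20) * sc L J :=
    Nat.mul_le_mul_right _ (by omega)
  have s7 : (4 * Qs + 20) * sc L J = Qs * (4 * sc L J) + 20 * sc L J := by ring
  exact ⟨ShA.mono (hA M (regOf M _ fr) B _ b1.sign hf (by omega) fun ℓ ℓ' l1 l2 l3 =>
      hS M (regOf M _ fr) B ρ a3 b1 (by omega) ℓ ℓ' l1 l2
        (by have := Nat.mul_le_mul_left Qs l3; omega)) (by linarith) (by linarith),
    Coe.mono (hE M (regOf M _ fr) B ρ _ b1 hf a3.tr (by omega) (by omega)) (by linarith)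
      (by linarith)⟩

theorem geoTD : GeoTD :=
  geoTD_of (digU_of (chStmt_of shiftU) (smallW_of (smallU_of farU))
    (uniW_of farU connOr winAnd rghZ) rghZ) clsU shrU flatW

theorem geoLD : GeoLD :=
  geoLD_of P144L.G.torL P144L.G.rghL P144L.F.bdL (shrH_of (decH_of holS) teleH flatW)

end Vale.Agent.N144.WG
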