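import Vale.Agent.N144.W.Defs
import Vale.Agent.N144.Lat.MS

/-!
The bound on the even spin correlations at all scales up to the boundary, on the lattice.
-/

namespace Vale.Agent.N144.WL

open Finset Matrix Vale.Agent.P144 Vale.Agent.P144Z UL Vale.Agent.N144.Lat

/-- The sectors with the spins are bounded by the sum without strings. -/
theorem numW (hG : GapW) (hZ : ZeroMS) {Q : Cls} {q : Par} {L : ℕ} {σ γ : ℝ}
    (hL : 2 ≤ L) (h : MWMain Q q L σ γ) (N n Λ₀ Λ₁ : ℕ) (hn : Even n) :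
    ∃ C : ℝ, 0 ≤ C ∧ ∃ J₀ p₀ : ℕ, ∀ J ≥ J₀, ∀ J' ≥ J + p₀, ∀ (M : ℕ) [NeZero M] (Λ : Finset Site)
      (fr : Bool) (T ρ H r : ℕ) (a : Site) (hs : Fin H → Site) (c : Site) (x : Fin n → Site),
      Rgh (regOf M Λ fr).In N ρ →
      (∀ B, Str (regOf M Λ fr).pw B (ρ - 1) → Q M ((regOf M Λ fr).pw * B) J') →
      Holes Λ T ρ a hs → (fr = true → H = 0) →
      (∀ v, zd v c ≤ 64 * sc L (J + p₀) + 1 → v ∈ Λ) → Spins Λ r x →
      (∀ i, zd (x i) c ≤ Λ₁ * sc L J) → 16 * sc L J ≤ r → 64 * sc L J' + 2 ≤ ρ → ρ ≤ T →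
      T ≤ Λ₀ * sc L J' → M = 64 * T → ∀ (S : Finset (Fin H)) (u : Cor M), u.Ok → u.Wt σ γ →
      u.Off (regOf M Λ fr).pw →
        |ZwC q u ((regOf M Λ fr).pw * holeG M a hs S * spinG M c x) 1| ≤
          C * (r : ℝ) ^ (-((n : ℝ) / 8)) * |ZwC q u (regOf M Λ fr).pw 1| := by
  obtain ⟨Γ₀, hΓ₀, r₀, hG⟩ := gap_reg hG N (2 * Λ₀)
  have a0 : (0 : ℝ) ≤ Λ₀ := Nat.cast_nonneg _
  obtain ⟨Γ₁, a1⟩ : ∃ Γ₁, Γ₁ = Γ₀ * (Λ₀ + 1) := ⟨_, rfl⟩
  have a2 : 1 ≤ Γ₁ := by nlinarith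
  obtain ⟨C₀, hC₀, hZ⟩ := hZ n
  obtain ⟨C, hC, J₀, p₀, h⟩ := h n (64 * Λ₀) (Λ₁ + 16) (64 * Γ₁) (by linarith)
  refine ⟨C * C₀, by positivity, J₀ + r₀ + 1, p₀, fun J hJ J' hJ' M _ Λ fr T ρ H r
    a hs c x hS hB h1 hfr hc hx hR r1 r2 r3 r4 hMT S u u1 u2 u3 => ?_⟩
  have l1 : 8 * J + 8 ≤ sc L J := sc_ge hL
  have l2 : 8 * J' + 8 ≤ sc L J' := sc_ge hL
  have l3 : sc L (J + p₀) ≤ sc L J' := FM.sc_mono (by omega) hJ'
  set ℓ := sc L J with hℓ
  set ℓ' := sc L J' with hℓ'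
  set R := regOf M Λ fr with hRR
  have c0 : c ∈ Λ := hc c (by simp [zd_self])
  have c1 : zd c 0 ≤ T := h1.box c c0
  have c2 : tdist (prj M c) 0 ≤ T := (H3.tdist_prj_zero c).trans c1
  have e0 : spinG M a (Fin.elim0 : Fin 0 → Site) * holeG M a hs S = holeG M a hs S := by
    simp [spinG]
  obtain ⟨s1, s2, s3, s4, -, -⟩ := str_reg (M := M) (fr := fr) (x := Fin.elim0) S h1
    ⟨fun i => i.elim0, fun i => i.elim0⟩ (fun h => ⟨hfr h, Even.zero⟩) (by omega) (by omega)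
  have s0 := fun f => DC.ends (M := M) (x := (Fin.elim0 : Fin 0 → Site)) (a := a) (hs := hs)
    (S := S) (f := f)
  rw [e0] at s0 s1 s2 s3 s4
  set H₁ := holeG M a hs S with hH₁
  have f1 : Flat H₁ (prj M c) (64 * ℓ' + 1) := fun f hf =>
    (DC.flux_sign s1.sign f).resolve_right fun h3 => by
      have h4 := DC.far_out h1 (by omega) c0 ((s0 f h3).resolve_left fun ⟨i, _⟩ => i.elim0)
      rw [tdist_comm] at h4
      omega
  obtain ⟨s, g1, g2, g3⟩ := fix s1.sign (by omega) f1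
  have t1 := str_dg s1 g1
  have t0 : ∀ f, flux (H₁ * dg s) f = flux H₁ f := fun f => by rw [flux_mul, flux_dg g1, mul_one]
  have t2 : ∀ f, flux (R.pw * (H₁ * dg s)) f ≠ -1 := fun f hf => by
    rw [flux_mul, t0, ← flux_mul] at hf
    obtain ⟨i, -⟩ := (s3 f).1 hf
    exact i.elim0
  have hbox : ∀ f ∈ R.In, tdist f 0 ≤ 2 * T := fun f hf => by
    obtain ⟨v, hv, rfl⟩ := mem_image.1 hf
    exact (H3.tdist_prj_zero v).trans ((h1.box v hv).trans (by omega))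
  have r5 : 2 * T ≤ 2 * Λ₀ * (ρ - 1) := by
    rw [mul_assoc]
    exact Nat.mul_le_mul_left _ (r4.trans (Nat.mul_le_mul_left _ (by omega)))
  have b1 : Γ₀ * ((2 * T : ℕ) : ℝ) ≤ Γ₀ * (Λ₀ + 1) * ((64 * ℓ' : ℕ) : ℝ) := by
    have e1 : 2 * T ≤ (Λ₀ + 1) * (64 * ℓ') := by nlinarith
    rw [mul_assoc]
    exact mul_le_mul_of_nonneg_left (by exact_mod_cast e1) (by linarith)
  have b2 : Γ₁ * ((64 * ℓ' : ℕ) : ℝ) = 64 * Γ₁ * (ℓ' : ℝ) := by
    push_cast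
    ring
  rw [← a1, b2] at b1
  have p1 : Gap (R.pw * (H₁ * dg s)) (64 * Γ₁ * (ℓ' : ℝ)) := by
    refine Gap.mono (hG M R _ (2 * T) (ρ - 1) (hS.mono (by omega)) t1 hbox (fun e he => ?_)
      (by omega) (by omega) r5 (by omega) fun hf f h3 => ?_) (by positivity) b1
    · have h3 := tdist_triangle e.1 (prj M c) 0
      rw [Pi.mul_apply, s2 e (by omega), g3 e (by omega), one_mul]
    · rw [t0] at h3
      obtain ⟨i, -⟩ := (s4 hf f).1 h3
      exact i.elim0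
  have p0 : Gap R.pw (64 * Γ₁ * (ℓ' : ℝ)) := by
    have := hG M R 1 (2 * T) (ρ - 1) (hS.mono (by omega)) (str_one _ _) hbox (fun _ _ => rfl)
      (by omega) (by omega) r5 (by omega) fun _ f => by
        simp only [flux, Pi.one_apply]
        norm_num
    rw [mul_one] at this
    exact Gap.mono this (by positivity) b1
  have o1 : ∀ e, tdist e.1 (prj M c) ≤ 64 * sc L (J + p₀) → R.pw e = 1 ∧ (H₁ * dg s) e = 1 :=
    fun e he => ⟨DC.pw_one hc fr e (by omega), g2 e (by omega)⟩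
  obtain ⟨k1, -, k3⟩ := cluster (M := M) hn (c := c) (R := (Λ₁ + 16) * ℓ) (r := 16 * ℓ)
    (fun i => h1.box _ (DC.spin_mem hx i)) (by omega)
    (fun i => by have := hR i; rw [add_mul]; omega) fun i j e => r1.trans_lt (hx.sep i j e)
  have b0 := hB 1 (str_one _ _)
  rw [mul_one] at b0
  have dom : DomMW Q R.pw (H₁ * dg s) (spinG M c x) (prj M c) L J (J + p₀) J' n (64 * Λ₀)
      (Λ₁ + 16) (64 * Γ₁) :=
    { P_ok := R.isP
      str := t1.mono (by omega)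
      nofl := t2
      lo := by omega
      hi := by rw [hMT, mul_assoc]; exact Nat.mul_le_mul_left _ r4
      bd := hB _ t1
      bd0 := b0
      gap0 := p0
      gap1 := p1
      one := o1
      cl := k1
      cnt := by convert k3 }
  have e1 : R.pw * (H₁ * dg s) * spinG M c x = R.pw * H₁ * spinG M c x * dg s := by ring
  have z := hZ M Λ fr T r ρ H x a c hs S hn h1 hx c1 hfr (by omega) (by omega) hMT.ge
  have key := h J (by omega) J' (by omega) M R.pw _ _ _ u (C₀ * (r : ℝ) ^ (-((n : ℝ) / 8))) dom u1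
    u2 u3 (by positivity) (by rw [e1, Zw_dg g1]; exact z)
  rw [e1, ZwC_dg g1] at key
  exact key.trans (le_of_eq (by ring))

open ELat in
/-- The bound at all scales on the lattice. -/
theorem mwLat_of (hK : KStmtW) (hG : GapW) (hO : HolesW) (hS : SpStmt) (hZ : ZeroMS)
    {Raw : Finset Site → ℕ → Prop} {Cl Cl' : Cls} {q : Par} {Zσ Zε : ℝ} {L : ℕ} (hL2 : 2 ≤ L)
    (hq : q.Ok) (hsm : q.Small 1) (hU : UnivU Cl q Zσ Zε L 0) (hU' : UnivMW Cl' q L)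
    (hD : GeoF Raw Cl' L) (hCl : ∀ (M : ℕ) [NeZero M] A J, Cl' M A J → Cl M A J) :
    MWLat Raw q := by
  intro J lam β hJ hμ hx n Λ₀ Λ₁ hn
  obtain ⟨t, N, Q, JG, ht, hQ, hD⟩ := hD
  have rq : Rel J lam β q := ⟨hq.pot, hq.range, hμ, hx⟩
  obtain ⟨H₀, Qh, hQh, hO⟩ := hO N ((Λ₀ + 1) * (2 * Q))
  obtain ⟨c, hc⟩ : ∃ c : ℕ, c = 2 * Q * (2 * Qh * (2 * 2 * ((Q + 66) * L))) := ⟨_, rfl⟩
  obtain ⟨σ, γ, θ, hσ, hθ, hΔ, hM1, hE1⟩ := hU
  obtain ⟨σ', γ', θ', hσ', hθ', hΔ', hM2⟩ := hU'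
  obtain ⟨C₁, hC₁, hS⟩ := hS q.R t
  obtain ⟨B₁, hT⟩ := FrU.tilt ((4 * ((Λ₀ + 1) * (2 * Q)) + 1) ^ 2) (t + q.R + 2) hC₁ hθ hσ
  obtain ⟨B₂, hT'⟩ := FrU.tilt ((4 * ((Λ₀ + 1) * (2 * Q)) + 1) ^ 2) (t + q.R + 2) hC₁ hθ' hσ'
  obtain ⟨J₁, hd⟩ := den hK hL2 hM1 hE1 N H₀ (2 * (Λ₀ + 1) * c) B₁
  obtain ⟨C, hC, J₀, p₀, hm⟩ := numW hG hZ hL2 hM2 N n (2 * (Λ₀ + 1) * c) (16 * L * Λ₁) hn
  obtain ⟨k, hk⟩ : ∃ k, k = (Q + 66) * L ^ p₀ + 2 := ⟨_, rfl⟩
  refine ⟨2 * |B₁| * (2 ^ H₀ * (|B₂| * C)), by positivity,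
    16 * sc L (J₀ + J₁ + JG + t + q.R + q.R), Q * (Qh * (2 * (k + 1))) + 4 * t,
    fun s R r Λ b z x hb hR hΛ hz x1 x2 r1 r2 r3 r4 => ?_⟩
  obtain ⟨J₂, m1, m2, m3⟩ := Mn.exists_scale (c := 16) hL2 (by omega) r1
  rw [show sc L (J₂ + 1) = L * sc L J₂ by unfold sc; ring, ← mul_assoc] at m3
  have s8 := sc_ge (J := J₂) hL2
  have s7 := sc_ge (J := J₂ + p₀) hL2
  obtain ⟨s₀, hs₀⟩ : ∃ s₀, s₀ = k * R := ⟨_, rfl⟩
  have hr' : Q * (Qh * (2 * (s₀ + 1))) + 4 * t ≤ (Q * (Qh * (2 * (k + 1))) + 4 * t) * R := by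
    have e1 : s₀ + 1 ≤ (k + 1) * R := by rw [hs₀, add_mul]; omega
    have e2 : 4 * t ≤ 4 * t * R := Nat.le_mul_of_pos_right _ (by omega)
    have e3 : Q * (Qh * (2 * (s₀ + 1))) ≤ Q * (Qh * (2 * (k + 1))) * R := by
      simp only [mul_assoc]
      gcongr
    rw [add_mul]
    omega
  have hr := hr'.trans r4
  have hr2 : 2 * (s₀ + 1) ≤ Q * (Qh * (2 * (s₀ + 1))) :=
    (Nat.le_mul_of_pos_left _ hQh).trans (Nat.le_mul_of_pos_left _ hQ)
  have s1 : (Q + 66) * sc L (J₂ + p₀) ≤ s₀ ∧ 2 * R ≤ s₀ := by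
    have e1 : sc L (J₂ + p₀) = L ^ p₀ * sc L J₂ := by unfold sc; ring
    have e2 : (Q + 66) * L ^ p₀ * sc L J₂ ≤ (Q + 66) * L ^ p₀ * R :=
      Nat.mul_le_mul_left _ (by omega)
    rw [hs₀, hk, add_mul ((Q + 66) * L ^ p₀), e1, ← mul_assoc]
    omega
  have f1 : Qh * (2 * (s₀ + 1)) ≤ r / Q :=
    (Nat.le_div_iff_mul_le hQ).2 (by rw [mul_comm]; omega)
  have f2 : 2 * (s₀ + 1) ≤ r / Q / Qh := (Nat.le_div_iff_mul_le hQh).2 (by rw [mul_comm]; omega)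
  have f3 : Qh ≤ r / Q := le_trans (Nat.le_mul_of_pos_right _ (by omega)) f1
  have f4 : Q ≤ r := (Nat.le_mul_of_pos_right Q (by omega : 0 < r / Q)).trans (Nat.mul_div_le r Q)
  have f5 : r / Q ≤ r := Nat.div_le_self _ _
  have f6 : r / Q / Qh ≤ r / Q := Nat.div_le_self _ _
  have g1 := le_mul_div hQ f4
  have g2 := le_mul_div hQh f3
  have g3 := le_mul_div (Q := 2) (r := r / Q / Qh) (by norm_num) (by omega)
  obtain ⟨ρ, hρ⟩ : ∃ ρ, ρ = r / Q / Qh / 2 := ⟨_, rfl⟩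
  rw [← hρ] at g3
  obtain ⟨J', n1, n2, n3⟩ := Mn.exists_scale (c := Q + 66) (J := J₂ + p₀) (M := ρ) hL2
    (by omega) (by omega)
  rw [show sc L (J' + 1) = L * sc L J' by unfold sc; ring, ← mul_assoc] at n3
  rw [add_mul] at n2
  have s9 := sc_ge (J := J') hL2
  have e1 : (Λ₀ + 1) * r = Λ₀ * r + r := by ring
  have e4 : r ≤ c * sc L J' := by
    rw [hc]
    simp only [mul_assoc] at g1 g2 g3 n3 ⊢
    refine g1.trans (by gcongr; refine g2.trans (by gcongr; exact g3.trans (by gcongr)))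
  have e5 : 2 * ((Λ₀ + 1) * r) ≤ 2 * (Λ₀ + 1) * c * sc L J' := by
    simp only [mul_assoc]
    gcongr
  have e6 : (Λ₀ + 1) * r ≤ (Λ₀ + 1) * (2 * Q) * (r / Q) := by
    rw [mul_assoc]
    gcongr
  have e7 : 2 * ((Λ₀ + 1) * r + t) ≤ 4 * ((Λ₀ + 1) * (2 * Q)) * (r / Q + 1) := by
    rw [mul_assoc 4, mul_add_one ((Λ₀ + 1) * (2 * Q))]
    omega
  have e8 : R ≤ 16 * L * Λ₁ * sc L J₂ := by
    refine r3.trans ((Nat.mul_le_mul_left _ m3).trans (le_of_eq ?_))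
    ring
  set T := (Λ₀ + 1) * r with hT₀
  have hΛ' : ∀ v ∈ Λ, zd v 0 ≤ T := fun v hv => (hΛ v hv).trans (by omega)
  have : NeZero (64 * (2 * T)) := ⟨by omega⟩
  set M := 64 * (2 * T) with hMd
  obtain ⟨P, p1, p0, sW⟩ := hD Λ r T hR f4 (by omega) hΛ'
  obtain ⟨sW, hB⟩ := sW M (by omega)
  obtain ⟨fr, H, hH', a, hs', rfl, h1, hcn, hfr⟩ : ∃ fr : Bool, ∃ H ≤ H₀, ∃ a,
      ∃ hs' : Fin H → Site, b = (if fr then none else some fun _ => true) ∧
      Holes (dig Λ P t) (2 * T) ρ a hs' ∧ (fr = false → Cn M (dig Λ P t) a hs') ∧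
      (fr = true → H = 0) := by
    obtain ⟨H, hH', a, hs', h1, hcn⟩ := hO (dig Λ P t) T (r / Q) M sW f3 (by omega) e6
      (fun v hv => hΛ' v (mem_dig.1 hv).1) (by omega)
    have h2 := holes_mono h1 (r' := ρ) (by omega)
    rcases hb with rfl | rfl
    · exact ⟨true, 0, Nat.zero_le _, a, Fin.elim0, rfl, ⟨h2.box, h2.a_le, fun i => i.elim0,
        h2.a_out, fun i => i.elim0, fun i => i.elim0, fun i => i.elim0⟩, by simp, fun _ => rfl⟩
    · exact ⟨false, H, hH', a, hs', rfl, h2, fun _ => hcn, by simp⟩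
  have hbd : ∀ B, Str (regOf M (dig Λ P t) fr).pw B (ρ - 1) →
      Cl' M ((regOf M (dig Λ P t) fr).pw * B) J' := fun B h =>
    hB fr B (ρ - 1) J' h (by omega) (by omega) (by omega)
  have hzd : ∀ v, zd v z ≤ s₀ → v ∈ dig Λ P t :=
    (spins_dig (r' := s₀) (x := fun _ : Unit => z) ⟨fun _ => hz, fun _ _ h => absurd rfl h⟩
      (fun p hp => (p1 p hp).2) (by omega)).ins ()
  have hsp : Spins (dig Λ P t) s x := ⟨fun i v hv => hzd v (by
    have := GeoA.zd_tri v (x i) z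
    have := x1 i
    omega), x2⟩
  have p2 : ∀ p ∈ P, zd p 0 ≤ 2 * T := fun p hp => (p1 p hp).1.trans (by omega)
  have p3 : ∀ p ∈ P, ∀ p' ∈ P, p ≠ p' → 2 * (t + q.R + 2) < zd p p' := fun p hp p' hp' e =>
    lt_of_le_of_lt (by omega) (p0 p hp p' hp' e)
  have p4 := B5a2.card_net (fun p hp => (p1 p hp).1) p0 e7
  obtain ⟨O, hO, hb, hG⟩ := hS J lam β q rq rq.range hq.x_lo hq.x_hi hsm M Λ P fr (2 * T) ρ H a hs'
    h1 hcn hfr p2 p3 (by omega)
  have x0 : 0 < q.x := by linarith [hq.x_lo]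
  have p5 : ∀ p ∈ P, zd p 0 ≤ 2 * T ∧ ∀ v, zd v p ≤ 1 → v ∉ dig Λ P t := fun p hp =>
    ⟨p2 p hp, fun v hv h => by
      have := (mem_dig.1 h).2 p hp
      omega⟩
  obtain ⟨d1, d2, d3⟩ := hΔ M (regOf M (dig Λ P t) fr)
  obtain ⟨-, -, d4⟩ := hΔ' M (regOf M (dig Λ P t) fr)
  obtain ⟨u, w, hu, u1, u2, hT⟩ := hT q x0 M (dig Λ P t) P fr (2 * T) O γ h1.box p5 p3 p4
    (by omega) hO hb d1 d2 d3
  obtain ⟨u', w', hu', u3, -, hT'⟩ := hT' q x0 M (dig Λ P t) P fr (2 * T) O γ' h1.box p5 p3 p4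
    (by omega) hO hb d1 d2 d4
  have Z0 := (TiltH.avg x0 h1.box (by omega : 4 * (2 * T + q.R + 2) ≤ M) fr).1
  have k1 := hd J' (by omega) M _ fr (2 * T) ρ H a hs' hH' (sW.mono (by omega))
    (fun B h => hCl _ _ _ (hbd B h)) h1 hfr
    (by omega) (by omega) e5 rfl _ _ u w (fun U => ⟨(hu U).1, (hu U).2.1, (hu U).2.2.1⟩) u1 u2
  have k2 := fun S U => hm J₂ (by omega) J' n1 M _ fr (2 * T) ρ H s a hs' z x (sW.mono (by omega))
    hbd h1 hfr (fun v hv => hzd v (by have := s1.1; rw [add_mul] at this; omega)) hsp (fun i => (x1 i).trans e8) m2 (by omega) (by omega) e5 rfl S (u' U)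
    (hu' U).1 (hu' U).2.2.1 (hu' U).2.1
  rw [sec_c (c := z) (UG.gibbs_one _ _) hG Z0 h1.box (h1.box z (hzd z (by simp [zd_self])))
    (fun i => DC.spin_mem hsp i) hn]
  conv_lhs => enter [1, 1, 2, S]; rw [hT']
  conv_lhs => enter [1, 2, 2, S]; rw [hT]
  refine (fin (N := 2 ^ H₀) ((sum_nonneg fun _ _ => abs_nonneg _).trans u1) k1 u3
    (mul_nonneg hC (Real.rpow_nonneg (Nat.cast_nonneg s) _)) (fun U => (hu' U).2.2.2) k2 ?_).trans
    (le_of_eq (by ring))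
  rw [Fintype.card_finset, Fintype.card_fin]
  exact_mod_cast Nat.pow_le_pow_right (by norm_num) hH'

open U2D in
/-- From the lattice to the domain. -/
theorem sepW_of {J lam β T ρ : ℝ} {q : Par} {Raw : Finset Site → ℕ → Prop} (h : MWLat Raw q)
    (hJ : 0 < J) (hV : IsPotential q.V) (hμ : q.μ = β * lam) (hx : q.x = Real.exp (-(2 * β * J)))
    {D : Set ℂ} (hT : 0 < T) (hρ : 0 < ρ) (h1 : ∀ a > (0 : ℝ),
      (∀ x, x ∈ disc D a ↔ (⟨a * x.1, a * x.2⟩ : ℂ) ∈ D) ∧ (∀ x ∈ disc D a, a * zd x 0 ≤ T) ∧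
        ∀ r : ℕ, 1 ≤ r → a * r ≤ ρ → Raw (disc D a) r) {b : Option (ℝ → Config)} (hb : StdBC b) :
    SepW D (inDom J lam q.V β D b) := by
  intro n hn δ₀ hδ₀
  obtain ⟨s, hs, hsρ⟩ : ∃ s > (0 : ℝ), s ≤ ρ := ⟨ρ, hρ, le_rfl⟩
  obtain ⟨δ, hδ, hδ1, hδ2⟩ : ∃ δ > (0 : ℝ), δ ≤ 1 ∧ δ ≤ δ₀ :=
    ⟨min 1 δ₀, by positivity, min_le_left _ _, min_le_right _ _⟩
  obtain ⟨C, hC, r₀, K₀, h⟩ := h J lam β hJ hμ hx n ⌈2 * T / s⌉₊ ⌈16 / δ⌉₊ hn
  refine ⟨C * ((δ / 8) ^ (-(1 / 8) : ℝ)) ^ n, 32 * (r₀ + 1) / δ, 4 * K₀ + 3, s / (4 * (K₀ + 1)),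
    by positivity, by positivity, by linarith [Nat.cast_nonneg (α := ℝ) K₀], by positivity,
    fun a ε z x ha a1 a2 hz x1 x2 => ?_⟩
  obtain ⟨d1, d2, d3⟩ := h1 a ha
  have r0 : (0 : ℝ) ≤ r₀ := Nat.cast_nonneg _
  have K0 : (0 : ℝ) ≤ K₀ := Nat.cast_nonneg _
  obtain ⟨u, hu⟩ : ∃ u, u = ε / a := ⟨_, rfl⟩
  obtain ⟨v, hv⟩ : ∃ v, v = s / a := ⟨_, rfl⟩
  have eu : ε = a * u := by rw [hu]; field_simp
  have ev : s = a * v := by rw [hv]; field_simp
  have b1 : 32 * (r₀ + 1) ≤ δ * u := by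
    rw [div_mul_eq_mul_div, div_le_iff₀ hδ, eu] at a1
    refine le_of_mul_le_mul_left ?_ ha
    linarith
  have u0 : 0 < u := (mul_pos_iff_of_pos_left hδ).1 (by linarith)
  have b2 : 16 ≤ u := by nlinarith
  have b3 : 4 * (K₀ + 1) * u ≤ v := by
    rw [le_div_iff₀ (by positivity), eu, ev] at a2
    refine le_of_mul_le_mul_left ?_ ha
    linarith
  have b4 : 64 ≤ v := by nlinarith
  have ε0 : 0 < ε := by rw [eu]; positivity
  obtain ⟨r, c1, c2⟩ : ∃ r : ℕ, (r : ℝ) ≤ δ * u / 4 ∧ δ * u / 4 < r + 1 :=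
    ⟨_, Nat.floor_le (by positivity), Nat.lt_floor_add_one _⟩
  obtain ⟨R, c3, c4⟩ : ∃ R : ℕ, u + 4 ≤ R ∧ (R : ℝ) < u + 4 + 1 :=
    ⟨_, Nat.le_ceil _, Nat.ceil_lt_add_one (by positivity)⟩
  obtain ⟨w, c5, c6⟩ : ∃ w : ℕ, (w : ℝ) ≤ v ∧ v < w + 1 :=
    ⟨_, Nat.floor_le (by positivity), Nat.lt_floor_add_one _⟩
  have c7 : δ * u / 8 ≤ r := by linarith
  have hn' : ∀ y : ℂ, |(((fl a y).1 : ℤ) : ℝ) - y.re / a| ≤ 2 ∧
      |(((fl a y).2 : ℤ) : ℝ) - y.im / a| ≤ 2 := fun y => by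
    simpa using U4.fl_near a y 0 (by simp) (by simp)
  have hd : ∀ y y' : ℂ, |y.re / a - y'.re / a| = |(y - y').re| / a ∧
      |y.im / a - y'.im / a| = |(y - y').im| / a := fun y y' => by
    rw [← sub_div, ← sub_div, abs_div, abs_div, abs_of_pos ha]
    exact ⟨rfl, rfl⟩
  have t1 : ∀ p p' t t' : ℝ, |p - t| ≤ 2 → |p' - t'| ≤ 2 →
      |p - p'| ≤ |t - t'| + 4 ∧ |t - t'| ≤ |p - p'| + 4 := fun p p' t t' k k' => by
    rw [abs_le] at k k'
    constructor <;> rw [abs_le] <;> constructor <;>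
      linarith [le_abs_self (t - t'), neg_abs_le (t - t'), le_abs_self (p - p'),
        neg_abs_le (p - p')]
  have key := fun b hb => h r R w (disc D a) b (fl a z) (fun i => fl a (x i)) hb
    (d3 w (by exact_mod_cast (by linarith : (1 : ℝ) ≤ w))
      ((mul_le_mul_of_nonneg_left c5 ha.le).trans (ev ▸ hsρ)))
    (fun y hy => by
      have : (zd y 0 : ℝ) ≤ (⌈2 * T / s⌉₊ : ℝ) * w := by
        calc (zd y 0 : ℝ) ≤ T / a := by
              rw [le_div_iff₀' ha]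
              exact d2 y hy
          _ = 2 * T / s * (v / 2) := by rw [hv]; field_simp
          _ ≤ _ := mul_le_mul (Nat.le_ceil _) (by linarith) (by positivity) (by positivity)
      exact_mod_cast this)
    (fun y hy => (d1 y).2 (hz (by
      have h5 : (zd y (fl a z) : ℝ) ≤ K₀ * R := by exact_mod_cast hy
      have h6 := h5.trans (mul_le_mul_of_nonneg_left (show (R : ℝ) ≤ 2 * u by linarith) K0)
      rw [U4.zd_cast, max_le_iff] at h6
      have k : ∀ p p' t : ℝ, |p - p'| ≤ K₀ * (2 * u) → |p' - t / a| ≤ 2 →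
          |a * p - t| ≤ (2 * K₀ + 1) * ε := by
        intro p p' t k1 k2
        have k3 : |p - t / a| ≤ (2 * K₀ + 1) * u := (abs_sub_le p p' _).trans (by linarith)
        rw [show a * p - t = a * (p - t / a) by field_simp, abs_mul, abs_of_pos ha, eu,
          mul_left_comm]
        exact mul_le_mul_of_nonneg_left k3 ha.le
      rw [Metric.mem_ball, dist_eq_norm]
      refine lt_of_le_of_lt (Complex.norm_le_abs_re_add_abs_im _) ?_
      have k1 := k _ _ _ h6.1 (hn' z).1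
      have k2 := k _ _ _ h6.2 (hn' z).2
      simp only [Complex.sub_re, Complex.sub_im]
      linarith)))
    (fun i => by
      have k0 : ‖x i - z‖ / a ≤ u := by
        rw [hu]
        exact div_le_div_of_nonneg_right (mem_ball_iff_norm.1 (x1 i)).le ha.le
      have k1 := div_le_div_of_nonneg_right (Complex.abs_re_le_norm (x i - z)) ha.le
      have k2 := div_le_div_of_nonneg_right (Complex.abs_im_le_norm (x i - z)) ha.le
      have k3 := (t1 _ _ _ _ (hn' (x i)).1 (hn' z).1).1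
      have k4 := (t1 _ _ _ _ (hn' (x i)).2 (hn' z).2).1
      rw [(hd _ _).1] at k3
      rw [(hd _ _).2] at k4
      have : (zd (fl a (x i)) (fl a z) : ℝ) ≤ R := by
        rw [U4.zd_cast, max_le_iff]
        constructor <;> linarith
      exact_mod_cast this)
    (fun i j e => by
      have k0 : δ * u ≤ ‖x i - x j‖ / a := by
        rw [le_div_iff₀' ha, ← mul_left_comm, ← eu]
        exact (mul_le_mul_of_nonneg_right hδ2 ε0.le).trans (x2 i j e)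
      have k1 := div_le_div_of_nonneg_right (Complex.norm_le_abs_re_add_abs_im (x i - x j)) ha.le
      have k3 := (t1 _ _ _ _ (hn' (x i)).1 (hn' (x j)).1).2
      have k4 := (t1 _ _ _ _ (hn' (x i)).2 (hn' (x j)).2).2
      rw [(hd _ _).1] at k3
      rw [(hd _ _).2] at k4
      rw [add_div] at k1
      have : (r : ℝ) < zd (fl a (x i)) (fl a (x j)) := by
        rw [U4.zd_cast]
        have k5 := le_max_left |(((fl a (x i)).1 : ℤ) : ℝ) - (fl a (x j)).1|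
          |(((fl a (x i)).2 : ℤ) : ℝ) - (fl a (x j)).2|
        have k6 := le_max_right |(((fl a (x i)).1 : ℤ) : ℝ) - (fl a (x j)).1|
          |(((fl a (x i)).2 : ℤ) : ℝ) - (fl a (x j)).2|
        linarith
      exact_mod_cast this)
    (by exact_mod_cast (by linarith : (r₀ : ℝ) ≤ r))
    (by exact_mod_cast (by nlinarith : (r : ℝ) ≤ R))
    (by
      have : (R : ℝ) ≤ (⌈16 / δ⌉₊ : ℝ) * r := by
        calc (R : ℝ) ≤ 16 / δ * (δ * u / 8) := by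
              rw [show 16 / δ * (δ * u / 8) = 2 * u by field_simp; ring]
              linarith
          _ ≤ _ := mul_le_mul (Nat.le_ceil _) c7 (by positivity) (by positivity)
      exact_mod_cast this)
    (by
      have : (K₀ : ℝ) * R ≤ w := by
        have := mul_le_mul_of_nonneg_left (show (R : ℝ) ≤ 2 * u by linarith) K0
        nlinarith
      exact_mod_cast this)
  have e0 : ∀ b, lcor (gibbs J lam q.V β b (disc D a)) (fun i => fl a (x i))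
      (fun k => fl a ((![] : Fin 0 → ℂ) k)) ![] =
      gibbs J lam q.V β b (disc D a) fun σ => ∏ i, sp (σ (fl a (x i))) := fun b => by
    simp only [lcor, univ_eq_empty, prod_empty, mul_one]
  have k1 : |lcor (inDom J lam q.V β D b a) (fun i => fl a (x i))
      (fun k => fl a ((![] : Fin 0 → ℂ) k)) ![]| ≤ C * (r : ℝ) ^ (-((n : ℝ) / 8)) := by
    rcases hb with rfl | rfl | rfl
    · exact (congrArg abs (e0 none)).trans_le (key none (Or.inl rfl))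
    · exact (congrArg abs (e0 _)).trans_le (key _ (Or.inr rfl))
    · have e1 := lcor_not (J := J) (lam := lam) (β := β) hV (disc D a) (fun _ => true)
        (fun i => fl a (x i)) (fun k => fl a ((![] : Fin 0 → ℂ) k)) ![]
      change |lcor (gibbs J lam q.V β (some fun _ => !true) (disc D a)) _ _ _| ≤ _
      rw [e1, hn.neg_one_pow, one_mul, e0]
      exact key _ (Or.inr rfl)
  have k2 := U4.scale (c := δ * ε / 4) (r := r) ha (by positivity)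
    (by rw [eu, show δ * (a * u) / 4 / (2 * a) = δ * u / 8 by field_simp; ring]; exact c7) n 0
  simp only [pow_zero, mul_one, div_one, neg_div] at k2
  unfold inDom at *
  rw [corr_eq, abs_mul, abs_of_nonneg (by positivity)]
  refine (mul_le_mul_of_nonneg_left k1 (by positivity)).trans ?_
  simp only [pow_zero, mul_one]
  rw [mul_left_comm, mul_assoc, ← mul_pow, ← Real.mul_rpow (by positivity) ε0.le,
    show δ / 8 * ε = δ * ε / 4 / 2 by ring]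
  exact mul_le_mul_of_nonneg_left k2 hC

end Vale.Agent.N144.WL
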