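import Vale.Agent.P144L.F.All
import Vale.Agent.N144.W.Lat
import Vale.Agent.N144.W.Geo
import Vale.Agent.N144.G.Main

/-!
The assembly, with the bound on the spin correlations at all scales up to the boundary.
-/

namespace Vale.Agent.N144.WL

open Filter Topology Vale.Agent.P144 Vale.Agent.P144Z U2D Set AN Vale.Agent.P144L P144L.F

theorem both {L : ℕ} {A B : Par → Prop}
    (h1 : ∃ η > (0 : ℝ), ∀ R : ℕ, ∃ δ > (0 : ℝ), ∀ q : Par, q.R = R → Crit L q η δ → A q)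
    (h2 : ∃ η > (0 : ℝ), ∀ R : ℕ, ∃ δ > (0 : ℝ), ∀ q : Par, q.R = R → Crit L q η δ → B q) :
    ∃ η > (0 : ℝ), ∀ R : ℕ, ∃ δ > (0 : ℝ), ∀ q : Par, q.R = R → Crit L q η δ → A q ∧ B q := by
  obtain ⟨η₁, a1, h1⟩ := h1
  obtain ⟨η₂, a2, h2⟩ := h2
  refine ⟨min η₁ η₂, lt_min a1 a2, fun R => ?_⟩
  obtain ⟨δ₁, b1, h1⟩ := h1 R
  obtain ⟨δ₂, b2, h2⟩ := h2 R
  exact ⟨min δ₁ δ₂, lt_min b1 b2, fun q e h =>
    ⟨h1 q e (h.mono (min_le_left _ _) (min_le_left _ _)),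
      h2 q e (h.mono (min_le_right _ _) (min_le_right _ _))⟩⟩

/-- `DomL` with the bound at all scales up to the boundary. -/
def DomW (K : ℝ) : Prop :=
  ∃ κ : ℝ → ℝ, (∀ α > 0, 0 < κ α ∧ κ α < 1) ∧
  ∀ J > 0, ∀ V, IsPotential V → ∃ lam₀ > 0, ∃ β Zσ Zε : ℝ → ℝ,
    AnalyticOnNhd ℝ β (Ioo (-lam₀) lam₀) ∧ AnalyticOnNhd ℝ Zσ (Ioo (-lam₀) lam₀) ∧
    AnalyticOnNhd ℝ Zε (Ioo (-lam₀) lam₀) ∧ β 0 = Kc / J ∧ Zσ 0 = 1 ∧ Zε 0 = 1 ∧
    ∀ lam : ℝ, |lam| < lam₀ → 0 < β lam ∧ 0 < Zσ lam ∧ 0 < Zε lam ∧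
      (∃ μ, IsPlaneState J lam V (β lam) μ ∧ IsTorusState J lam V (β lam) μ ∧
        ∀ E₀, PlaneFam J 0 (fun _ => 0) (Kc / J) E₀ →
          LocDiff univ E₀ (famOf μ) (Zσ lam) (Zε lam) ∧
            Identity univ E₀ (famOf μ) (Zσ lam) (Zε lam)) ∧
      (∀ D b, StdBC b → (∃ α > 0, TameK α (κ α) D) ∨ IsLip K D →
        SepW D (inDom J lam V (β lam) D b)) ∧
      ∀ α > 0, ∀ D b, TameK α (κ α) D ∨ IsLip K D → SignK α (κ α) D b →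
        LocDiff D (crit J D b) (inDom J lam V (β lam) D b) (Zσ lam) (Zε lam) ∧
          Identity D (crit J D b) (inDom J lam V (β lam) D b) (Zσ lam) (Zε lam)

theorem domW_of (hMW : GenMW) (hZero : ZeroMS) (hTD : GeoTD) (hLD : GeoLD) (hG : GenA)
    (hD : DigU) (hC : ClsU) (g1 : RawL) (g2 : TorL) (g3 : RghL) (g4 : DeepL) (g5 : BdL) {K : ℝ}
    (hK1 : K < 1) : DomW K := by
  obtain ⟨εM, hεM, hMW⟩ := hMW
  obtain ⟨κL, hκL, g1⟩ := g1 K hK1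
  obtain ⟨cT, βT, t1, t2, t3, hTD⟩ := hTD
  obtain ⟨cL, βL, u1, u2, u3, hLD⟩ := hLD κL hκL
  obtain ⟨LX, hX⟩ := boxStmt (bdStmt_of shrStmt) gapStmt
  obtain ⟨LB, hB⟩ := ana
  obtain ⟨LS, hS⟩ := stateStmt
  obtain ⟨ε₁', hε₁', hG⟩ := hG
  obtain ⟨ε₁, hε₁, e11, e12⟩ : ∃ ε > (0 : ℝ), ε ≤ ε₁' ∧ ε ≤ εM :=
    ⟨_, lt_min hε₁' hεM, min_le_left _ _, min_le_right _ _⟩
  obtain ⟨LM₁, hM₁⟩ := hMW ε₁ hε₁ e12 cT βT t1 t2 t3
  obtain ⟨LM₂, hM₂⟩ := hMW ε₁ hε₁ e12 cL βL u1 u2 u3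
  obtain ⟨LT, hTD⟩ := hTD ε₁ hε₁
  obtain ⟨LD, hLD⟩ := hLD ε₁ hε₁
  obtain ⟨c', hc', hN⟩ := latK
  obtain ⟨ζ, hζ, LG, hG⟩ := hG ε₁ hε₁ e11 c' hc'
  obtain ⟨LN, hN⟩ := hN ζ hζ
  obtain ⟨LF, hF⟩ := geoF hD hC hε₁
  obtain ⟨LK, hK⟩ := geoK hD hC hε₁
  obtain ⟨LL, hLL⟩ := geo g2 g3 g4 g5 hκL hε₁
  obtain ⟨L, hL⟩ : ∃ L, LB + LS + LX + LG + LN + LF + LK + LL + LM₁ + LM₂ + LT + LD + 2 ≤ L :=
    ⟨_, le_rfl⟩
  replace hLL := hLL L (by omega)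
  replace hLD := hLD L (by omega)
  choose! κT hκT hTD using hTD L (by omega)
  obtain ⟨kM₁, hM₁⟩ := hM₁ L (by omega)
  obtain ⟨kM₂, hM₂⟩ := hM₂ L (by omega)
  obtain ⟨ηB, hηB, hB⟩ := hB L (by omega)
  obtain ⟨ηS, hηS, hS⟩ := hS L (by omega)
  obtain ⟨κ₁, hκ₁, hN⟩ := hN L (by omega)
  obtain ⟨ηX, hηX, hX⟩ := both (hX L (by omega)) (both hM₁ hM₂)
  obtain ⟨kf, hG0, hG⟩ := hG L (by omega)
  choose! κF hκF hF using hF L (by omega)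
  choose! κK hκK hK using hK L (by omega)
  obtain ⟨κ, hκ⟩ : ∃ κ : ℝ → ℝ, ∀ α > 0, 0 < κ α ∧ κ α ≤ κF α ∧ κ α ≤ κK α ∧ κ α ≤ κ₁ ∧
      κ α ≤ 1 / 10 ∧ κ α ≤ α / 100 ∧ κ α ≤ κT α :=
    ⟨fun α => min (κF α) (min (κK α) (min κ₁ (min (1 / 10) (min (α / 100) (κT α))))),
      fun α hα => ⟨by
      have := hκT α hα
      have := hκF α hα
      have := hκK α hα
      positivity, by simp only [← le_min_iff, le_refl]⟩⟩
  refine ⟨κ, fun α hα => ⟨(hκ α hα).1, (hκ α hα).2.2.2.2.1.trans_lt (by norm_num)⟩,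
    fun J hJ V hV => ?_⟩
  obtain ⟨R, hR⟩ := U4.exists_R hV
  have z0 : ∀ ε > 0, |(qc L V R 0).x - P144Z.tc| ≤ ε ∧ |Real.exp (sg L (qc L V R 0)) - 1| ≤ ε ∧
      |ze L (qc L V R 0) - 1| ≤ ε := fun ε hε => by
    obtain ⟨η, hη, h⟩ := hG ε hε
    obtain ⟨δ, hδ, h⟩ := h R
    obtain ⟨κ₀, k0, h', -⟩ := hB (min ηB (min η ε)) (by positivity) (min_le_left _ _) V R hV hR δ hδ
    have hq := h' 0 (by simpa using k0)
    obtain ⟨-, h1, h2, -⟩ := h _ rfl (hq.mono ((min_le_right _ _).trans (min_le_left _ _)) le_rfl)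
    exact ⟨hq.x.trans ((min_le_right _ _).trans (min_le_right _ _)), h1.le, h2.le⟩
  have z1 : ∀ {a b : ℝ}, (∀ ε > 0, |a - b| ≤ ε) → a = b := fun h =>
    sub_eq_zero.1 (abs_nonpos_iff.1 (le_of_forall_pos_le_add fun ε hε => by simpa using h ε hε))
  obtain ⟨ηM, hηM, hG⟩ := hG (1 / 2) (by positivity)
  obtain ⟨δS, hδS, hS1⟩ := hS R
  obtain ⟨δ0, hδ0, hS0⟩ := hS 0
  obtain ⟨δM, hδM, hG⟩ := hG R
  obtain ⟨δX, hδX, hX⟩ := hX R
  obtain ⟨κ₀, hκ₀, hB, a1, a2⟩ := hB (min (min ηB ηS) (min ηM ηX)) (by positivity)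
    ((min_le_left _ _).trans (min_le_left _ _)) V _ hV hR (min (min δS 1) (min δM δX))
    (by positivity)
  replace hG := fun k hk => hG _ rfl ((hB k hk).mono ((min_le_right _ _).trans (min_le_left _ _))
    ((min_le_right _ _).trans (min_le_left _ _)))
  obtain ⟨a2, a3⟩ := a2 fun k hk => (hG k hk).1
  have hk : ∀ lam : ℝ, |lam| < 2 * J * κ₀ → |lam / (2 * J)| < κ₀ := fun lam hlam => by
    rw [abs_div, abs_of_pos (by positivity : 0 < 2 * J), div_lt_iff₀ (by positivity)]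
    linarith
  have cp : ∀ {f : ℝ → ℝ}, AnalyticOnNhd ℝ f (Ioo (-κ₀) κ₀) →
      AnalyticOnNhd ℝ (fun lam => f (lam / (2 * J))) (Ioo (-(2 * J * κ₀)) (2 * J * κ₀)) :=
    fun hf => hf.comp (analyticOnNhd_id.div_const (c := 2 * J))
      fun lam h => abs_lt.1 (hk lam (abs_lt.2 h))
  refine ⟨2 * J * κ₀, by positivity, fun lam => -Real.log (qc L V R (lam / (2 * J))).x / (2 * J),
    fun lam => Real.exp (sg L (qc L V R (lam / (2 * J)))), fun lam => ze L (qc L V R (lam / (2 * J))),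
    cp (f := fun k => -Real.log (qc L V R k).x / (2 * J)) ((a1.log fun k h =>
      lt_of_lt_of_le (by norm_num) (hB k (abs_lt.2 h)).ok.x_lo).neg.div_const),
    cp a3.rexp, cp a2, ?_, ?_, ?_, fun lam hlam => ?_⟩
  · simp only [zero_div]
    rw [z1 fun ε hε => (z0 ε hε).1, U4.tc_eq, Real.log_exp]
    field_simp
  · simpa only [zero_div] using z1 fun ε hε => (z0 ε hε).2.1
  · simpa only [zero_div] using z1 fun ε hε => (z0 ε hε).2.2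
  have hq := hB _ (hk lam hlam)
  obtain ⟨-, -, z2, hmain, hU⟩ := hG _ (hk lam hlam)
  beta_reduce
  have zp := Real.exp_pos (sg L (qc L V R (lam / (2 * J))))
  generalize Real.exp (sg L (qc L V R (lam / (2 * J)))) = Zσ at *
  generalize ze L (qc L V R (lam / (2 * J))) = Zε at *
  have hμ : (qc L V R (lam / (2 * J))).μ =
      lam / (2 * J) * -Real.log (qc L V R (lam / (2 * J))).x := rfl
  have hV' : (qc L V R (lam / (2 * J))).V = V := rfl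
  have hR' : (qc L V R (lam / (2 * J))).R = R := rfl
  generalize qc L V R (lam / (2 * J)) = q at *
  subst hV' hR'
  have hx0 : 0 < q.x := lt_of_lt_of_le (by norm_num) hq.ok.x_lo
  have hx1 : q.x < 1 := lt_of_le_of_lt hq.ok.x_hi (by norm_num)
  have hrel : U4.Rel J lam (-Real.log q.x / (2 * J)) q :=
    { pot := hV
      range := hR
      mu := by rw [hμ]; ring
      x := by
        rw [show -(2 * (-Real.log q.x / (2 * J)) * J) = Real.log q.x by field_simp,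
          Real.exp_log hx0]
      st := hS1 q rfl (hq.mono ((min_le_left _ _).trans (min_le_right _ _))
        ((min_le_left _ _).trans (min_le_left _ _))) }
  have hrel0 := U4.rel_zero hJ (hS0 par0 rfl (crit_par0 L ηS δ0 hηS.le hδ0.le))
  have hsm : q.Small 1 := le_trans hq.small ((min_le_left _ _).trans (min_le_right _ _))
  obtain ⟨hbox, hS₁, hS₂⟩ := hX q rfl
    (hq.mono ((min_le_right _ _).trans (min_le_right _ _))
      ((min_le_right _ _).trans (min_le_right _ _)))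
  replace hbox := hbox J lam _ hrel
  obtain ⟨μ, hμ⟩ := U1.exists_state hV J lam _ hrel.spin
  refine ⟨div_pos (neg_pos.2 (Real.log_neg hx0 hx1)) (by positivity), zp,
    by linarith [abs_lt.1 z2], ⟨μ, hbox μ hμ, hμ, fun E₀ hE => ?_⟩, fun D b hb hT => ?_,
    fun α hα D b hT hb => ?_⟩
  · have h := (udiff_plane hJ hrel hrel0 hmain hμ hE).loc isOpen_univ
    exact ⟨h, ident h.diff⟩
  · have ms : ∀ {Raw : Finset Site → ℕ → Prop} {k N : ℕ} {c β : ℝ},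
        UnivU (QU L ε₁ k N) q Zσ Zε L 0 → UnivMW (QD L ε₁ k N c β) q L →
        GeoF Raw (QD L ε₁ k N c β) L → MWLat Raw q := fun a b c =>
      mwLat_of (kStmtW_of gapW) gapW holesW spStmt hZero (by omega) hq.ok hsm a b c
        fun _ _ _ _ h => h.1
    rcases hT with ⟨α, hα, hT⟩ | hT
    · obtain ⟨-, -, -, -, k4, -, k6⟩ := hκ α hα
      obtain ⟨N, k₀, hF⟩ := hTD α hα
      obtain ⟨T, T0, ρ, ρ0, h1⟩ := hT.raw k4 k6
      exact sepW_of (ms (hU 0 N (kf 0 N + kM₁ N + k₀) (by omega)).1 (hS₁ N _ (by omega))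
        (hF _ (by omega))) hJ hV hrel.mu hrel.x T0 ρ0 h1 hb
    · obtain ⟨T, T0, ρ, ρ0, h1⟩ := g1 D hT
      exact sepW_of (ms (hU 0 0 (kf 0 0 + kM₂ 0 + 1) (by omega)).1 (hS₂ 0 _ (by omega))
        (hLD _ (by omega))) hJ hV hrel.mu hrel.x T0 ρ0 h1 hb
  obtain ⟨k0, k1, k2, k3, k4, k5, -⟩ := hκ α hα
  have ho : IsOpen D := hT.elim (fun h => h.1) fun h => h.1
  suffices h : UDiff D (crit J D b) (inDom J lam q.V (-Real.log q.x / (2 * J)) D b) Zσ Zε from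
    ⟨h.loc ho, ident (h.loc ho).diff⟩
  rcases hT with hT | hT
  swap
  · obtain ⟨T, T0, ρ, ρ0, h1⟩ := g1 D hT
    rcases hb with rfl | ⟨P, hP, rfl⟩
    · refine udiff_lat T0 ρ0 (fun a ha => ⟨(h1 a ha).1, (h1 a ha).2.1⟩) fun n m Λ₀ ε hε => ?_
      obtain ⟨r₀, hr⟩ := latF (kStmtW_of gapW) holesW spStmt (by omega) hq.ok hsm
        (hU m 0 _ (le_max_left _ 1)).1 (hG0 m 0 _ (le_max_left _ 1)).1
        (hLL _ (le_max_right _ _)).1 J lam _ hJ hrel.mu hrel.x n Λ₀ ε hε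
      exact ⟨r₀, fun r h a ha r1 r2 x y j =>
        hr r h _ none x y j (Or.inl rfl) ((h1 a ha).2.2 r r1 r2)⟩
    · obtain ⟨ρ', ρ1, hw⟩ := hP.bcZ
      refine udiff_lat T0 (lt_min ρ0 ρ1) (fun a ha => ⟨(h1 a ha).1, (h1 a ha).2.1⟩)
        fun n m Λ₀ ε hε => ?_
      obtain ⟨Zσ', Zε', h⟩ := (hG0 m 0 _ (le_max_left _ 1)).2
      obtain ⟨r₀, hr⟩ := hN _ k3 _ _ q Zσ Zε Zσ' Zε' m hq.ok hsm (hU m 0 _ (le_max_left _ 1)).2 h
        ((hLL _ (le_max_right _ _)).2 _) J lam _ hJ hrel.mu hrel.x α _ k0 le_rfl (by linarith)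
        n Λ₀ ε hε
      exact ⟨r₀, fun r h a ha r1 r2 x y j => hr r h _ (bcOf P a) x y j
        ((h1 a ha).2.2 r r1 (r2.trans (min_le_left _ _)))
        (hw a ha _ (h1 a ha).1 r (r2.trans (min_le_right _ _)))⟩
  rcases hb with rfl | ⟨P, hP, rfl⟩
  · obtain ⟨N, k₀, hF⟩ := hF α hα
    obtain ⟨T, T0, ρ, ρ0, h1⟩ := hT.raw k4 k1
    refine udiff_lat T0 ρ0 (fun a ha => ⟨(h1 a ha).1, (h1 a ha).2.1⟩) fun n m Λ₀ ε hε => ?_
    obtain ⟨r₀, hr⟩ := latF (kStmtW_of gapW) holesW spStmt (by omega) hq.ok hsm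
      (hU m N _ (le_max_left _ k₀)).1 (hG0 m N _ (le_max_left _ k₀)).1 (hF _ (le_max_right _ _))
      J lam _ hJ hrel.mu hrel.x n Λ₀ ε hε
    exact ⟨r₀, fun r h a ha r1 r2 x y j => hr r h _ none x y j (Or.inl rfl) ((h1 a ha).2.2 r r1 r2)⟩
  · obtain ⟨N, k₀, hK⟩ := hK α hα
    obtain ⟨T, T0, ρ, ρ0, h1⟩ := hT.raw k4 le_rfl
    obtain ⟨ρ', ρ1, hw⟩ := hP.bcZ
    refine udiff_lat T0 (lt_min ρ0 ρ1) (fun a ha => ⟨(h1 a ha).1, (h1 a ha).2.1⟩)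
      fun n m Λ₀ ε hε => ?_
    obtain ⟨Zσ', Zε', h⟩ := (hG0 m N _ (le_max_left _ k₀)).2
    obtain ⟨r₀, hr⟩ := hN _ k3 _ _ q Zσ Zε Zσ' Zε' m hq.ok hsm (hU m N _ (le_max_left _ k₀)).2 h
      (hK _ (le_max_right _ _) _ k0 k2) J lam _ hJ hrel.mu hrel.x α _ k0 le_rfl (by linarith)
      n Λ₀ ε hε
    exact ⟨r₀, fun r h a ha r1 r2 x y j => hr r h _ (bcOf P a) x y j
      ((h1 a ha).2.2 r r1 (r2.trans (min_le_left _ _)))
      (hw a ha _ (h1 a ha).1 r (r2.trans (min_le_right _ _)))⟩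

theorem domW (hMW : GenMW) {K : ℝ} (hK : K < 1) : DomW K :=
  domW_of hMW zeroMS WG.geoTD WG.geoLD (genA_of_wt wtS) (digU_of (chStmt_of shiftU)
    (smallW_of (smallU_of farU)) (uniW_of farU connOr winAnd rghZ) rghZ) clsU P144L.G.rawL
    P144L.G.torL P144L.G.rghL P144L.G.deepL bdL hK

end Vale.Agent.N144.WL
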