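import Vale.Agent.P144P.PlaneC
import Vale.Agent.P144Y.Jind
import Vale.Agent.P144D.Dom.Convex
import Vale.Agent.P144E.Ge5.B
import Vale.Agent.P144W.Plane
import Vale.Agent.P144W.Sob
import Vale.Agent.P144W.Law13
import Vale.Agent.P144V.Main
import Vale.Agent.P144H.Main
import Vale.Agent.N144.W.Dom
import Vale.Agent.N144.Sf.Soft
import Vale.Agent.N144.Sb.Main
import Vale.Agent.N144.C.Fin

/-!
The final assembly, with the field up to the boundary.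
-/

namespace Vale.Agent.N144.WL

open Filter Topology Vale.Agent.P144 Vale.Agent.P144Z

theorem sepD_of_W {D : Set ℂ} {E : Fam} (h : SepW D E) : SepD D E := fun s hs n hn δ hδ => by
  obtain ⟨K, T, κ, ε₀, h1, h2, h3, h4, h⟩ := h n hn δ hδ
  refine ⟨K, T, min ε₀ (s / κ), h1, h2, by positivity, fun a ε z x ha a1 a2 hz =>
    h a ε z x ha a1 (a2.trans (min_le_left _ _)) ((Metric.ball_subset_ball ?_).trans hz)⟩
  exact (le_div_iff₀' (by linarith)).1 (a2.trans (min_le_right _ _))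

theorem locLim_diff {D : Set ℂ} {E₀ E : Fam} {Z Zε : ℝ} {C : Pts → ℝ} (h0 : LocLim D E₀ C)
    (h : LocDiff D E₀ E Z Zε) : LocLim D E fun p => Z ^ p.n * Zε ^ p.m * C p := fun n m j => by
  have t := (h n m j).add
    ((uniformContinuous_mul_left' (Z ^ n * Zε ^ m)).comp_tendstoLocallyUniformlyOn (h0 n m j))
  convert t using 1
  · funext a z
    simp
  · funext z
    simp

open Vale.Agent.P144F58 in
theorem finW_of (hMW : GenMW) (hLay : LayStmt) (hS : SoftW) :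
    ∀ J > 0,
    ∃ (C : Pts → ℝ) (CD : Set ℂ → Option (ℝ → Config) → Pts → ℝ),
    (∃ E₀, PlaneFam J 0 (fun _ => 0) (Kc / J) E₀) ∧
    (∀ E₀, PlaneFam J 0 (fun _ => 0) (Kc / J) E₀ → LocLim Set.univ E₀ C) ∧
    (∀ p, Good Set.univ p → (∀ E₀, PlaneFam J 0 (fun _ => 0) (Kc / J) E₀ → Lim E₀ p (C p)) ∧
      (∀ j, C { p with j := j } = C p) ∧ (p.m = 0 → Even p.n → 0 < C p) ∧
      ∀ w t : ℂ, w ≠ 0 → C p = (‖w‖ ^ (1 / 8 : ℝ)) ^ p.n * ‖w‖ ^ p.m *
        C { p with x := fun i => w * p.x i + t, y := fun k => w * p.y k + t }) ∧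
    (∀ D b, P144Y.Nice D b → LocLim D (crit J D b) (CD D b) ∧ ∀ p, Good D p →
      Lim (crit J D b) p (CD D b p) ∧ (∀ j, CD D b { p with j := j } = CD D b p) ∧
      (p.m = 0 → (b = none ∧ Even p.n ∨ b = some fun _ _ => true) → 0 < CD D b p) ∧
      ∀ D' φ, P144Y.Nice D' b → DifferentiableOn ℂ φ D → Set.BijOn φ D D' →
        CD D b p = (∏ i, ‖deriv φ (p.x i)‖ ^ (1 / 8 : ℝ)) * (∏ k, ‖deriv φ (p.y k)‖) *
          CD D' b { p with x := fun i => φ (p.x i), y := fun k => φ (p.y k) }) ∧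
    ∀ K < 1, ∀ V, IsPotential V → ∃ lam₀ > 0,
      ∃ β Zσ Zε : ℝ → ℝ, AnalyticOnNhd ℝ β (Set.Ioo (-lam₀) lam₀) ∧
      AnalyticOnNhd ℝ Zσ (Set.Ioo (-lam₀) lam₀) ∧ AnalyticOnNhd ℝ Zε (Set.Ioo (-lam₀) lam₀) ∧
      β 0 = Kc / J ∧ Zσ 0 = 1 ∧ Zε 0 = 1 ∧ ∀ lam : ℝ, |lam| < lam₀ →
        0 < β lam ∧ 0 < Zσ lam ∧ 0 < Zε lam ∧
        (∃ μ, IsPlaneState J lam V (β lam) μ ∧ IsTorusState J lam V (β lam) μ ∧
          (∀ p, Good Set.univ p → Lim (famOf μ) p (Zσ lam ^ p.n * Zε lam ^ p.m * C p)) ∧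
          LocLim Set.univ (famOf μ) (fun p => Zσ lam ^ p.n * Zε lam ^ p.m * C p) ∧
          Mom μ (Zσ lam) C ∧ P144V.LawD μ (Zσ lam) C ∧ FieldH Set.univ (famOf μ) (Zσ lam) C) ∧
        ∀ D b, (IsC1 D ∨ IsPC1 D ∨ IsPolygon D ∨
              IsOpen D ∧ Bornology.IsBounded D ∧ Convex ℝ D) ∧ (StdBC b ∨ SignBC D b) ∨
            IsLip K D ∧ StdBC b →
          LocDiff D (crit J D b) (inDom J lam V (β lam) D b) (Zσ lam) (Zε lam) ∧
            Identity D (crit J D b) (inDom J lam V (β lam) D b) (Zσ lam) (Zε lam) ∧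
            (P144Y.Nice D b → LocLim D (inDom J lam V (β lam) D b)
                (fun p => Zσ lam ^ p.n * Zε lam ^ p.m * CD D b p) ∧
              (∃ U : TopologicalSpace.Opens ℂ, ↑U = D ∧
                P144M13.FieldLim U (inDom J lam V (β lam) D b) (Zσ lam) (CD D b)) ∧
              MomB D (inDom J lam V (β lam) D b) (Zσ lam) (CD D b) ∧
              LawB D (inDom J lam V (β lam) D b) (Zσ lam) (CD D b) ∧
              FieldB D (inDom J lam V (β lam) D b) (Zσ lam) (CD D b)) ∧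
            (StdBC b → ∀ C' : Pts → ℝ, (∀ p, Good D p → p.m = 0 → Lim (crit J D b) p (C' p)) →
              (∃ U : TopologicalSpace.Opens ℂ, ↑U = D ∧
                P144M13.FieldLim U (inDom J lam V (β lam) D b) (Zσ lam) C') ∧
              MomB D (inDom J lam V (β lam) D b) (Zσ lam) C' ∧
              LawB D (inDom J lam V (β lam) D b) (Zσ lam) C' ∧
              FieldB D (inDom J lam V (β lam) D b) (Zσ lam) C') := by
  intro J hJ
  have tm : ∀ D, IsC1 D ∨ IsPC1 D ∨ IsPolygon D ∨ IsOpen D ∧ Bornology.IsBounded D ∧ Convex ℝ D →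
      ∃ α > 0, TameW α D := by
    rintro D (hD | hD | hD | ⟨o, bd, cv⟩)
    · exact ⟨1, one_pos, TameW.of_tame ((tame_of_C1 hD).mono one_le_two)⟩
    · exact tameW_of_PC1 hD
    · exact tameW_of_PC1 hD.isPC1
    · exact (tame_of_convex o bd cv).imp fun _ h => ⟨h.1, TameW.of_tame h.2⟩
  obtain ⟨C, hC⟩ := P144P.plane_C hJ
  obtain ⟨μ₀, hμ₀, -⟩ := H436.free_plane hJ
  have hE := P144W.fam_self hμ₀
  have h00 := P144W.spin_mom0 hJ (fun p hp => (hC p hp).1) fun p hp => (hC p hp).2.2.1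
  have pU : ∀ E₀, PlaneFam J 0 (fun _ => 0) (Kc / J) E₀ → LocLim Set.univ E₀ C := fun E₀ h =>
    P.plane_U hJ h N144.C.diaU fun p hp => (hC p hp).1 E₀ h
  have hCD : ∀ D b, P144Y.Nice D b → ∀ p, Good D p →
      Lim (crit J D b) p (Classical.epsilon (Lim (crit J D b) p)) :=
    fun D b h p hp => Classical.epsilon_spec (h.allLim hJ p hp)
  have hLD : ∀ D b, P144Y.Nice D b →
      LocLim D (crit J D b) fun p => Classical.epsilon (Lim (crit J D b) p) := fun D b h =>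
    N144.C.locLim_nice hJ h (hCD D b h)
  refine ⟨C, fun D b p => Classical.epsilon (Lim (crit J D b) p), ⟨_, hE⟩, pU,
    fun p hp => ⟨(hC p hp).1, (hC p hp).2.1, (hC p hp).2.2.1, fun w t hw =>
      P.plane_cov hJ hE N144.C.diaU N144.C.diaC hp hw t ((hC p hp).1 _ hE) ((hC _ (P.good_im (Set.mapsTo_univ _ _)
        (fun a _ b _ e => mul_left_cancel₀ hw (add_right_cancel e)) hp)).1 _ hE)⟩,
    fun D b hN => ⟨hLD D b hN, fun p hp =>
      ⟨hCD D b hN p hp, fun j => tendsto_nhds_unique (hCD D b hN { p with j := j } hp)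
        (hN.jind hJ hp (hCD D b hN p hp) j), fun hm hb => hN.pos hJ hp hm (hCD D b hN p hp) hb,
      fun D' φ hN' d bij => N144.C.cov_nice hJ hN hN' ⟨d, bij⟩ hp (hCD D b hN p hp)
        (hCD D' b hN' _ (P.good_im bij.mapsTo bij.injOn hp))⟩⟩,
    fun K hK V hV => ?_⟩
  obtain ⟨κ, hκ, h⟩ := domW hMW hK
  obtain ⟨lam₀, h0, β, Zσ, Zε, a1, a2, a3, a4, a5, a6, h⟩ := h J hJ V hV
  refine ⟨lam₀, h0, β, Zσ, Zε, a1, a2, a3, a4, a5, a6, fun lam hl => ?_⟩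
  obtain ⟨h1, h2, h3, ⟨μ, m1, m2, m3⟩, h6, h7⟩ := h lam hl
  have hP := fun p hp => (m3 _ hE).2 p hp _ ((hC p hp).1 _ hE)
  have hM : Mom μ (Zσ lam) C := P144W.spin_mom hJ hV m2 hE (m3 _ hE).1 h2 hP
    fun p hp => (hC p hp).2.2.1
  have := m1.1
  have hL := P144W.C13.law hJ h00 hM
  have hF := P144W.sepm hJ m2 hE (m3 _ hE).1
  refine ⟨h1, h2, h3, ⟨μ, m1, m2, hP, locLim_diff (pU _ hE) (m3 _ hE).1, hM,
    P144V.lawD hL, Sb.plane hF hL⟩, fun D b hD => ?_⟩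
  have cl : (∃ α > 0, TameK α (κ α) D) ∨ IsLip K D := hD.imp (fun h => by
    obtain ⟨α, hα, hD⟩ := tm D h.1
    obtain ⟨α', hα', h⟩ := tameK_of (b := none) hα hD (Or.inl rfl)
    exact ⟨α', hα', (h _ (hκ α' hα').1).1⟩) fun h => h.1
  have H : LocDiff D (crit J D b) (inDom J lam V (β lam) D b) (Zσ lam) (Zε lam) ∧
      Identity D (crit J D b) (inDom J lam V (β lam) D b) (Zσ lam) (Zε lam) := by
    rcases hD with ⟨hD, hb⟩ | ⟨hD, hb⟩
    · obtain ⟨α, hα, hD⟩ := tm D hD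
      obtain ⟨α', hα', h⟩ := tameK_of hα hD (hb.elim (fun h => h.signBC D) id)
      exact h7 α' hα' D b (Or.inl (h _ (hκ α' hα').1).1) (h _ (hκ α' hα').1).2
    · exact h7 1 one_pos D b (Or.inr hD) (hb.signK _ _ D)
  have ob : IsOpen D ∧ Bornology.IsBounded D := by
    rcases cl with ⟨α, -, h⟩ | h
    exacts [⟨h.1, h.2.1⟩, ⟨h.1, h.2.1⟩]
  have ly : Lay D := hLay D (cl.imp (fun ⟨α, hα, h⟩ => ⟨α, _, (hκ α hα).2, h⟩) fun h => ⟨K, h⟩)
  have key : StdBC b → ∀ C' : Pts → ℝ,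
      (∀ p, Good D p → p.m = 0 → Lim (crit J D b) p (C' p)) → _ := fun hb C' hC' =>
    And.intro (Exists.intro (p := fun U : TopologicalSpace.Opens ℂ => ↑U = D ∧
        P144M13.FieldLim U (inDom J lam V (β lam) D b) (Zσ lam) C') ⟨D, ob.1⟩
      ⟨rfl, Sf.field_of (D := ⟨D, ob.1⟩) hJ ob.2 h2 H.1 (sepD_of_W (h6 _ b hb cl)) hC'⟩)
      (hS J hJ lam (β lam) (Zσ lam) (Zε lam) V D b C' ob.2 ob.1 ly h2 H.1 (h6 _ b hb cl) hC')
  exact ⟨H.1, H.2, fun hN => ⟨locLim_diff (hLD D b hN) H.1,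
    key (hN.cases.elim (fun h => h.2) fun h => Or.inl h.2) _ fun p hp _ => hCD D b hN p hp⟩, key⟩

end Vale.Agent.N144.WL
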