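import Vale.Agent.N144.MS.Step
import Vale.Agent.N144.MS.Tr
import Vale.Agent.P144U.Rg.Wt

/-!
# The cluster of fluxes as one more tip
-/

namespace Vale.Agent.P144Z.W.Geo.R8

open Finset Matrix Vale.Agent.P144Z.Geo Vale.Agent.P144Z.R8 Filter Topology

/-- The conditions of `BdU` near one point. -/
structure BdAt {M : ℕ} [NeZero M] (A : Gauge M) (L ℓ : ℕ) (c ε : ℝ) (ω ω' : Tor M → ℝ)
    (z : Tor M) : Prop where
  sch : ∀ v, tdist v z ≤ 3 * (L * ℓ) → (∃ f, tdist f v ≤ L * ℓ ∧ |flux A f| ≠ 1) →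
    RN.Shr A ℓ (L * ℓ) v (c * √((ℓ : ℝ) / (L * ℓ : ℕ)))
  one : 1 ≤ ω' z
  mono : ∀ x, tdist x z ≤ 4 * (L * ℓ) → ω x ≤ ω' z
  cov : ∃ (κ : ℝ) (Z₁ : Finset (Tor M × ℝ × ℝ)) (Z₂ : Finset (Tor M × ℝ)), 0 < κ ∧
    8 * κ ≤ 1 ∧ (∀ y ∈ Z₁, 0 < y.2.2 ∧ y.2.2 ≤ y.2.1 ∧ y.2.1 ≤ c ∧
      RkA A ℓ (L * ℓ) ((8 + 3) * ℓ) y.2.1 y.2.2 y.1) ∧
    (∀ y ∈ Z₂, ∀ x, tdist x y.1 ≤ 10 * ℓ → ω x ≤ y.2) ∧
    ((L : ℝ) ^ 2 * κ ^ 2 + 81 * (∑ y ∈ Z₁, y.2.1 * y.2.2) / L) * ω' z +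
      81 * c ^ 2 / L * ∑ y ∈ Z₂, y.2 ≤ ε * ω' z ∧
    ∀ x, tdist x z ≤ 3 * (L * ℓ) → (∃ f, tdist f x ≤ 6 * ℓ ∧ |flux A f| ≠ 1) →
      RN.Shr A ℓ (L * ℓ) x κ ∨ (∃ y ∈ Z₁, tdist x y.1 ≤ 8 * ℓ) ∨ ∃ y ∈ Z₂, tdist x y.1 ≤ 8 * ℓ

section

variable {g : Geo} {L ℓ : ℕ} {c ε k₀ : ℝ} {ω ω' : g.P → ℝ}

open Classical in
theorem sum_ksL (hA : IsW g.A) (hl : 8 ≤ ℓ) (hm : 24 ≤ L) (hM : 16 * (L * ℓ) ≤ g.M)
    (hS : LCov g 1 ℓ (3 * (L * ℓ))) {z : g.P} (hB : BdAt g.A L ℓ c ε ω ω' z) (hc : 0 < c)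
    (hcL : 576 * c ^ 2 ≤ L) (hk : 0 ≤ k₀) {f : Finset g.P → ℝ}
    {D : ℝ} (hf : ∀ X, 0 ≤ f X) (hD : AnchW ℓ L f ω D) (hD0 : 0 ≤ D) :
    ∑ U ∈ (near (2 * (L * ℓ)) z).filter (fun U => stein U ≤ ℓ ∧ Dfc g ℓ U),
      ksW g L ℓ k₀ U * f U ≤ (169 * k₀ + 10000 * ε) * (D * ω' z) := by
  obtain ⟨Z₀, hZ₀, a1, a2⟩ := hS z
  obtain ⟨κ, Z₁, Z₂, hκ, hκ1, hR, hZ₂, hsum, hcov⟩ := hB.cov
  have h8 : 24 * ℓ ≤ L * ℓ := Nat.mul_le_mul_right ℓ hm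
  have hL0 : (24 : ℝ) ≤ L := by exact_mod_cast hm
  have hω := zero_le_one.trans (hB.one)
  set S := (near (2 * (L * ℓ)) z).filter (fun U => stein U ≤ ℓ ∧ Dfc g ℓ U) with hSd
  set P₀ : g.P → Finset g.P → Prop := fun y U => ∃ x ∈ U, tdist x y ≤ 6 * ℓ
  set P₁ : g.P → Finset g.P → Prop := fun y U => ∃ x ∈ U, tdist x y ≤ 8 * ℓ
  have e2 : ∀ y ∈ Z₁, 0 ≤ 576 * (y.2.1 * y.2.2 / L) := fun y hy => by
    have h1 := (hR y hy).1
    have h2 := h1.trans_le (hR y hy).2.1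
    positivity
  have e3 : 0 ≤ 32 * κ ^ 2 := by positivity
  have e4 : 0 ≤ 576 * (c ^ 2 / L) := by positivity
  have key : ∀ U ∈ S, ksW g L ℓ k₀ U ≤ 32 * κ ^ 2 + (∑ y ∈ Z₀, if P₀ y U then k₀ else 0) +
      (∑ y ∈ Z₁, if P₁ y.1 U then 576 * (y.2.1 * y.2.2 / L) else 0) +
      ∑ y ∈ Z₂, if P₁ y.1 U then 576 * (c ^ 2 / L) else 0 := by
    intro U hU
    obtain ⟨hn, hs, hd⟩ := mem_filter.1 hU
    obtain ⟨x', hx', hxz⟩ := mem_near.1 hn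
    have m0 : ∀ y ∈ Z₀, 0 ≤ if P₀ y U then k₀ else 0 := fun y _ => by
      split_ifs
      · exact hk
      · exact le_rfl
    have n0 : ∀ y ∈ Z₁, 0 ≤ if P₁ y.1 U then 576 * (y.2.1 * y.2.2 / L) else 0 := fun y hy => by
      split_ifs
      · exact e2 y hy
      · exact le_rfl
    have o0 : ∀ y ∈ Z₂, 0 ≤ if P₁ y.1 U then 576 * (c ^ 2 / L) else 0 := fun y _ => by
      split_ifs
      · exact e4
      · exact le_rfl
    have m1 := sum_nonneg m0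
    have n1 := sum_nonneg n0
    have n2 := sum_nonneg o0
    by_cases h0 : ∃ y ∈ Z₀, P₀ y U
    · obtain ⟨y, hy, h0⟩ := h0
      have := ksW_le_self (L := L) (ℓ := ℓ) hk U
      have k3 := single_le_sum m0 hy
      rw [if_pos h0] at k3
      linarith
    have hsrc : ¬ ∃ k, (g.src k).y ∈ U := by
      rintro ⟨k, hk⟩
      have b1 := tdist_le_stein hk hx'
      have b2 := tdist_triangle (g.src k).y x' z
      obtain ⟨y, hy, hpc⟩ := a2 k (by omega)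
      exact h0 ⟨y, hy, _, hk, by omega⟩
    have h4 : ¬ ∀ x ∈ U, Flat g.A x (2 * stein U + 3 * ℓ) := fun h =>
      hd.resolve_right hsrc ⟨h, by omega⟩
    simp only [Flat, not_forall] at h4
    obtain ⟨x, hx, p, hp, hfp⟩ := h4
    have b0 : ∀ w ∈ U, tdist p w ≤ 6 * ℓ := fun w hw => by
      have b1 := tdist_le_stein hx hw
      have b2 := tdist_triangle p x w
      omega
    have hp1 : |flux g.A p| ≠ 1 := fun h => by
      have b3 := tdist_triangle p x' z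
      have b1 := b0 x' hx'
      obtain ⟨y, hy, hpc⟩ := a1 p (((abs_eq zero_le_one).1 h).resolve_left hfp) (by omega)
      have b4 := tdist_triangle x p y
      rw [tdist_comm x p] at b4
      exact h0 ⟨y, hy, x, hx, by omega⟩
    have k1 := ksW_le hsrc (adm_ksD (ℓ := ℓ) (m := 8) hA (by omega) (by omega) hcL hc le_rfl hκ hκ1
      hk U)
    rw [ksD, if_neg hsrc] at k1
    by_cases h2 : ∀ z ∈ U, RN.Shr g.A ℓ (L * ℓ) z κ
    · rw [if_pos h2] at k1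
      linarith
    rw [if_neg h2] at k1
    have h3 := h2
    push Not at h3
    obtain ⟨w, hw, hw'⟩ := h3
    have b5 := tdist_le_stein hw hx'
    have b6 := tdist_triangle w x' z
    rcases (hcov w (by omega) ⟨p, b0 w hw, hp1⟩).resolve_left hw' with ⟨y, hy, hwy⟩ | ⟨y, hy, hwy⟩
    · obtain ⟨r1, r2, r3, r4⟩ := hR y hy
      have k2 := ksW_le hsrc (adm_ksD (ℓ := ℓ) (m := 8) hA (by omega) (by omega)
        (le_trans (by have := r1.trans_le r2; gcongr) hcL) r1 r2 hκ hκ1 hk U)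
      rw [ksD, if_neg hsrc, if_neg h2, if_pos ⟨y.1, r4, fun v hv => by
        have b7 := tdist_le_stein hv hw
        have b8 := tdist_triangle v w y.1
        rw [add_mul]
        omega⟩] at k2
      have k3 := single_le_sum n0 hy
      rw [if_pos (show P₁ y.1 U from ⟨w, hw, hwy⟩)] at k3
      linarith
    · have k3 := single_le_sum o0 hy
      rw [if_pos (show P₁ y.1 U from ⟨w, hw, hwy⟩)] at k3
      rw [if_pos fun v hv => hB.sch v (by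
        have b7 := tdist_le_stein hv hx'
        have b8 := tdist_triangle v x' z
        omega) ⟨p, (b0 v hv).trans (by omega), hp1⟩, ← sq] at k1
      split_ifs at k1 <;> linarith
  have loc : ∀ (y : g.P) (p : ℕ), p ≤ 8 → ∀ T ⊆ S, (∀ U ∈ T, ∃ x ∈ U, tdist x y ≤ p * ℓ) →
      ∑ U ∈ T, f U ≤ (2 * p + 1) ^ 2 * (D * ω' z) := fun y p hp T hT hT' =>
    loc_sum' (by omega) (by positivity) hf hD hD0 hω y p T (fun ⟨U, hU⟩ x hx => by
      obtain ⟨hn, hs, -⟩ := mem_filter.1 (hT hU)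
      obtain ⟨x', hx', hxz⟩ := mem_near.1 hn
      obtain ⟨v, hv, hvy⟩ := hT' U hU
      have b1 := tdist_le_stein hv hx'
      have b2 := tdist_triangle x y v
      have b3 := tdist_triangle x v x'
      have b4 := tdist_triangle x x' z
      have b5 := Nat.mul_le_mul_right ℓ hp
      rw [tdist_comm y v] at b2
      exact hB.mono x (by omega)) hT'
  have s3 := loc_sum' (by omega) (by positivity) hf hD hD0 hω z (2 * L) S
    (fun _ x hx => hB.mono x (by rw [mul_assoc] at hx; omega)) fun U hU => by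
      obtain ⟨x, hx, h⟩ := mem_near.1 (mem_filter.1 hU).1
      exact ⟨x, hx, by rwa [mul_assoc]⟩
  refine (sum_le_sum fun U hU => mul_le_mul_of_nonneg_right (key U hU) (hf U)).trans ?_
  have hi : ∀ (P : Finset g.P → Prop) [DecidablePred P] (a : ℝ),
      ∑ U ∈ S, (if P U then a else 0) * f U = a * ∑ U ∈ S.filter P, f U := fun P _ a => by
    rw [sum_filter P, mul_sum]
    exact sum_congr rfl fun U _ => by split_ifs <;> simp
  have hE : 0 ≤ D * ω' z := by positivity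
  have t0 : ∑ U ∈ S, (∑ y ∈ Z₀, if P₀ y U then k₀ else 0) * f U ≤ 169 * k₀ * (D * ω' z) := by
    simp only [sum_mul]
    rw [sum_comm]
    refine (sum_le_card_nsmul _ _ (169 * k₀ * (D * ω' z)) fun y _ => ?_).trans ?_
    · rw [hi (P₀ y), mul_comm 169, mul_assoc]
      refine mul_le_mul_of_nonneg_left ((loc y 6 (by omega) _ (filter_subset _ _)
        fun U hU => (mem_filter.1 hU).2).trans (le_of_eq (by norm_num))) hk
    · rw [nsmul_eq_mul]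
      exact mul_le_of_le_one_left (by positivity) (by exact_mod_cast hZ₀)
  have t1 : ∑ U ∈ S, (∑ y ∈ Z₁, if P₁ y.1 U then 576 * (y.2.1 * y.2.2 / L) else 0) * f U ≤
      576 * ((∑ y ∈ Z₁, y.2.1 * y.2.2) / L) * (289 * (D * ω' z)) := by
    simp only [sum_mul]
    rw [sum_comm, sum_div, mul_sum, sum_mul]
    refine sum_le_sum fun y hy => ?_
    rw [hi (P₁ y.1)]
    exact mul_le_mul_of_nonneg_left ((loc y.1 8 le_rfl _ (filter_subset _ _)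
      fun U hU => (mem_filter.1 hU).2).trans (le_of_eq (by norm_num))) (e2 y hy)
  have n3 : ∀ y ∈ Z₂, 0 ≤ D * y.2 := fun y hy => le_trans
    (sum_nonneg fun X _ => mul_nonneg (hf X) (Real.exp_pos _).le) ((hD y.1).trans
      (mul_le_mul_of_nonneg_left (hZ₂ y hy _ (by rw [tdist_self]; omega)) hD0))
  have t2 : ∑ U ∈ S, (∑ y ∈ Z₂, if P₁ y.1 U then 576 * (c ^ 2 / L) else 0) * f U ≤
      576 * (c ^ 2 / L) * (289 * (D * ∑ y ∈ Z₂, y.2)) := by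
    simp only [sum_mul]
    rw [sum_comm, mul_sum, mul_sum, mul_sum]
    refine sum_le_sum fun y hy => ?_
    rw [hi (P₁ y.1)]
    refine mul_le_mul_of_nonneg_left ?_ e4
    have h1 := loc_sum' (ω := fun x => D * ω x) (D := 1) (t := D * y.2) (τ := L) (by omega) (by positivity)
      hf (fun x => by rw [one_mul]; exact hD x) zero_le_one (n3 y hy) y.1 8 (S.filter (P₁ y.1))
      (fun _ x hx => mul_le_mul_of_nonneg_left (hZ₂ y hy x (by omega)) hD0)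
      fun U hU => (mem_filter.1 hU).2
    exact h1.trans (le_of_eq (by norm_num))
  simp only [add_mul, sum_add_distrib]
  rw [← mul_sum]
  have t3 := mul_le_mul_of_nonneg_left s3 e3
  have u3 : (2 * ((2 * L : ℕ) : ℝ) + 1) ^ 2 ≤ 25 * L ^ 2 := by push_cast; nlinarith
  have v3 := mul_le_mul_of_nonneg_right u3 (by positivity : 0 ≤ 32 * κ ^ 2 * (D * ω' z))
  have w1 : 0 ≤ (∑ y ∈ Z₁, y.2.1 * y.2.2) / L * (D * ω' z) := by
    have := sum_nonneg fun y (hy : y ∈ Z₁) => mul_nonneg ((hR y hy).1.le.trans (hR y hy).2.1)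
      (hR y hy).1.le
    positivity
  have w2 : 0 ≤ c ^ 2 / L * (D * ∑ y ∈ Z₂, y.2) := by
    rw [mul_sum]
    exact mul_nonneg (by positivity) (sum_nonneg n3)
  have w3 : 0 ≤ (L : ℝ) ^ 2 * κ ^ 2 * (D * ω' z) := by positivity
  have e := mul_le_mul_of_nonneg_left hsum hD0
  have e' : D * (((L : ℝ) ^ 2 * κ ^ 2 + 81 * (∑ y ∈ Z₁, y.2.1 * y.2.2) / L) * ω' z +
      81 * c ^ 2 / L * ∑ y ∈ Z₂, y.2) = (L : ℝ) ^ 2 * κ ^ 2 * (D * ω' z) +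
      81 * ((∑ y ∈ Z₁, y.2.1 * y.2.2) / L * (D * ω' z)) +
      81 * (c ^ 2 / L * (D * ∑ y ∈ Z₂, y.2)) := by ring
  rw [e'] at e
  linarith

end

open Vale.Agent.N144.MS in
/-- Far from the cluster the boundary is the one of the field without the cluster. -/
theorem bdAt_far {M : ℕ} [NeZero M] {A A' : Gauge M} {L ℓ R : ℕ} {c ε : ℝ}
    {ω ω' ν ν' : Tor M → ℝ} {c₀ z : Tor M} (hL : 18 ≤ L) (hR : R + 4 ≤ L * ℓ)
    (hA : ∀ e : Tor M × Fin 2, R < tdist e.1 c₀ → A e = A' e)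
    (hf : ∀ f, |flux A f| ≠ 1 → |flux A' f| ≠ 1) (hB : BdU A' L ℓ c ε ω ω') (h0 : ∀ x, 0 ≤ ω x)
    (n0 : ∀ x, 0 ≤ ν x) (n1 : 1 ≤ ν' z) (n2 : ∀ x, tdist x z ≤ 4 * (L * ℓ) → ν x ≤ ν' z)
    (hz : 6 * (L * ℓ) < tdist z c₀) :
    BdAt A L ℓ c ε (fun x => ω x * ν x) (fun x => ω' x * ν' x) z := by
  classical
  have h18 : 18 * ℓ ≤ L * ℓ := Nat.mul_le_mul_right _ hL
  have ag : ∀ (v : Tor M) (d T : ℕ), tdist v z ≤ d → d + T + R ≤ 6 * (L * ℓ) →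
      ∀ e : Tor M × Fin 2, tdist e.1 v ≤ T → A e = A' e := fun v d T h1 h2 e he => hA e (by
    have a1 := tdist_triangle z v c₀
    have a2 := tdist_triangle v e.1 c₀
    rw [tdist_comm z v] at a1
    rw [tdist_comm v e.1] at a2
    omega)
  have w1 := hB.one z
  have t0 : 0 < ν' z := by linarith
  refine ⟨fun v hv ⟨f, f1, f2⟩ => shr_congr (by omega) (ag v _ _ hv (by omega))
    (hB.sch v ⟨f, f1, hf f f2⟩), one_le_mul_of_one_le_of_one_le w1 n1,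
    fun x hx => mul_le_mul (hB.mono x z hx) (n2 x hx) (n0 x) (by linarith), ?_⟩
  obtain ⟨κ, Z₁, Z₂, k1, k2, k3, k4, k5, k6⟩ := hB.cov z
  have y0 : ∀ y ∈ Z₂, 0 ≤ y.2 := fun y hy =>
    (h0 y.1).trans (k4 y hy y.1 (by rw [tdist_self]; omega))
  refine ⟨κ, Z₁.filter fun y => tdist y.1 z ≤ 3 * (L * ℓ) + 8 * ℓ,
    (Z₂.filter fun y => tdist y.1 z ≤ 3 * (L * ℓ) + 8 * ℓ).image fun y => (y.1, y.2 * ν' z),
    k1, k2, fun y hy => ?_, fun y hy x hx => ?_, ?_, fun x hx ⟨f, f1, f2⟩ => ?_⟩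
  · obtain ⟨hy, hd⟩ := mem_filter.1 hy
    obtain ⟨a1, a2, a3, a4⟩ := k3 y hy
    exact ⟨a1, a2, a3, rkA_congr (by omega) (ag y.1 _ _ hd (by omega)) a4⟩
  · obtain ⟨y', hy', rfl⟩ := mem_image.1 hy
    obtain ⟨hy', hd⟩ := mem_filter.1 hy'
    have a1 := tdist_triangle x y'.1 z
    exact mul_le_mul (k4 y' hy' x hx) (n2 x (by dsimp only at hx; omega)) (n0 x) (y0 y' hy')
  · rw [sum_image fun y _ y' _ e => Prod.ext (Prod.mk.inj e).1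
      (mul_right_cancel₀ t0.ne' (Prod.mk.inj e).2)]
    have a1 : ∑ y ∈ Z₁.filter fun y => tdist y.1 z ≤ 3 * (L * ℓ) + 8 * ℓ, y.2.1 * y.2.2 ≤
        ∑ y ∈ Z₁, y.2.1 * y.2.2 := sum_le_sum_of_subset_of_nonneg (filter_subset _ _)
      fun y hy _ => mul_nonneg ((k3 y hy).1.le.trans (k3 y hy).2.1) (k3 y hy).1.le
    have a2 : ∑ y ∈ Z₂.filter fun y => tdist y.1 z ≤ 3 * (L * ℓ) + 8 * ℓ, y.2 ≤ ∑ y ∈ Z₂, y.2 :=
      sum_le_sum_of_subset_of_nonneg (filter_subset _ _) fun y hy _ => y0 y hy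
    dsimp only
    rw [← sum_mul, ← mul_assoc _ (ω' z), ← mul_assoc _ (ω' z), ← mul_assoc _ _ (ν' z), ← add_mul]
    refine mul_le_mul_of_nonneg_right (le_trans ?_ k5) t0.le
    gcongr
  · have near : ∀ y : Tor M, tdist x y ≤ 8 * ℓ → tdist y z ≤ 3 * (L * ℓ) + 8 * ℓ := fun y hy => by
      have := tdist_triangle y x z
      rw [tdist_comm y x] at this
      omega
    rcases k6 x hx ⟨f, f1, hf f f2⟩ with h | ⟨y, hy, h⟩ | ⟨y, hy, h⟩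
    · exact Or.inl (shr_congr (by omega) (ag x _ _ hx (by omega)) h)
    · exact Or.inr (Or.inl ⟨y, mem_filter.2 ⟨hy, near _ h⟩, h⟩)
    · exact Or.inr (Or.inr ⟨_, mem_image_of_mem _ (mem_filter.2 ⟨hy, near _ h⟩), h⟩)

/-- The weight of the cluster. -/
noncomputable def wc {M : ℕ} (L : ℕ) (c₀ : Tor M) (ℓ : ℕ) (z : Tor M) : ℝ :=
  ((L : ℝ) ^ 2) ^ UWt.ex {c₀} 6 ℓ z

theorem one_le_wc {M : ℕ} {L : ℕ} (hL : 1 ≤ L) (c₀ : Tor M) (ℓ : ℕ) (z : Tor M) :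
    1 ≤ wc L c₀ ℓ z := one_le_pow₀ (one_le_pow₀ (by exact_mod_cast hL))

theorem wc_le {M : ℕ} {L : ℕ} (hL : 1 ≤ L) (c₀ : Tor M) (ℓ : ℕ) (z : Tor M) :
    wc L c₀ ℓ z ≤ ((L : ℝ) ^ 2) ^ 7 :=
  pow_le_pow_right₀ (one_le_pow₀ (by exact_mod_cast hL)) (UWt.ex_le _ _ _ _)

theorem wc_mono {M : ℕ} [NeZero M] {L ℓ : ℕ} (hL : 20 ≤ L) (hl : 1 ≤ ℓ) (c₀ : Tor M) {x z : Tor M}
    (h : tdist x z ≤ 4 * (L * ℓ)) : wc L c₀ ℓ x ≤ wc L c₀ (L * ℓ) z :=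
  pow_le_pow_right₀ (one_le_pow₀ (by exact_mod_cast (by omega : 1 ≤ L))) (UWt.ex_mono hL hl h)

open Classical in
/-- Near the cluster the uniform factor suffices. -/
theorem sum_near {g : Geo} {L ℓ : ℕ} {k₀ : ℝ} {ω ω' : g.P → ℝ} {c₀ z : g.P} (hL : 20 ≤ L)
    (hl : 1 ≤ ℓ) (hk : 0 ≤ k₀) (h1 : 1 ≤ ω' z)
    (hm : ∀ x, tdist x z ≤ 4 * (L * ℓ) → ω x ≤ ω' z) (hz : tdist z c₀ ≤ 6 * (L * ℓ))
    {f : Finset g.P → ℝ} {D : ℝ} (hf : ∀ X, 0 ≤ f X)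
    (hD : AnchW ℓ L f (fun x => ω x * wc L c₀ ℓ x) D) (hD0 : 0 ≤ D) :
    ∑ U ∈ (near (2 * (L * ℓ)) z).filter (fun U => stein U ≤ ℓ ∧ Dfc g ℓ U),
      ksW g L ℓ k₀ U * f U ≤ 13583 * k₀ * (D * (ω' z * wc L c₀ (L * ℓ) z)) := by
  obtain ⟨e1, Y, Z, y1, z1, y2, z2, hc⟩ := UWt.cover (Tp := {c₀}) (N := 6) hL hl
    (fun p hp p' hp' e => absurd ((mem_singleton.1 hp).trans (mem_singleton.1 hp').symm) e)
    (mem_singleton_self c₀) hz
  have h20 : 20 * ℓ ≤ L * ℓ := Nat.mul_le_mul_right _ hL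
  have hG : (1 : ℝ) ≤ (L : ℝ) ^ 2 := one_le_pow₀ (by exact_mod_cast (by omega : 1 ≤ L))
  set S := (near (2 * (L * ℓ)) z).filter (fun U => stein U ≤ ℓ ∧ Dfc g ℓ U) with hS
  set P : g.P → Finset g.P → Prop := fun y U => ∃ x ∈ U, tdist x y ≤ 8 * ℓ ∧
    tdist x z ≤ 2 * (L * ℓ)
  have loc : ∀ (y : g.P) (e : ℕ), (∀ x, tdist x y ≤ 8 * ℓ → UWt.ex {c₀} 6 ℓ x ≤ e) →
      ∑ U ∈ S.filter (P y), f U ≤ 289 * (D * (ω' z * ((L : ℝ) ^ 2) ^ e)) := fun y e he =>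
    (loc_sum' (t := ω' z * ((L : ℝ) ^ 2) ^ e) hl (by positivity) hf hD hD0 (by positivity) y 8 _
      (fun ⟨U, hU⟩ x hx => by
      obtain ⟨v, -, v1, v2⟩ := (mem_filter.1 hU).2
      have b1 := tdist_triangle x y v
      have b2 := tdist_triangle x v z
      rw [tdist_comm y v] at b1
      exact mul_le_mul (hm x (by omega)) (pow_le_pow_right₀ hG (he x hx))
        (zero_le_one.trans (one_le_wc (by omega) c₀ ℓ x)) (by linarith))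
      fun U hU => (mem_filter.1 hU).2.imp fun _ h => ⟨h.1, h.2.1⟩).trans (le_of_eq (by norm_num))
  have n1 : ∀ (y : g.P) U, 0 ≤ if P y U then f U else 0 := fun y U => by
    split_ifs
    exacts [hf U, le_rfl]
  have s1 : ∑ U ∈ S, f U ≤ ∑ y ∈ Y, ∑ U ∈ S.filter (P y), f U +
      ∑ y ∈ Z, ∑ U ∈ S.filter (P y), f U := by
    simp only [sum_filter]
    rw [sum_comm (s := Y), sum_comm (s := Z), ← sum_add_distrib]
    refine sum_le_sum fun U hU => ?_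
    obtain ⟨x, hx, hxz⟩ := mem_near.1 (mem_filter.1 hU).1
    rcases hc x (by omega) with ⟨y, hy, h⟩ | ⟨y, hy, h⟩
    · refine le_add_of_le_of_nonneg (le_trans (le_of_eq ?_) (single_le_sum (fun y _ => n1 y U) hy))
        (sum_nonneg fun y _ => n1 y U)
      rw [if_pos ⟨x, hx, h, hxz⟩]
    · refine le_add_of_nonneg_of_le (sum_nonneg fun y _ => n1 y U)
        (le_trans (le_of_eq ?_) (single_le_sum (fun y _ => n1 y U) hy))
      rw [if_pos ⟨x, hx, h, hxz⟩]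
  have s2 := sum_le_card_nsmul Y _ _ fun y hy => loc y _ fun x _ => y2 y hy x
  have s3 := sum_le_card_nsmul Z _ _ fun y hy => loc y _ fun x hx => z2 y hy x (by omega)
  rw [nsmul_eq_mul] at s2 s3
  have h4 : (L : ℝ) ^ 2 * ((L : ℝ) ^ 2) ^ (UWt.ex {c₀} 6 (L * ℓ) z - 1) = wc L c₀ (L * ℓ) z := by
    rw [← pow_succ', Nat.sub_add_cancel e1, wc]
  have s4 := s2.trans (mul_le_mul_of_nonneg_right y1 (by positivity))
  have s5 := s3.trans (mul_le_mul_of_nonneg_right z1 (by positivity))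
  refine (sum_le_sum fun U _ => mul_le_mul_of_nonneg_right (ksW_le_self hk U) (hf U)).trans ?_
  rw [← mul_sum, mul_comm 13583, mul_assoc]
  refine mul_le_mul_of_nonneg_left (s1.trans ((add_le_add s4 s5).trans (le_of_eq ?_))) hk
  have h5 : ((L : ℝ) ^ 2) ^ UWt.ex {c₀} 6 (L * ℓ) z = wc L c₀ (L * ℓ) z := rfl
  rw [h5, ← h4]
  ring

/-- The late steps, wherever the boundary is. -/
theorem sumM_W {g : Geo} {A' : Gauge g.M} {L ℓ R : ℕ} {c ε k₀ : ℝ} {ω ω' : g.P → ℝ} {c₀ : g.P}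
    (hA : IsW g.A) (hl : 8 ≤ ℓ) (hm : 24 ≤ L) (hM : 16 * (L * ℓ) ≤ g.M)
    (hS : LCov g 1 ℓ (3 * (L * ℓ))) (hR : R + 4 ≤ L * ℓ)
    (ho : ∀ e : Tor g.M × Fin 2, R < tdist e.1 c₀ → g.A e = A' e)
    (hf : ∀ f, |flux g.A f| ≠ 1 → |flux A' f| ≠ 1) (hB : BdU A' L ℓ c ε ω ω') (h0 : ∀ x, 0 ≤ ω x)
    (hc : 0 < c) (hcL : 576 * c ^ 2 ≤ L) (hk : 0 ≤ k₀)
    (h1 : 169 * k₀ + 10000 * ε ≤ 1 / (32 * Real.exp 6)) (h2 : 13583 * k₀ ≤ 1 / (32 * Real.exp 6)) :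
    SumM g L ℓ k₀ (fun x => ω x * wc L c₀ ℓ x) fun x => ω' x * wc L c₀ (L * ℓ) x := by
  intro f D f0 hD hD0 z
  have w1 := hB.one z
  have w2 := one_le_wc (L := L) (by omega) c₀ (L * ℓ) z
  have w3 : 0 ≤ D * (ω' z * wc L c₀ (L * ℓ) z) := by positivity
  rcases le_or_gt (tdist z c₀) (6 * (L * ℓ)) with hz | hz
  · exact (sum_near (by omega) (by omega) hk w1 (fun x => hB.mono x z) hz f0 hD hD0).trans
      (mul_le_mul_of_nonneg_right h2 w3)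
  · exact (sum_ksL hA hl hm hM hS (bdAt_far (by omega) hR ho hf hB h0
      (fun x => zero_le_one.trans (one_le_wc (by omega) c₀ ℓ x)) w2
      (fun x hx => wc_mono (by omega) (by omega) c₀ hx) hz) hc hcL hk f0 hD hD0).trans
      (mul_le_mul_of_nonneg_right h1 w3)

end Vale.Agent.P144Z.W.Geo.R8
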