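import Vale.Agent.N144.W.Defs
import Vale.Agent.N144.W.Sum
import Vale.Agent.N144.MS.Fin

/-!
# The flow for a cluster of fluxes near the boundary
-/

namespace Vale.Agent.N144.MW

open Finset Matrix Vale.Agent.P144Z Vale.Agent.P144Z.FM Vale.Agent.P144Z.W.Geo.R8
open Vale.Agent.P144Z.Geo
open Vale.Agent.N144.MS hiding dom_sign dom_isW dom_flux0 dom_fluxB dom_far dom_ff dom_fl dom_off
  dom_nofl flows cs_good cs_le

theorem qu_mono {M : ℕ} [NeZero M] {A : Gauge M} {L k N J J' : ℕ} {ε : ℝ} (hL : 1 ≤ L)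
    (hJ : J ≤ J') (h : QU L ε k N M A J') : QU L ε k N M A J := by
  obtain ⟨Tp, h1, h2, c, c1, c2, h3⟩ := h
  have h4 := sc_mono hL hJ
  exact ⟨Tp, fun p hp p' hp' e => by have := h1 p hp p' hp' e; omega, h2, c, c1, c2,
    fun j hj hj' => h3 j hj (by omega)⟩

section

variable {Q : Cls} {M : ℕ} [NeZero M] {P H B : Gauge M} {c : Tor M} {L J J'' J' N Λ Λ₁ : ℕ}
  {Γ : ℝ} (D : DomMW Q P H B c L J J'' J' N Λ Λ₁ Γ)
include D

theorem dom_sign : IsSign (H * B) := fun e => by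
  rcases D.str.sign e with h | h <;> rcases D.cl.sign e with h' | h' <;> simp [h, h']

theorem dom_isW : IsW (P * H * B) := by
  rw [mul_assoc]
  exact Both.isW_mul D.P_ok (dom_sign D)

theorem dom_flux0 (hL : 1 ≤ L) {f : Tor M} (hf : tdist f c ≤ 63 * sc L J'') :
    flux (P * H) f = 1 := by
  have := FM.eight_le_sc hL J''
  refine flux_near (fun e he => ?_) hf
  obtain ⟨h1, h2⟩ := D.one e (by omega)
  rw [Pi.mul_apply, h1, h2, mul_one]

theorem dom_fluxB {f : Tor M} (hf : flux (P * H * B) f = -1) : flux B f = -1 := by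
  by_contra h
  rw [Both.flux_mul, FM.flux_eq_one D.cl.sign h, mul_one] at hf
  exact D.nofl f hf

theorem dom_far (hL : 1 ≤ L) : Far (P * H * B) (P * H) c (Λ₁ * sc L J) (63 * sc L J'') := by
  refine ⟨fun e he => by rw [Pi.mul_apply, D.cl.out e he, Pi.one_apply, mul_one], fun f hf => ?_⟩
  rw [Both.flux_mul, dom_flux0 D hL hf, one_mul]
  by_cases h : flux B f = -1
  · rw [h, abs_neg, abs_one]
  · rw [FM.flux_eq_one D.cl.sign h, abs_one]

theorem dom_abs (f : Tor M) (hf : |flux (P * H * B) f| ≠ 1) : |flux (P * H) f| ≠ 1 := fun h => by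
  refine hf ?_
  rw [Both.flux_mul, abs_mul, h, one_mul]
  by_cases h : flux B f = -1
  · rw [h, abs_neg, abs_one]
  · rw [FM.flux_eq_one D.cl.sign h, abs_one]

theorem dom_one (e : Tor M × Fin 2) (he : tdist e.1 c ≤ 64 * sc L J'') : (P * H) e = 1 := by
  obtain ⟨h1, h2⟩ := D.one e he
  rw [Pi.mul_apply, h1, h2, one_mul]

theorem dom_cl : Cluster B 1 c ((Λ₁ + 16) * sc L J) (16 * sc L J) := by
  have s3 : Λ₁ * sc L J ≤ (Λ₁ + 16) * sc L J := Nat.mul_le_mul_right _ (by omega)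
  exact ⟨D.cl.sign, D.cl.sign', D.cl.flat, fun e he => D.cl.out e (by omega),
    fun f hf => (D.cl.near f hf).trans s3, D.cl.sep⟩

theorem dom_ff (hL : 1 ≤ L) (hJ : J ≤ J'') (hΛ : Λ₁ * sc L J ≤ sc L J'') (f : Tor M)
    (hf : flux (P * H * B) f = -1) (f' : Tor M) (hne : f' ≠ f) (hd : tdist f' f ≤ 8 * sc L J) :
    flux (P * H * B) f' = 1 := by
  have h1 := dom_fluxB D hf
  have h2 := D.cl.near f h1
  have h3 := tdist_triangle f' f c
  have h4 := FM.sc_mono hL hJ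
  rw [Both.flux_mul, dom_flux0 D hL (by omega), one_mul]
  refine FM.flux_eq_one D.cl.sign fun h => ?_
  have := D.cl.sep f' f h h1 hne
  omega

theorem dom_fl (hL : 1 ≤ L) (f : Tor M) : flux P f = flux (P * H) f := by
  have := FM.eight_le_sc hL J'
  rw [Both.fl D.P_ok D.str (by omega) f, if_neg (D.nofl f)]

theorem dom_off {u : Cor M} (hu : u.Off P) : u.Off (P * H * B) := fun X hX => hu X fun x hx => by
  have h1 := hX x hx
  have h2 := Both.flux_nonneg D.P_ok x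
  rw [mul_assoc, Both.flux_mul] at h1
  by_cases h : flux (H * B) x = -1
  · rw [h] at h1
    linarith
  · rwa [FM.flux_eq_one (dom_sign D) h, mul_one] at h1

theorem dom_nofl (f : Tor M) : flux P f ≠ -1 := fun h => by
  linarith [Both.flux_nonneg D.P_ok f]

end

set_option maxHeartbeats 1600000 in
theorem flows (hl : ShrW) : ∃ ε₀ > (0 : ℝ), ∀ ε > (0 : ℝ), ε ≤ ε₀ → ∀ c₁ β₁ : ℝ, 1 ≤ c₁ →
    0 < β₁ → β₁ ≤ 1 / 2 → ∃ L₀ : ℕ, ∀ L ≥ L₀, 64 ≤ L ∧
    ∃ kf : ℕ → ℕ, ∃ σ : ℝ, 0 ≤ σ ∧ ∃ η > (0 : ℝ), ∀ R : ℕ, ∃ δ₀ > (0 : ℝ), ∀ q : Par, q.R = R →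
    Crit L q η δ₀ → ∀ N k, kf N ≤ k → ∀ (Λ Λ₁ : ℕ) (T : ℝ), ∃ a : ℝ, 0 ≤ a ∧ ∃ J₀ p₀ : ℕ,
    ∀ J ≥ J₀, ∀ J'' ≥ J + p₀, ∀ J' ≥ J'', ∀ (M : ℕ) [NeZero M] (P H B : Gauge M) (c : Tor M)
    (u : Cor M) (n : ℕ) (Γ : ℝ), DomMW (QD L ε k N c₁ β₁) P H B c L J J'' J' n Λ Λ₁ Γ → u.Ok →
    u.Wt σ η → u.Off P →
      16 * (q.R + 1) ≤ M ∧ FlowN (gE M (P * H * B) J) L q u J' a T (1 / 4) ∧
        FlowN (gE M P J') L q u J' a T (1 / 4) := by
  obtain ⟨ε₁, hε₁, hE⟩ := engT_of initU wtS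
  obtain ⟨L₁, hS⟩ := stepMS
  obtain ⟨Cb, hCb, hbf⟩ := W.Geo.ag_bfC
  have hw : 1 ≤ Real.exp 6 := Real.one_le_exp (by norm_num)
  set w := Real.exp 6 with hwd
  set κ := 1 / (2000 * w) with hκ
  have hκ0 : 0 < κ := by positivity
  have hκ1 : κ * (2000 * w) = 1 := by rw [hκ]; field_simp
  have hκ2 : 2000 * κ ≤ 1 := by nlinarith
  refine ⟨min ε₁ (min (κ ^ 2) (1 / (2560000000 * w))), by positivity,
    fun ε hε hε' c₁ β₁ hc₁ hβ₁ hβ₁' => ?_⟩
  obtain ⟨L₂, hl⟩ := hl c₁ β₁ κ hc₁ hβ₁ hβ₁' hκ0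
  obtain ⟨e1, e0⟩ := le_min_iff.1 hε'
  obtain ⟨e2, e3⟩ := le_min_iff.1 e0
  have e4 : 169 * (8 * κ ^ 2) + 10000 * (4000 * ε) ≤ 1 / (32 * w) := by
    rw [le_div_iff₀ (by positivity)] at e3 ⊢
    nlinarith
  have e5 : 13583 * (8 * κ ^ 2) ≤ 1 / (32 * w) := by
    rw [le_div_iff₀ (by positivity)]
    nlinarith
  obtain ⟨L₃, hE⟩ := hE ε hε e1
  refine ⟨max (max L₁ L₂) (max L₃ 64), fun L hL => ?_⟩
  simp only [ge_iff_le, max_le_iff] at hL
  obtain ⟨⟨l1, l2⟩, l3, l4⟩ := hL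
  obtain ⟨C, hC, hS⟩ := hS L l1
  obtain ⟨kf, δ, hδ, A, hA, σ, hσ, η, hη, hE⟩ := hE L l3
  have hL1 : 1 ≤ L := by omega
  have hL' : (64 : ℝ) ≤ L := by exact_mod_cast l4
  refine ⟨l4, kf 0, σ, hσ, η, hη, fun R => ?_⟩
  obtain ⟨δ₀, hδ₀, hE⟩ := hE η hη le_rfl R
  refine ⟨δ₀, hδ₀, fun q hR hq N k hk Λ Λ₁ T => ?_⟩
  replace hE := hE q hR hq 0 _ ⟨N, k, hk, rfl⟩
  obtain ⟨Ω₀, hΩ₀, hW⟩ := wtS L N (by omega)
  obtain ⟨Ω, hΩd⟩ : ∃ Ω, Ω = Ω₀ * ((L : ℝ) ^ 2) ^ 7 := ⟨_, rfl⟩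
  have hΩ : 1 ≤ Ω := hΩd ▸ one_le_mul_of_one_le_of_one_le hΩ₀ (one_le_pow₀ (one_le_pow₀ (by linarith)))
  obtain ⟨p, hl⟩ := hl L l2 (Λ₁ + 16)
  set p₁ := (p + 1) * (Λ₁ + 16) with hp₁
  set ρ := 1 / (80 * L * w) with hρ
  have hρ0 : 0 < ρ := by positivity
  have hρ1 : ρ * (80 * L * w) = 1 := by rw [hρ]; field_simp
  have hρ2 : 80 * (ρ * L) ≤ 1 := by nlinarith [mul_pos hρ0 (by linarith : (0 : ℝ) < L)]
  have hρ3 : 4 * ρ ≤ 1 := by nlinarith
  have hρ4 : 25 * (L : ℝ) ^ 2 * (8 * ρ ^ 2) ≤ 1 / (32 * w) := by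
    rw [le_div_iff₀ (by positivity)]
    nlinarith [mul_pos hρ0 (by linarith : (0 : ℝ) < L)]
  have hγ0 : 0 < ρ / L := by positivity
  have hγ1 : ρ / L ≤ 1 := (div_le_self hρ0.le (by linarith)).trans (by linarith)
  obtain ⟨p₂, hp₂⟩ := pow_unbounded_of_one_lt (max 1 T / (ρ / L) ^ p₁) (one_lt_two (α := ℝ))
  rw [div_lt_iff₀ (by positivity)] at hp₂
  have g1 : 1 ≤ 2 ^ p₂ * (ρ / L) ^ p₁ := (le_max_left _ _).trans hp₂.le
  have g2 : T ≤ 2 ^ p₂ * (ρ / L) ^ p₁ := (le_max_right _ _).trans hp₂.le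
  have hL2 : (1 : ℝ) ≤ (L : ℝ) ^ 2 := one_le_pow₀ (by linarith)
  set b := Cb * Real.exp L * η with hbd
  have hb0 : 0 ≤ b := by positivity
  have ha0 : 0 ≤ A * η := by positivity
  obtain ⟨J₁, hJ₁⟩ := pow_unbounded_of_one_lt (max (4 * (C * (b + ((A * η + 1) * Ω) ^ 2)))
    (4 * ((32 * Λ + 1) ^ 2 * ((A * η + 1) * Ω + b)))) (one_lt_two (α := ℝ))
  refine ⟨2 * (A * η) + 2 * (C * ((A * η + 1) * Ω + b)), by positivity,
    max (max p₂ k) (max J₁ (q.R + 1)), p₁,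
    fun J hJ J'' hJ'' J' hJ₂ M _ P H B c u n Γ D hu hwt hoff => ?_⟩
  have hJ' : J' ≥ J + p₁ := by omega
  simp only [ge_iff_le, max_le_iff] at hJ
  obtain ⟨⟨j1, j2⟩, j3, j4⟩ := hJ
  have hJJ : J ≤ J' := by omega
  have t1 : ∀ j, J ≤ j → 4 * (C * (b + ((A * η + 1) * Ω) ^ 2)) ≤ 2 ^ j := fun j hj =>
    ((le_max_left _ _).trans hJ₁.le).trans (pow_le_pow_right₀ one_le_two (by omega))
  have t2 : (32 * Λ + 1) ^ 2 * ((A * η + 1) * Ω + b) ≤ 1 / 4 * 2 ^ J' := by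
    have := ((le_max_right _ _).trans hJ₁.le).trans
      (pow_le_pow_right₀ one_le_two (by omega : J₁ ≤ J'))
    linarith
  have s1 := le_sc (L := L) (p := p₁) (by omega) hJ''
  have s2 : (Λ₁ + 16) * sc L J ≤ p₁ * sc L J :=
    Nat.mul_le_mul_right _ (Nat.le_mul_of_pos_left _ (by omega))
  have s3 : Λ₁ * sc L J ≤ (Λ₁ + 16) * sc L J := Nat.mul_le_mul_right _ (by omega)
  have s3' : (Λ₁ + 16) * sc L J = Λ₁ * sc L J + 16 * sc L J := add_mul _ _ _
  have s8 := eight_le_sc hL1 J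
  have s4 := le_sc (L := L) (j := 0) (p := J) (by omega) (by omega : 0 + J ≤ J)
  rw [sc_zero] at s4
  have s5 := sc_mono hL1 hJJ
  have s5' := sc_mono hL1 (by omega : J ≤ J'')
  have s6 := sc_mono hL1 (by omega : 1 ≤ J)
  have s7 : sc L 1 = 8 * L := by simp [sc]
  have hlo := D.lo
  have hRM : 16 * (q.R + 1) ≤ M := by omega
  have hrad := W.FD.rad_min hL1 p₂
  have hbf' : ∀ (g : Geo), g.OkW → ∀ v : Cor g.M, v.Ok → v.Off g.A → 16 * (q.R + 1) ≤ g.M →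
      ∀ j (t : ℝ), 16 * sc L j ≤ g.M → 0 < t → t ≤ hb L j →
      Anch (sc L j) L (g.bf (sc L j) t (g.flowC L q v j)) (b / 2 ^ j / 2 ^ j) := by
    intro g ok v hv hv' h1 j t h2 h3 h4
    refine anch_mono (hbf L (by omega) q η hq.ok hq.bulk g ok v hv hv' h1 j h2)
      (bf_mono (by have := eight_le_sc hL1 j; omega) h3 h4 (W.Geo.wf_flowC ok hv L q j)) ?_
    rw [div_div, div_eq_mul_one_div, ← div_div]
    exact mul_le_mul_of_nonneg_left (th_pow (by omega) j) hb0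
  have okA : (gE M (P * H * B) J).OkW := ⟨dom_isW D, fun k => k.elim⟩
  have okP : (gE M P J').OkW := ⟨Both.isW D.P_ok, fun k => k.elim⟩
  have far := dom_far D hL1
  refine ⟨hRM, ?_, ?_⟩
  · have EA := (hE (gE M (P * H * B) J) _ ⟨okA, fun k => k.elim, by change _ ≤ M; dsimp only; omega,
      hRM, ⟨dom_ff D hL1 (show J ≤ J'' by omega) (s3.trans (s2.trans s1)), fun k => k.elim,
        fun k => k.elim⟩⟩ (by simp) (far.qu (J := J) (J' := J) (by omega) (by omega) le_rfl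
      (by omega) (qu_mono hL1 hJJ D.bd.1)) hrad).1 u hu (dom_off D hoff) hwt
    obtain ⟨Tp, hTp, -, c', hc1, hc2, hB⟩ := D.bd.1
    obtain ⟨r1, r2⟩ := D.bd.2 D.nofl
    obtain ⟨ω, hω, hW⟩ := hW M Tp
    have hlo' := hr_lo (L := L) hγ0 hγ1 g1 j1
    have hpos : ∀ j, 0 < hr L p₁ p₂ J (ρ / L) j := fun j => lt_of_lt_of_le (by linarith) (hlo' j)
    refine flowN_of (h' := hr L p₁ p₂ J (ρ / L)) (ω := fun ℓ z => ω ℓ z * wc L c ℓ z) (Λ := Λ)
      inferInstance okA hL1 hu hδ hrad EA ha0 hb0 hC hΩ hJJ (hr_early le_rfl) hpos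
      (fun ℓ z => ⟨one_le_mul_of_one_le_of_one_le (hω ℓ z).1 (one_le_wc hL1 c ℓ z),
        hΩd ▸ mul_le_mul (hω ℓ z).2 (wc_le hL1 c ℓ z) (zero_le_one.trans (one_le_wc hL1 c ℓ z))
          (by linarith)⟩) (fun j hj hj' => ?_) (fun j hj hj' => ?_)
      (t1 J le_rfl) D.hi ?_ t2
    · change J ≤ j at hj
      have h8 := eight_le_sc hL1 j
      have h9 : L * sc L j ≤ sc L J' := by
        rw [← sc_succ]
        exact sc_mono hL1 hj'
      obtain ⟨κ', s, n₂, d1, d2, d3, d4, d5⟩ := hB j (by omega) hj'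
      have hU := hW _ (sc L j) n₂ c' κ' s ε (by omega)
        (fun p a p' a' h => by have := hTp p a p' a' h; omega) hc2 d1 d2 d3 d4 d5
      have hβ := beta_pos hL1 hδ (hrad.pos hL1 J) J
      have w1 : ∀ z, 1 ≤ ω (L * sc L j) z * wc L c (L * sc L j) z := fun z =>
        one_le_mul_of_one_le_of_one_le (hU.one z) (one_le_wc hL1 c _ z)
      have w2 : ∀ x z, tdist x z ≤ 4 * (L * sc L j) → ω (sc L j) x * wc L c (sc L j) x ≤
          ω (L * sc L j) z * wc L c (L * sc L j) z := fun x z h =>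
        mul_le_mul (hU.mono x z h) (wc_mono (by omega) (by omega) c h)
          (zero_le_one.trans (one_le_wc hL1 c _ x)) (zero_le_one.trans (hU.one z))
      by_cases hm : j < J + p₁
      · refine hS _ _ j _ _ _ L ρ okA.sign inferInstance h8 (by change _ ≤ M; omega) (hlo' j)
          (hpos _) ?_ hβ (by linarith) (fun z => RN.shr_triv _
            (Nat.le_mul_of_pos_left _ (by omega)) z ?_) hρ0 hρ3 ?_ _ _ w1 w2
          (sumM_mid (by omega) hL1 (by positivity) hρ4 w1 w2)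
        · rw [hr_mid j1 hj hm]
          nlinarith [hpos j]
        · push_cast
          exact mul_le_mul_of_nonneg_right (by nlinarith) (Nat.cast_nonneg _)
        · rw [hr_mid j1 hj hm]
          apply le_of_eq
          field_simp
      · have u1 := le_sc (L := L) (p := p₁) (by omega) (not_lt.1 hm)
        have u2 : p₁ * sc L J = p * ((Λ₁ + 16) * sc L J) + (Λ₁ + 16) * sc L J := by
          rw [hp₁]; ring
        have u3 : ∀ f, flux (P * H * B) f = -1 → tdist f c ≤ (Λ₁ + 16) * sc L J := fun f hf =>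
          (D.cl.near f (dom_fluxB D hf)).trans s3
        have u4 : (Λ₁ + 16) * sc L J ≤ (Λ₁ + 16) * (16 * sc L J) :=
          Nat.mul_le_mul_left _ (by omega)
        have u5 : 16 * sc L J ≤ (Λ₁ + 16) * sc L J := Nat.mul_le_mul_right _ (by omega)
        have u6 : sc L j ≤ L * sc L j := Nat.le_mul_of_pos_left _ (by omega)
        refine hS _ _ j _ _ _ κ κ okA.sign inferInstance h8 (by change _ ≤ M; omega) (hlo' j)
          (hpos _) ?_ hβ hκ0.le (hl M (P * H) B c (16 * sc L J) ((Λ₁ + 16) * sc L J) (sc L j)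
            (Both.isW_mul D.P_ok D.str.sign) (fun _ _ a1 a2 a3 => r1 _ _ a1 a2 (by omega))
            (fun z _ a1 a2 => r2 z _ a1 (by omega)) (fun e he => dom_one D e (by omega)) (dom_cl D)
            (by omega) u5 u4 (by omega) (by omega)) hκ0 (by linarith) ?_ _ _ w1 w2
          (sumM_W (A' := P * H) (R := Λ₁ * sc L J) okA.sign h8 (by omega) (by change _ ≤ M; omega)
            (fun z => ⟨{c}, by simp, fun f hf _ => ⟨c, mem_singleton_self c,
              (u3 f hf).trans (by omega)⟩, fun k => k.elim⟩) (by omega) far.out (dom_abs D) hU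
            (fun x => zero_le_one.trans (hω _ x).1) (by linarith) ?_ (by positivity) e4 e5)
        · rw [hr_late j1 (not_lt.1 hm)]
          linarith [hpos j]
        · rw [hr_late j1 (not_lt.1 hm), mul_comm]
        · have : ε * L ≤ κ ^ 2 * L := mul_le_mul_of_nonneg_right e2 (by linarith)
          have : κ ^ 2 * L ≤ 1 / 576 * L := mul_le_mul_of_nonneg_right (by nlinarith) (by linarith)
          linarith
    · have := sc_mono hL1 hj'
      exact hbf' _ okA u hu (dom_off D hoff) hRM j _ (by change _ ≤ M; omega) (hpos j)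
        ((hr_le hγ0 hγ1 j).trans (hrad.hi j))
    · rw [FM.hr, min_eq_right (by omega : p₂ ≤ J'), min_eq_right (by omega : p₁ ≤ J' - J),
        mul_assoc]
      exact g2.trans (le_mul_of_one_le_left (by positivity) hL2)
  · have EP := (hE (gE M P J') _ ⟨okP, fun k => k.elim, by change _ ≤ M; dsimp only; omega,
      hRM, ⟨fun f hf => absurd hf (dom_nofl D f), fun k => k.elim, fun k => k.elim⟩⟩ (by simp)
      D.bd0.1 hrad).1 u hu hoff hwt
    refine flowN_of (ω := fun _ _ => 1) (Λ := Λ) inferInstance okP hL1 hu hδ hrad EP ha0 hb0 hC hΩ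
      le_rfl rfl (hrad.pos hL1) (fun _ _ => ⟨le_rfl, hΩ⟩) (fun j hj hj' => absurd hj' (not_lt.2 hj))
      (fun j _ hj' => ?_) (t1 J' hJJ) D.hi ?_ t2
    · have := sc_mono hL1 hj'
      exact hbf' _ okP u hu hoff hRM j _ (by change _ ≤ M; omega) (hrad.pos hL1 j) (hrad.hi j)
    · change T ≤ (L : ℝ) ^ 2 * 2 ^ min J' p₂
      rw [min_eq_right (by omega : p₂ ≤ J')]
      refine g2.trans ((mul_le_of_le_one_right (by positivity)
        (pow_le_one₀ hγ0.le hγ1)).trans (le_mul_of_one_le_left (by positivity) hL2))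

section

variable {Q : Cls} {M : ℕ} [NeZero M] {P H B : Gauge M} {c : Tor M} {L J J'' J' N Λ Λ₁ : ℕ}
  {Γ : ℝ} (D : DomMW Q P H B c L J J'' J' N Λ Λ₁ Γ) {q : Par} {u : Cor M}
include D

/-- The constants of the small sets that see no flux agree. -/
theorem cs_good (hL : 8 ≤ L) (hq : q.Ok) (hR : 16 * (q.R + 1) ≤ M) (hu : u.Ok) {j : ℕ}
    (hj : j ≤ J') {U : Finset (Tor M)} (h1 : stein U ≤ 8 * sc L J' / 20)
    (h2 : ∀ z, flux B z = -1 → ∀ x ∈ U, 3 * sc L j + 2 * stein U < tdist x z) :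
    Mn.ag _ ((gE M (P * H * B) J).csC L q u j U) = Mn.ag _ ((gE M P J').csC L q u j U) := by
  have okA : (gE M (P * H * B) J).OkW := ⟨dom_isW D, fun k => k.elim⟩
  have okH : (gE M (P * H * 1) J).OkW :=
    ⟨by rw [mul_one]; exact Both.isW_mul D.P_ok D.str.sign, fun k => k.elim⟩
  have okP : (gE M P J').OkW := ⟨Both.isW D.P_ok, fun k => k.elim⟩
  rcases U.eq_empty_or_nonempty with rfl | ⟨x, hx⟩
  · rw [MN.csC_empty okA hu, MN.csC_empty okP hu, map_zero, map_zero]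
  have s1 := sc_mono (L := L) (by omega) hj
  have s2 := D.lo
  have h8 := eight_le_sc (L := L) (by omega) j
  have hT : tdist x x + 2 * stein U + 3 * sc L j ≤ 2 * stein U + 3 * sc L j := by
    rw [tdist_self]; omega
  have hM : 4 * (2 * stein U + 3 * sc L j) + 1 ≤ M := by omega
  obtain ⟨m1, m2, m3⟩ := W.R6.matchC_mul (w := P * H) (B' := 1) (c := x) D.cl.sign
    (fun _ => Or.inl rfl) (by omega) hM fun f hf => by
      rw [flux_one, flux_eq_one D.cl.sign fun h => ?_]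
      have := h2 f h x hx
      rw [tdist_comm] at hf
      omega
  have e1 := W.Geo.ag_csC (g := gE M (P * H * B) J) (g' := gE M (P * H * 1) J) (c := x) (c' := x)
    hL okA okH hu hu hq hR hR ⟨hM, hM, m1, m2, fun X _ => m3 u X⟩ j hx hT
  have m4 := Both.eqv (r := 32 * sc L J') (P := P) (B := H)
    (by rw [← mul_assoc]; exact D.str) (by omega) (by omega) x (2 * stein U + 3 * sc L j)
    (by omega) fun f _ => D.nofl f
  have e2 := W.Geo.ag_csC (g := gE M (P * H * 1) J) (g' := gE M P J') (c := x) (c' := x)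
    hL okH okP hu hu hq hR hR ⟨hM, hM, fun f _ => by
      rw [Mn.shf_self]
      change flux P f = flux (P * H * 1) f
      rw [mul_one, dom_fl D (by omega)], by simpa only [Mn.shf_self, mul_one] using m4,
      fun X _ => m3 u X⟩ j hx hT
  rw [Mn.image_shf] at e1 e2
  exact (e2.trans e1).symm

theorem cs_le (hL : 8 ≤ L) (hq : q.Ok) (hR : 16 * (q.R + 1) ≤ M) (hu : u.Ok) {a T x : ℝ}
    (ha : 0 ≤ a) (F : FlowN (gE M (P * H * B) J) L q u J' a T x)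
    (F0 : FlowN (gE M P J') L q u J' a T x) :
    ∑ j ∈ range (J' + 1), ∑ U, Mn.ag _ ((gE M (P * H * B) J).csC L q u j U) ≤
      ∑ j ∈ range (J' + 1), ∑ U, Mn.ag _ ((gE M P J').csC L q u j U) +
        4 * ((96 * (Λ + 1) ^ 2 + 1600 * N) * a) := by
  classical
  set K : ℝ := 96 * (Λ + 1) ^ 2 + 1600 * N with hK
  have key : ∀ j ∈ range (J' + 1), ∑ U, Mn.ag _ ((gE M (P * H * B) J).csC L q u j U) ≤
      ∑ U, Mn.ag _ ((gE M P J').csC L q u j U) + 2 * (K * a) * (1 / 2) ^ j := by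
    intro j hj
    have hj' : j ≤ J' := by have := mem_range.1 hj; omega
    set p : Finset (Tor M) → Prop := fun U => 8 * sc L J' / 20 + 1 ≤ stein U ∨
      ∃ z ∈ univ.filter fun f => flux B f = -1, ∃ x ∈ U, tdist x z ≤ 3 * sc L j + 2 * stein U
      with hp
    have hc : ((univ.filter fun f => flux B f = -1).card : ℝ) ≤ N := by exact_mod_cast D.cnt
    have b0 : (96 * (Λ + 1) ^ 2 + 1600 * ((univ.filter fun f => flux B f = -1).card : ℝ)) *
        (a / 2 ^ j) ≤ K * a * (1 / 2) ^ j := by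
      rw [_root_.one_div_pow, mul_assoc, mul_one_div]
      exact mul_le_mul_of_nonneg_right (by rw [hK]; linarith) (by positivity)
    have b1 := (bad_sum (by omega) hj' D.hi (fun _ => abs_nonneg _) (F.cs j hj') _
      (univ.filter p) fun U hU => (mem_filter.1 hU).2).trans b0
    have b2 := (bad_sum (by omega) hj' D.hi (fun _ => abs_nonneg _) (F0.cs j hj') _
      (univ.filter p) fun U hU => (mem_filter.1 hU).2).trans b0
    rw [← sub_le_iff_le_add', ← sum_sub_distrib, ← sum_filter_of_ne (p := p) fun U _ hU => by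
      by_contra h
      simp only [hp, not_or, not_le, not_exists, not_and, mem_filter, mem_univ, true_and] at h
      exact hU (sub_eq_zero.2 (cs_good D hL hq hR hu hj' (by omega) h.2))]
    refine (sum_le_sum fun U _ => (le_abs_self _).trans (abs_sub _ _)).trans ?_
    rw [sum_add_distrib]
    linarith
  refine (sum_le_sum key).trans ?_
  rw [sum_add_distrib, ← mul_sum]
  have h1 := sum_geometric_two_le (J' + 1)
  have h2 : 0 ≤ 2 * (K * a) := by positivity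
  linarith [mul_le_mul_of_nonneg_left h1 h2]

end

theorem mwMain (hl : ShrW) (hG : GapW3) : ∃ ε₀ > (0 : ℝ), ∀ ε > (0 : ℝ), ε ≤ ε₀ → ∀ c β : ℝ,
    1 ≤ c → 0 < β → β ≤ 1 / 2 → ∃ L₀ : ℕ, ∀ L ≥ L₀,
    ∃ kf : ℕ → ℕ, ∃ σ : ℝ, 0 ≤ σ ∧ ∃ η > (0 : ℝ), ∀ R : ℕ, ∃ δ₀ > (0 : ℝ), ∀ q : Par, q.R = R →
    Crit L q η δ₀ → ∀ N k, kf N ≤ k → MWMain (QD L ε k N c β) q L σ η := by
  obtain ⟨ε₀, hε₀, H⟩ := flows hl
  obtain ⟨Cg, hCg, hg⟩ := LM.lastB_gap
  refine ⟨ε₀, hε₀, fun ε hε hε' c₁ β₁ hc₁ hβ₁ hβ₁' => ?_⟩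
  obtain ⟨L₀, H⟩ := H ε hε hε' c₁ β₁ hc₁ hβ₁ hβ₁'
  refine ⟨L₀, fun L hL => ?_⟩
  obtain ⟨hL64, kf, σ, hσ, η, hη, H⟩ := H L hL
  refine ⟨kf, σ, hσ, η, hη, fun R => ?_⟩
  obtain ⟨δ₀, hδ₀, H⟩ := H R
  refine ⟨δ₀, hδ₀, fun q hR hq N k hk n Λ Λ₁ Γ hΓ => ?_⟩
  obtain ⟨a, ha, J₀, p₀, H⟩ := H q hR hq N k hk Λ Λ₁ (Cg * (4 * Γ))
  obtain ⟨p, hG⟩ := hG c₁ β₁ Γ hc₁ hβ₁ hβ₁' hΓ (Λ₁ + 16)
  refine ⟨3 * Real.exp (4 * ((96 * (Λ + 1) ^ 2 + 1600 * n) * a)), by positivity, J₀ + 1,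
    p₀ + p * (Λ₁ + 16), fun J hJ J' hJ' M _ P H' B c u K D hu hw ho hK hZ => ?_⟩
  obtain ⟨hM, F, F0⟩ := H J (by omega) _ (by omega) J' hJ' M P H' B c u n Γ D hu hw ho
  have s1 := le_sc (L := L) (j := J) (j' := J + (p₀ + p * (Λ₁ + 16))) (p := p * (Λ₁ + 16))
    (by omega) (by omega)
  have s2 := sc_mono (L := L) (by omega) hJ'
  have s3 := sc_mono (L := L) (by omega) (by omega : 1 ≤ J)
  have s4 : sc L 1 = 8 * L := by simp [sc]
  have s5 := D.lo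
  rw [mul_assoc] at s1
  obtain ⟨r1, r2⟩ := D.bd.2 D.nofl
  have gA := hG M (P * H') B c (16 * sc L J) ((Λ₁ + 16) * sc L J) (sc L J')
    (Both.isW_mul D.P_ok D.str.sign) r1 r2 (fun e he => dom_one D e (by omega)) (dom_cl D)
    (by omega) (Nat.mul_le_mul_right _ (by omega)) (Nat.mul_le_mul_left _ (by omega)) (by omega)
    (by omega) D.gap1
  have gP : Gap P (4 * Γ * sc L J') := fun φ => (D.gap0 φ).trans (mul_le_mul_of_nonneg_right
    (pow_le_pow_left₀ (by positivity) (mul_le_mul_of_nonneg_right (by linarith) (by positivity)) 2)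
    (C.dot_nonneg _))
  have okA : (gE M (P * H' * B) J).OkW := ⟨dom_isW D, fun k => k.elim⟩
  have okP : (gE M P J').OkW := ⟨Both.isW D.P_ok, fun k => k.elim⟩
  have h8 := eight_le_sc (L := L) (by omega) J'
  have hq0 : q.Z ≠ 0 := by have := hq.ok.Z_lo; positivity
  have t1 := last_close okA hu (by omega) F fun h hh => hg _ okA.sign _ h8 _ (by linarith) gA h hh
  have t0 := last_close okP hu (by omega) F0 fun h hh => hg _ okP.sign _ h8 _ (by linarith) gP h hh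
  have c1 := Real.exp_le_exp.2 (cs_le D (by omega) hq.ok hM hu ha F F0)
  have z1 : ZwC q u (P * H' * B) 1 = _ := Z_eq (g := gE M (P * H' * B) J) inferInstance hq0 F.conv
  have z0 : ZwC q u P 1 = _ := Z_eq (g := gE M P J') inferInstance hq0 F0.conv
  rw [z1, z0, abs_mul, abs_mul, abs_mul, abs_mul, Real.abs_exp, Real.abs_exp]
  rw [Real.exp_add] at c1
  change |_ - Zw par0 (P * H' * B) 1| ≤ |Zw par0 (P * H' * B) 1| / 2 at t1
  change |_ - Zw par0 P 1| ≤ |Zw par0 P 1| / 2 at t0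
  have a1 := abs_sub_abs_le_abs_sub _ _ |>.trans t1
  have a0 := abs_sub_abs_le_abs_sub _ _ |>.trans ((abs_sub_comm _ _).trans_le t0)
  generalize hT' : |Mn.ag (gE M (P * H' * B) J) _| = T₁ at *
  generalize hT : |Mn.ag (gE M P J') _| = T₀ at *
  have hT0 : 0 ≤ T₀ := hT ▸ abs_nonneg _
  have a2 : T₁ ≤ 3 * K * T₀ := by
    have := mul_le_mul_of_nonneg_left (show |Zw par0 P 1| ≤ 2 * T₀ by linarith) hK
    linarith
  have hT1 : 0 ≤ T₁ := hT' ▸ abs_nonneg _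
  refine (mul_le_mul_of_nonneg_left (mul_le_mul c1 a2 hT1 (by positivity)) (abs_nonneg _)).trans
    (le_of_eq ?_)
  ring

theorem genMW_of (hl : ShrW) (hG : GapW3) : GenMW := by
  obtain ⟨ε₀, hε₀, H⟩ := mwMain hl hG
  obtain ⟨C₂, hC₂, h⟩ := cor_reg
  refine ⟨ε₀, hε₀, fun ε hε hε' c β hc hβ hβ' => ?_⟩
  obtain ⟨L₀, H⟩ := H ε hε hε' c β hc hβ hβ'
  refine ⟨L₀, fun L hL => ?_⟩
  obtain ⟨kf, σ, hσ, γ, hγ, H⟩ := H L hL
  have e1 := W.R5.one_le_eR hσ 1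
  refine ⟨kf, γ / (4 * (W.R5.eR σ 1 * C₂)), by positivity, fun R => ?_⟩
  obtain ⟨δ₀, hδ₀, H⟩ := H R
  obtain ⟨C₃, hC₃, h⟩ := h R
  have e2 := W.R5.one_le_eR hσ (2 * R + 2)
  refine ⟨min δ₀ (γ / (4 * (W.R5.eR σ (2 * R + 2) * C₃))), by positivity,
    fun q hR hq N k hk => ⟨σ, γ / 2, γ / 2, hσ, half_pos hγ, fun M _ R' => ?_, ?_⟩⟩
  · obtain ⟨k1, k2, k3⟩ := h M R' q _ _ hR hq.ok hq.x (hq.small.trans (min_le_right _ _))
    refine ⟨k1, k2, GU.wt_mono (GU.wt_sm hσ k3) (le_of_eq ?_)⟩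
    rw [hR]
    field_simp
    ring
  · rw [add_halves]
    exact H q hR (hq.mono (div_le_self hγ.le (by nlinarith)) (min_le_left _ _)) N k hk

end Vale.Agent.N144.MW
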