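import Vale.Agent.N144.W.Defs

/-!
The layer along the boundary of the domains is thin.
-/

namespace Vale.Agent.N144.Ly

open Metric MeasureTheory Set Vale.Agent.P144Z

/-- The layer of width `t`. -/
def lay (S : Set ℂ) (t : ℝ) : Set ℂ := {x | (ball x t ∩ S).Nonempty ∧ ¬ball x t ⊆ S}

/-- `S` is stable under the translations close to the direction `ν`. -/
def Up (S : Set ℂ) (ν : ℂ) (m : ℝ) : Prop :=
  ∀ z ∈ S, ∀ t : ℝ, ∀ v : ℂ, ‖v‖ ≤ t → z + v + ((m * t : ℝ) : ℂ) * ν ∈ S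

theorem isOpen_lay (S : Set ℂ) (t : ℝ) : IsOpen (lay S t) := by
  have e : lay S t = (⋃ p ∈ S, ball p t) ∩ ⋃ q ∈ Sᶜ, ball q t := by
    ext x
    simp only [lay, mem_ofPred_eq, mem_inter_iff, mem_iUnion, Set.Nonempty, not_subset, mem_ball,
      mem_compl_iff, exists_prop, dist_comm x]
    exact and_congr (exists_congr fun _ => and_comm) (exists_congr fun _ => and_comm)
  rw [e]
  exact (isOpen_biUnion fun _ _ => isOpen_ball).inter (isOpen_biUnion fun _ _ => isOpen_ball)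

theorem Up.not_two {S : Set ℂ} {ν : ℂ} {m t : ℝ} (h : Up S ν m) (ht : 0 < t) {x : ℂ}
    (hx : x ∈ lay S t) (k : ℕ) : x + ((k + 1 : ℕ) : ℂ) * (((2 * m * t : ℝ) : ℂ) * ν) ∉ lay S t := by
  rintro ⟨-, h2⟩
  obtain ⟨⟨p, p1, p2⟩, -⟩ := hx
  refine h2 fun q hq => ?_
  have k1 := h p p2 t (x - p) (by rw [← dist_eq_norm, dist_comm]; exact (mem_ball.1 p1).le)
  have k2 := h _ k1 (2 * k * t) 0 (by rw [norm_zero]; positivity)
  have k3 := h _ k2 t (q - (x + ((k + 1 : ℕ) : ℂ) * (((2 * m * t : ℝ) : ℂ) * ν)))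
    (by rw [← dist_eq_norm]; exact (mem_ball.1 hq).le)
  have e : p + (x - p) + ((m * t : ℝ) : ℂ) * ν + 0 + ((m * (2 * k * t) : ℝ) : ℂ) * ν +
      (q - (x + ((k + 1 : ℕ) : ℂ) * (((2 * m * t : ℝ) : ℂ) * ν))) + ((m * t : ℝ) : ℂ) * ν = q := by
    push_cast
    ring
  rwa [e] at k3

theorem Up.vol {S : Set ℂ} {ν : ℂ} {m : ℝ} (h : Up S ν m) (hν : ‖ν‖ = 1) (z : ℂ) (r : ℝ) :
    ∃ C : ℝ, 0 ≤ C ∧ ∀ t, 0 < t → t ≤ 1 → volume (lay S t ∩ ball z r) ≤ ENNReal.ofReal (C * t) := by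
  refine ⟨(volume (ball z (r + 4 * |m|))).toReal, ENNReal.toReal_nonneg, fun t h0 h1 => ?_⟩
  obtain ⟨N, hN⟩ : ∃ N : ℕ, N = ⌈t⁻¹⌉₊ := ⟨_, rfl⟩
  have n1 : 1 ≤ N * t := by
    have := mul_le_mul_of_nonneg_right (hN ▸ Nat.le_ceil t⁻¹) h0.le
    rwa [inv_mul_cancel₀ h0.ne'] at this
  have n2 : N * t ≤ 2 := by
    have := mul_le_mul_of_nonneg_right (hN ▸ (Nat.ceil_lt_add_one (inv_pos.2 h0).le).le) h0.le
    rw [add_mul, inv_mul_cancel₀ h0.ne'] at this
    linarith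
  obtain ⟨c, hc⟩ : ∃ c : ℂ, c = ((2 * m * t : ℝ) : ℂ) * ν := ⟨_, rfl⟩
  have c1 : ‖c‖ = 2 * |m| * t := by
    rw [hc, norm_mul, hν, mul_one, Complex.norm_real, Real.norm_eq_abs, abs_mul, abs_mul,
      abs_of_pos h0, abs_two]
  have hA : MeasurableSet (lay S t ∩ ball z r) :=
    ((isOpen_lay S t).inter isOpen_ball).measurableSet
  have d1 : ∀ i j : ℕ, i < j → Disjoint ((fun y => y + (i : ℂ) * c) ⁻¹' (lay S t ∩ ball z r))
      ((fun y => y + (j : ℂ) * c) ⁻¹' (lay S t ∩ ball z r)) := fun i j hij => by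
    refine disjoint_left.2 fun y a1 a2 => ?_
    obtain ⟨k, rfl⟩ := Nat.exists_eq_add_of_lt hij
    refine h.not_two h0 a1.1 k ?_
    have e : y + (i : ℂ) * c + ((k + 1 : ℕ) : ℂ) * (((2 * m * t : ℝ) : ℂ) * ν) =
        y + ((i + k + 1 : ℕ) : ℂ) * c := by
      rw [← hc]
      push_cast
      ring
    rw [e]
    exact a2.1
  have k1 := measure_biUnion_finset (μ := volume) (s := Finset.range N)
    (f := fun j : ℕ => (fun y => y + (j : ℂ) * c) ⁻¹' (lay S t ∩ ball z r))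
    (fun i _ j _ hij => (lt_or_gt_of_ne hij).elim (d1 i j) fun h => (d1 j i h).symm)
    fun j _ => hA.preimage (measurable_add_const _)
  simp only [measure_preimage_add_right, Finset.sum_const, Finset.card_range, nsmul_eq_mul] at k1
  have k2 : (N : ENNReal) * volume (lay S t ∩ ball z r) ≤ volume (ball z (r + 4 * |m|)) := by
    rw [← k1]
    refine measure_mono (iUnion₂_subset fun j hj y hy => ?_)
    have j1 : (j : ℝ) ≤ N := by exact_mod_cast (Finset.mem_range.1 hj).le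
    have j2 := mem_ball.1 hy.2
    have j3 := dist_triangle y (y + (j : ℂ) * c) z
    rw [dist_self_add_right, norm_mul, Complex.norm_natCast, c1] at j3
    have j4 : (j : ℝ) * (2 * |m| * t) ≤ N * (2 * |m| * t) := by gcongr
    have j5 := mul_le_mul_of_nonneg_left n2 (abs_nonneg m)
    exact mem_ball.2 (by linarith)
  calc _ = 1 * volume (lay S t ∩ ball z r) := (one_mul _).symm
    _ ≤ ENNReal.ofReal t * N * volume (lay S t ∩ ball z r) := by
        gcongr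
        rw [← ENNReal.ofReal_natCast, ← ENNReal.ofReal_mul h0.le, ← ENNReal.ofReal_one]
        exact ENNReal.ofReal_le_ofReal (by linarith)
    _ ≤ ENNReal.ofReal t * volume (ball z (r + 4 * |m|)) := by
        rw [mul_assoc]
        gcongr
    _ = _ := by
        rw [mul_comm _ t, ENNReal.ofReal_mul h0.le,
          ENNReal.ofReal_toReal measure_ball_lt_top.ne]

/-- The layer is thin near `z`. -/
def Ch (D : Set ℂ) (z : ℂ) : Prop :=
  ∃ r > (0 : ℝ), ∃ C : ℝ, 0 ≤ C ∧ ∀ t, 0 < t → t ≤ 1 →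
    volume {x | x ∈ lay D t ∧ ball x t ⊆ ball z r} ≤ ENNReal.ofReal (C * t)

theorem ch_two {D S₁ S₂ : Set ℂ} {ν₁ ν₂ z : ℂ} {m₁ m₂ r : ℝ} (hr : 0 < r) (h₁ : Up S₁ ν₁ m₁)
    (h₂ : Up S₂ ν₂ m₂) (n₁ : ‖ν₁‖ = 1) (n₂ : ‖ν₂‖ = 1)
    (h : D ∩ ball z r = S₁ ∩ S₂ ∩ ball z r ∨ D ∩ ball z r = (S₁ ∪ S₂) ∩ ball z r) : Ch D z := by
  obtain ⟨C₁, a1, a2⟩ := h₁.vol n₁ z r
  obtain ⟨C₂, b1, b2⟩ := h₂.vol n₂ z r
  refine ⟨r, hr, C₁ + C₂, by positivity, fun t h0 h1 => ?_⟩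
  rw [add_mul, ENNReal.ofReal_add (by positivity) (by positivity)]
  refine le_trans (measure_mono ?_) ((measure_union_le _ _).trans (add_le_add (a2 t h0 h1)
    (b2 t h0 h1)))
  rintro x ⟨⟨⟨p, p1, p2⟩, hq⟩, hb⟩
  obtain ⟨q, q1, q2⟩ := not_subset.1 hq
  have x1 := hb (mem_ball_self h0)
  have k1 : p ∈ D ∩ ball z r := ⟨p2, hb p1⟩
  have k2 : q ∉ D ∩ ball z r := fun h => q2 h.1
  rcases h with h | h
  · rw [h] at k1 k2
    by_cases k3 : q ∈ S₁
    · exact Or.inr ⟨⟨⟨p, p1, k1.1.2⟩, fun h => k2 ⟨⟨k3, h q1⟩, hb q1⟩⟩, x1⟩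
    · exact Or.inl ⟨⟨⟨p, p1, k1.1.1⟩, fun h => k3 (h q1)⟩, x1⟩
  · rw [h] at k1 k2
    rcases k1.1 with k3 | k3
    · exact Or.inl ⟨⟨⟨p, p1, k3⟩, fun h => k2 ⟨Or.inl (h q1), hb q1⟩⟩, x1⟩
    · exact Or.inr ⟨⟨⟨p, p1, k3⟩, fun h => k2 ⟨Or.inr (h q1), hb q1⟩⟩, x1⟩

theorem lay_of {D : Set ℂ} (hD : Bornology.IsBounded D) (h : ∀ z ∈ closure D, Ch D z) : Lay D := by
  choose! r hr C hC hv using h
  obtain ⟨T, hT, hc⟩ := hD.isCompact_closure.elim_nhds_subcover (fun z => ball z (r z / 2))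
    fun z hz => ball_mem_nhds z (half_pos (hr z hz))
  obtain ⟨t₀, t1, t2, t3⟩ : ∃ t₀ : ℝ, 0 < t₀ ∧ t₀ ≤ 1 ∧ ∀ z ∈ T, 4 * t₀ ≤ r z := by
    have k := ((Filter.eventually_all_finset T).2 fun z hz => (eventually_le_nhds
      (by linarith [hr z (hT z hz)] : (0 : ℝ) < r z / 4))).and (eventually_le_nhds zero_lt_one)
    obtain ⟨t₀, ⟨a1, a2⟩, a3⟩ :=
      ((k.filter_mono nhdsWithin_le_nhds).and (self_mem_nhdsWithin (s := Ioi (0 : ℝ)))).exists
    exact ⟨t₀, a3, a2, fun z hz => by linarith [a1 z hz]⟩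
  obtain ⟨R, hR, hb⟩ := hD.subset_ball_lt 0 0
  have s0 : 0 ≤ ∑ z ∈ T, C z := Finset.sum_nonneg fun z hz => hC z (hT z hz)
  refine ⟨∑ z ∈ T, C z + (R / t₀ + 1) ^ 2 * Real.pi, fun t ht => ?_⟩
  have s1 : 0 ≤ (R / t₀ + 1) ^ 2 * Real.pi := by positivity
  change volume (lay D t) ≤ _
  rcases le_or_gt t t₀ with h1 | h1
  · have k1 : lay D t ⊆ ⋃ z ∈ T, {x | x ∈ lay D t ∧ ball x t ⊆ ball z (r z)} := fun x hx => by
      obtain ⟨p, p1, p2⟩ := hx.1
      obtain ⟨z, hz, p3⟩ := mem_iUnion₂.1 (hc (subset_closure p2))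
      refine mem_iUnion₂.2 ⟨z, hz, hx, fun y hy => mem_ball.2 ?_⟩
      have j1 := dist_triangle4 y x p z
      rw [dist_comm x p] at j1
      linarith [mem_ball.1 hy, mem_ball.1 p1, mem_ball.1 p3, t3 z hz]
    refine (measure_mono k1).trans ((measure_biUnion_finset_le _ _).trans ((Finset.sum_le_sum
      fun z hz => hv z (hT z hz) t ht (h1.trans t2)).trans ?_))
    rw [← ENNReal.ofReal_sum_of_nonneg fun z hz => mul_nonneg (hC z (hT z hz)) ht.le,
      ← Finset.sum_mul]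
    exact ENNReal.ofReal_le_ofReal (by nlinarith [sq_nonneg t])
  · have k1 : lay D t ⊆ ball 0 ((R / t₀ + 1) * t) := fun x hx => by
      obtain ⟨p, p1, p2⟩ := hx.1
      have j1 := dist_triangle x p 0
      rw [dist_comm x p] at j1
      have j2 : R ≤ R / t₀ * t := by
        rw [div_mul_eq_mul_div, le_div_iff₀ t1]
        gcongr
      exact mem_ball.2 (by linarith [mem_ball.1 p1, mem_ball.1 (hb p2)])
    refine (measure_mono k1).trans ?_
    rw [Complex.volume_ball, ← ENNReal.ofReal_pow (by positivity), ← ENNReal.ofReal_coe_nnreal,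
      NNReal.coe_real_pi, ← ENNReal.ofReal_mul (by positivity)]
    exact ENNReal.ofReal_le_ofReal (by nlinarith [sq_nonneg t, mul_nonneg s0 ht.le])

theorem up_cone {S : Set ℂ} {ν : ℂ} {κ : ℝ} (h : Cone S ν κ) (hν : ‖ν‖ = 1) (hκ : κ < 1) :
    Up S ν (2 / (1 - max κ 0)) := by
  intro z hz t v hv
  obtain ⟨m, hm⟩ : ∃ m, m = 2 / (1 - max κ 0) := ⟨_, rfl⟩
  have k0 : max κ 0 < 1 := max_lt hκ zero_lt_one
  have k1 := le_max_left κ 0
  have k2 := le_max_right κ 0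
  have m0 : 0 ≤ m := by rw [hm]; exact div_nonneg zero_le_two (by linarith)
  have m1 : m * (1 - max κ 0) = 2 := by rw [hm]; exact div_mul_cancel₀ _ (by linarith)
  have t0 := (norm_nonneg v).trans hv
  rw [← hm, add_assoc]
  refine h z hz _ ?_
  have a1 : ‖v + ((m * t : ℝ) : ℂ) * ν‖ ≤ t + m * t := by
    refine (norm_add_le _ _).trans (add_le_add hv (le_of_eq ?_))
    rw [norm_mul, hν, mul_one, Complex.norm_real, Real.norm_of_nonneg (by positivity)]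
  have a2 : ν.re * ν.re + ν.im * ν.im = 1 := by
    rw [← Complex.normSq_apply, Complex.normSq_eq_norm_sq, hν, one_pow]
  have a3 : -t ≤ v.re * ν.re + v.im * ν.im := by
    have b1 := Complex.abs_re_le_norm (v * (starRingEnd ℂ) ν)
    rw [norm_mul, Complex.norm_conj, hν, mul_one, Complex.mul_re, Complex.conj_re,
      Complex.conj_im] at b1
    linarith [(abs_le.1 b1).1]
  have a4 := mul_le_mul k1 a1 (norm_nonneg _) k2
  have a5 : (v + ((m * t : ℝ) : ℂ) * ν).re * ν.re + (v + ((m * t : ℝ) : ℂ) * ν).im * ν.im =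
      v.re * ν.re + v.im * ν.im + m * t := by
    simp only [Complex.add_re, Complex.add_im, Complex.re_ofReal_mul, Complex.im_ofReal_mul]
    linear_combination m * t * a2
  have a6 := mul_le_mul_of_nonneg_right k0.le t0
  have a7 : m * (1 - max κ 0) * t = 2 * t := by rw [m1]
  rw [a5]
  linarith

theorem up_graph {u : ℂ} (hu : ‖u‖ = 1) {g : ℝ → ℝ} {K : ℝ}
    (hg : ∀ s t, |g s - g t| ≤ K * |s - t|) :
    Up {w | g (u * w).re < (u * w).im} (Complex.I * (starRingEnd ℂ) u) (|K| + 1) := by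
  intro z hz t v hv
  have e0 : u * (starRingEnd ℂ) u = 1 := by
    rw [Complex.mul_conj, Complex.normSq_eq_norm_sq, hu]
    norm_num
  have e : u * (z + v + (((|K| + 1) * t : ℝ) : ℂ) * (Complex.I * (starRingEnd ℂ) u)) =
      u * z + u * v + (((|K| + 1) * t : ℝ) : ℂ) * Complex.I := by
    linear_combination (((|K| + 1) * t : ℝ) : ℂ) * Complex.I * e0
  have n1 : ‖u * v‖ ≤ t := by rwa [norm_mul, hu, one_mul]
  have a1 := (Complex.abs_re_le_norm _).trans n1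
  have a2 := (abs_le.1 ((Complex.abs_im_le_norm _).trans n1)).1
  have a3 := hg ((u * z).re + (u * v).re) (u * z).re
  rw [add_sub_cancel_left] at a3
  have a4 := mul_le_mul (le_abs_self K) a1 (abs_nonneg _) (abs_nonneg K)
  have a5 : g (u * z).re < (u * z).im := hz
  rw [mem_ofPred_eq, e]
  simp only [Complex.add_re, Complex.add_im, Complex.re_ofReal_mul, Complex.im_ofReal_mul,
    Complex.I_re, Complex.I_im, mul_zero, add_zero, mul_one]
  linarith [(abs_le.1 a3).2]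

theorem layStmt : LayStmt := by
  rintro D (⟨α, κ, hκ, -, hb, h⟩ | ⟨K, ho, hb, h⟩)
  · refine lay_of hb fun z _ => ?_
    obtain ⟨r, hr, S₁, S₂, ν₁, ν₂, n₁, n₂, -, c₁, c₂, h⟩ := h z
    exact ch_two hr (up_cone c₁ n₁ hκ) (up_cone c₂ n₂ hκ) n₁ n₂ (h.imp_right fun h => h.2.2.2)
  · refine lay_of hb fun z hz => ?_
    by_cases hD : z ∈ D
    · obtain ⟨r, hr, hs⟩ := Metric.isOpen_iff.1 ho z hD
      have u : Up univ 1 0 := fun _ _ _ _ _ => mem_univ _
      exact ch_two hr u u norm_one norm_one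
        (Or.inl (by rw [inter_eq_right.2 hs, inter_self, univ_inter]))
    · obtain ⟨r, hr, u, hu, g, hg, hw⟩ := h z (by rw [ho.frontier_eq]; exact ⟨hz, hD⟩)
      have n : ‖Complex.I * (starRingEnd ℂ) u‖ = 1 := by
        rw [norm_mul, Complex.norm_I, Complex.norm_conj, hu, one_mul]
      refine ch_two hr (up_graph hu hg) (up_graph hu hg) n n (Or.inl ?_)
      rw [inter_self]
      ext w
      exact and_congr_left fun h => hw w h

end Vale.Agent.N144.Ly
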