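import Vale.Agent.N144.W.Defs
import Vale.Agent.N144.Sf.Soft

/-!
The limiting moments and the joint laws up to the boundary.
-/

set_option linter.all false

noncomputable section

namespace Vale.Agent.N144.Lw

open MeasureTheory Filter Topology Metric Vale.Agent.P144 Vale.Agent.P144Z
open Vale.Agent.P144W Vale.Agent.P144F58 Vale.Agent.N144.Sf
open scoped Nat

variable {J : ℝ} {D : Set ℂ} {n : ℕ} {b : Option (ℝ → Config)} {C : Pts → ℝ}

theorem sepW_zero (hJ : 0 < J) (hD : Bornology.IsBounded D) (b : Option (ℝ → Config)) :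
    SepW D (crit J D b) := by
  intro n _ δ hδ
  obtain ⟨C, hC, h⟩ := zero_bd hJ n
  have m0 : 0 < min δ 1 := lt_min hδ one_pos
  refine ⟨C * ((min δ 1) ^ (-(1 / 8) : ℝ)) ^ n, 16 / min δ 1, 2, 1, by positivity, by positivity,
    one_le_two, one_pos, fun a ε z x ha hT he hz hx hsep => ?_⟩
  rw [div_mul_eq_mul_div, div_le_iff₀ m0] at hT
  have hε : 0 < ε := by
    by_contra hn
    nlinarith [not_lt.1 hn]
  have m1 : min δ 1 * ε ≤ ε := mul_le_of_le_one_left hε.le (min_le_right _ _)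
  have := h D hD b a (min δ 1 * ε) x ha (by linarith) (fun i y hy => hz (by
    have y1 := mem_ball.1 hy
    have y2 := mem_ball.1 (hx i)
    have y3 := dist_triangle y (x i) z
    rw [mem_ball]
    linarith)) fun i j e =>
      (mul_le_mul_of_nonneg_right (min_le_left _ _) hε.le).trans (hsep i j e)
  rwa [Real.mul_rpow m0.le hε.le, mul_pow, ← mul_assoc] at this

/-- The second moments in the plus state are bounded up to the boundary. -/
def G2 (J : ℝ) (D : Set ℂ) : Prop :=
  ∃ M : ℝ, ∀ a > (0 : ℝ), ∀ g : ℂ → ℝ, Measurable g → (∀ x, |g x| ≤ 1) → Function.support g ⊆ D →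
    crit J D (some fun _ => bcp) a (fun σ => smear a g σ ^ 2) ≤ M

/-- The points at distance at least `1 / (m + 1)` from the outside. -/
def Km (D : Set ℂ) (m : ℕ) : Set ℂ := {x | ball x (1 / ((m : ℝ) + 1)) ⊆ D}

theorem Km_sub (m : ℕ) : Km D m ⊆ D := fun _ hx => hx (mem_ball_self (by positivity))

theorem Km_closed (D : Set ℂ) (m : ℕ) : IsClosed (Km D m) := by
  have e : (Km D m)ᶜ = ⋃ q ∈ Dᶜ, ball q (1 / ((m : ℝ) + 1)) := by
    ext x
    simp only [Km, Set.mem_compl_iff, Set.mem_ofPred_eq, Set.not_subset, Set.mem_iUnion, mem_ball,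
      exists_prop, dist_comm x]
    exact exists_congr fun _ => and_comm
  rw [← isOpen_compl_iff, e]
  exact isOpen_biUnion fun _ _ => isOpen_ball

theorem Km_compact (hD : Bornology.IsBounded D) (m : ℕ) : IsCompact (Km D m) :=
  Metric.isCompact_of_isClosed_isBounded (Km_closed D m) (hD.subset (Km_sub m))

theorem Km_ev (ho : IsOpen D) {x : ℂ} (hx : x ∈ D) : ∀ᶠ m in atTop, x ∈ Km D m := by
  obtain ⟨r, hr, h⟩ := Metric.isOpen_iff.1 ho x hx
  filter_upwards [(tendsto_one_div_add_atTop_nhds_zero_nat (𝕜 := ℝ)).eventually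
    (eventually_le_nhds hr)] with m hm
  exact (ball_subset_ball hm).trans h

theorem test_ind {K : Set ℂ} (hm : MeasurableSet K) (hK : Bornology.IsBounded K) :
    Test (K.indicator fun _ => (1 : ℝ)) :=
  ⟨measurable_const.indicator hm, ⟨1, fun x => by by_cases h : x ∈ K <;> simp [h]⟩,
    hK.subset Set.support_indicator_subset⟩

theorem ind_abs (K : Set ℂ) (x : ℂ) :
    |K.indicator (fun _ => (1 : ℝ)) x| = K.indicator (fun _ => (1 : ℝ)) x :=
  abs_of_nonneg (Set.indicator_nonneg (fun _ _ => zero_le_one) x)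

/-- The limit is integrable on `D ^ n`, with factorial growth. -/
theorem ind_le (hJ : 0 < J) (hD : Bornology.IsBounded D) (ho : IsOpen D) (hG : G2 J D)
    (h0 : ∀ p, Good D p → p.m = 0 → Lim (crit J D b) p (C p)) {t : ℝ} (ht : 0 < t) :
    ∃ B : ℝ, ∀ n > 0, Integrable (fun x : Fin n → ℂ =>
      (∏ i, D.indicator (fun _ => (1 : ℝ)) (x i)) * C ⟨n, 0, x, ![], ![]⟩) ∧
      ∫ x : Fin n → ℂ, |(∏ i, D.indicator (fun _ => (1 : ℝ)) (x i)) * C ⟨n, 0, x, ![], ![]⟩| ≤
        B * (n ! / t ^ n) := by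
  obtain ⟨M, hM⟩ := hG
  refine ⟨Real.exp (t * ((1 + M) / 2) + t ^ 2 * M / 2), fun n hn => ?_⟩
  refine Cv.fatou atTop (fun (m : ℕ) (x : Fin n → ℂ) =>
    (∏ i, (Km D m).indicator (fun _ => (1 : ℝ)) (x i)) * C ⟨n, 0, x, ![], ![]⟩) _ _
    (Eventually.of_forall fun m => ?_) (Eventually.of_forall fun x => ?_)
  · have cK := Km_compact hD m
    have tK := test_ind cK.measurableSet cK.isBounded
    refine lim_le hJ hD cK ho (Km_sub m) h0 hn (f := fun _ => (Km D m).indicator fun _ => (1 : ℝ))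
      (fun _ => ⟨tK, Set.support_indicator_subset⟩) ?_
    filter_upwards [inside hD cK ho (Km_sub m)] with a ⟨ha, h3⟩
    simp only [ind_abs, Finset.prod_const, Finset.card_univ, Fintype.card_fin]
    obtain ⟨g, hg⟩ : ∃ g, g = (Km D m).indicator fun _ => (1 : ℝ) := ⟨_, rfl⟩
    have g0 : ∀ x, 0 ≤ g x := fun x => hg ▸ Set.indicator_nonneg (fun _ _ => zero_le_one) x
    have g1 : ∀ x, |g x| ≤ 1 := fun x => by by_cases h : x ∈ Km D m <;> simp [hg, h]
    have g2 : Function.support g ⊆ Km D m := hg ▸ Set.support_indicator_subset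
    rw [← hg] at tK
    have h4 := plus_mom hJ (disc D a) (c := C13.cf a g) (fun i => integral_nonneg fun x =>
      Set.indicator_nonneg (fun y _ => mul_nonneg (g0 y) (Real.rpow_nonneg ha.le _)) x)
      (C13.smear_eq tK fun x hx => h3 x (g2 hx)) ht.le n
    have b2 : gibbs J 0 (fun _ => 0) (Kc / J) (some bcp) (disc D a)
        (fun σ => smear a g σ ^ 2) ≤ M := hM a ha g tK.1 g1 (g2.trans (Km_sub m))
    obtain ⟨ρ, hρ⟩ := P144M13.gibbs_law J 0 (fun _ => 0) (Kc / J) (some bcp) (disc D a) id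
    have b1 : gibbs J 0 (fun _ => 0) (Kc / J) (some bcp) (disc D a) (smear a g) ≤ (1 + M) / 2 := by
      have k1 := integral_mono (hρ (smear a g)).1
        (hρ fun σ => 1 / 2 + 1 / 2 * smear a g σ ^ 2).1
        fun σ => by nlinarith [sq_nonneg (smear a g σ - 1)]
      rw [integral_add (integrable_const _) (hρ _).1, integral_const_mul, integral_const,
        (hρ _).2, (hρ _).2] at k1
      simp only [probReal_univ, smul_eq_mul, one_mul, id] at k1
      exact k1.trans (by linarith)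
    have p : (0 : ℝ) < t ^ n / n ! := by positivity
    rw [← inv_div (t ^ n), ← div_eq_mul_inv, le_div_iff₀ p, mul_comm]
    change _ * gibbs J 0 (fun _ => 0) (Kc / J) (some bcp) (disc D a)
      (fun σ => smear a ((Km D m).indicator fun _ => (1 : ℝ)) σ ^ n) ≤ _
    rw [← hg]
    refine h4.trans (Real.exp_le_exp.2 (add_le_add (mul_le_mul_of_nonneg_left b1 ht.le) ?_))
    exact div_le_div_of_nonneg_right (mul_le_mul_of_nonneg_left b2 (sq_nonneg t)) zero_le_two
  · refine tendsto_const_nhds.congr' ?_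
    have k : ∀ i, ∀ᶠ m in atTop, D.indicator (fun _ => (1 : ℝ)) (x i) =
        (Km D m).indicator (fun _ => (1 : ℝ)) (x i) := fun i => by
      by_cases h : x i ∈ D
      · filter_upwards [Km_ev ho h] with m hm
        rw [Set.indicator_of_mem h, Set.indicator_of_mem hm]
      · refine Eventually.of_forall fun m => ?_
        rw [Set.indicator_of_notMem h, Set.indicator_of_notMem fun h' => h (Km_sub m h')]
    filter_upwards [eventually_all.2 k] with m hm
    simp only [hm]

theorem prod_ind {f : Fin n → ℂ → ℝ} (hf : ∀ i, Function.support (f i) ⊆ D) (x : Fin n → ℂ)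
    (c : ℝ) : (∏ i, f i (x i)) * c =
      (∏ i, f i (x i)) * ((∏ i, D.indicator (fun _ => (1 : ℝ)) (x i)) * c) := by
  rw [← mul_assoc, ← Finset.prod_mul_distrib]
  congr 1
  refine Finset.prod_congr rfl fun i _ => ?_
  by_cases h : f i (x i) = 0
  · rw [h, zero_mul]
  · rw [Set.indicator_of_mem (hf i h), mul_one]

/-- Integrability up to the boundary. -/
theorem intB (hJ : 0 < J) (hD : Bornology.IsBounded D) (ho : IsOpen D) (hG : G2 J D)
    (h0 : ∀ p, Good D p → p.m = 0 → Lim (crit J D b) p (C p)) (hn : 0 < n)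
    {f : Fin n → ℂ → ℝ} (hf : ∀ i, Test (f i) ∧ Function.support (f i) ⊆ D) :
    Integrable (fun x : Fin n → ℂ => (∏ i, f i (x i)) * C ⟨n, 0, x, ![], ![]⟩) := by
  obtain ⟨B, hB⟩ := ind_le hJ hD ho hG h0 one_pos
  choose A hA using fun i => (hf i).1.2.1
  refine ((hB n hn).1.bdd_mul (f := fun x : Fin n → ℂ => ∏ i, f i (x i)) (c := ∏ i, A i)
    (Finset.measurable_prod _ fun i _ =>
      (hf i).1.1.comp (measurable_pi_apply i)).aestronglyMeasurable
    (Eventually.of_forall fun x => ?_)).congr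
    (Eventually.of_forall fun x => (prod_ind (fun i => (hf i).2) x _).symm)
  rw [Real.norm_eq_abs, Finset.abs_prod]
  exact Finset.prod_le_prod (fun _ _ => abs_nonneg _) fun i _ => hA i _

theorem growthB (hJ : 0 < J) (hD : Bornology.IsBounded D) (ho : IsOpen D) (hG : G2 J D)
    (h0 : ∀ p, Good D p → p.m = 0 → Lim (crit J D b) p (C p)) {k : ℕ}
    {f : Fin k → ℂ → ℝ} (hf : ∀ i, Test (f i) ∧ Function.support (f i) ⊆ D) (t : Fin k → ℝ)
    {Z : ℝ} (hZ : 0 < Z) :
    Tendsto (fun q : ℕ => (∑ i : Fin (2 * q) → Fin k, (∏ j, t (i j)) * (Z ^ (2 * q) *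
      ∫ x : Fin (2 * q) → ℂ, (∏ j, f (i j) (x j)) * C ⟨2 * q, 0, x, ![], ![]⟩)) / (2 * q)!)
      atTop (𝓝 0) := by
  have hg : Test (fun x => ∑ i, t i * f i x) ∧ Function.support (fun x => ∑ i, t i * f i x) ⊆ D :=
    ⟨C13.test_sum (fun i => (hf i).1) t, fun x hx => by
      obtain ⟨i, -, hi⟩ := Finset.exists_ne_zero_of_sum_ne_zero hx
      exact (hf i).2 (right_ne_zero_of_mul hi)⟩
  obtain ⟨A, hA⟩ := hg.1.2.1
  have A0 : 0 < A + 1 := by linarith [(abs_nonneg _).trans (hA 0)]
  obtain ⟨B, hB⟩ := ind_le hJ hD ho hG h0 (show 0 < 2 * Z * (A + 1) by positivity)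
  have lim : Tendsto (fun q : ℕ => B * (1 / 4 : ℝ) ^ q) atTop (𝓝 0) := by
    simpa using (tendsto_pow_atTop_nhds_zero_of_lt_one (r := (1 / 4 : ℝ)) (by norm_num)
      (by norm_num)).const_mul B
  refine squeeze_zero_norm' ?_ lim
  filter_upwards [eventually_gt_atTop 0] with q hq
  obtain ⟨h1, h2⟩ := hB (2 * q) (by omega)
  have h3 : ∫ x : Fin (2 * q) → ℂ, |(∏ j, ∑ i, t i * f i (x j)) * C ⟨2 * q, 0, x, ![], ![]⟩| ≤
      (A + 1) ^ (2 * q) * (B * ((2 * q)! / (2 * Z * (A + 1)) ^ (2 * q))) := by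
    refine le_trans ?_ (mul_le_mul_of_nonneg_left h2 (by positivity))
    rw [← integral_const_mul]
    refine integral_mono (intB hJ hD ho hG h0 (by omega) fun _ => hg).abs (h1.abs.const_mul _)
      fun x => ?_
    show |_| ≤ _ * |_|
    rw [prod_ind (f := fun _ x => ∑ i, t i * f i x) (fun _ => hg.2), abs_mul, Finset.abs_prod]
    refine mul_le_mul_of_nonneg_right ((Finset.prod_le_prod (fun _ _ => abs_nonneg _)
      fun j _ => (hA (x j)).trans (lt_add_one A).le).trans (le_of_eq ?_)) (abs_nonneg _)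
    rw [Finset.prod_const, Finset.card_univ, Fintype.card_fin]
  have e : ∑ i : Fin (2 * q) → Fin k, (∏ j, t (i j)) * (Z ^ (2 * q) *
      ∫ x : Fin (2 * q) → ℂ, (∏ j, f (i j) (x j)) * C ⟨2 * q, 0, x, ![], ![]⟩) = Z ^ (2 * q) *
      ∫ x : Fin (2 * q) → ℂ, (∏ j, ∑ i, t i * f i (x j)) * C ⟨2 * q, 0, x, ![], ![]⟩ := by
    simp only [mul_left_comm _ (Z ^ (2 * q))]
    rw [← Finset.mul_sum]
    congr 1
    simp only [← integral_const_mul]
    rw [← integral_finsetSum _ fun (i : Fin (2 * q) → Fin k) _ =>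
      (intB hJ hD ho hG h0 (by omega) fun j => hf (i j)).const_mul _]
    congr 1
    funext x
    rw [Finset.prod_univ_sum, Fintype.piFinset_univ, Finset.sum_mul]
    refine Finset.sum_congr rfl fun i _ => ?_
    rw [Finset.prod_mul_distrib, mul_assoc]
  have p : (0 : ℝ) < (2 * q)! := by positivity
  rw [e, Real.norm_eq_abs, abs_div, abs_mul, abs_of_pos p, abs_of_pos (pow_pos hZ _),
    div_le_iff₀ p]
  refine (mul_le_mul_of_nonneg_left ((abs_integral_le_integral_abs).trans h3)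
    (pow_pos hZ _).le).trans (le_of_eq ?_)
  rw [mul_pow (2 * Z), mul_pow 2 Z, pow_mul 2, one_div, inv_pow]
  have := (pow_pos hZ (2 * q)).ne'
  have := (pow_pos A0 (2 * q)).ne'
  field_simp
  norm_num

/-- The joint laws up to the boundary. -/
theorem lawB_of {lam β Z : ℝ} {V : Finset Site → ℝ} (hJ : 0 < J) (hD : Bornology.IsBounded D)
    (ho : IsOpen D) (hZ : 0 < Z) (hG : G2 J D)
    (h0 : ∀ p, Good D p → p.m = 0 → Lim (crit J D b) p (C p))
    (hM : MomB D (inDom J lam V β D b) Z C) : LawB D (inDom J lam V β D b) Z C := by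
  intro k f hf
  choose m hm using fun a => P144M13.gibbs_law J lam V β (b.map fun η => η a) (disc D a)
    fun σ => (WithLp.toLp 2 fun i => smear a (f i) σ : EuclideanSpace ℝ (Fin k))
  obtain ⟨ν, n1, n2, n3⟩ := moments (l := 𝓝[>] (0 : ℝ)) m (fun n i => if n = 0 then 1 else
    Z ^ n * ∫ x : Fin n → ℂ, (∏ j, f (i j) (x j)) * C ⟨n, 0, x, ![], ![]⟩)
    (fun a n i => (hm a _).1) (fun n i => by
      rcases n.eq_zero_or_pos with rfl | hn
      · simp
      · simp only [(hm _ _).2, if_neg hn.ne']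
        exact (hM n hn _ fun j => hf (i j)).2)
    fun t => by
      refine (growthB hJ hD ho hG h0 hf (fun i => t i) hZ).congr' ?_
      filter_upwards [eventually_gt_atTop 0] with q hq
      simp only [if_neg (show 2 * q ≠ 0 by omega)]
  refine ⟨ν, ⟨ν.2, fun n hn i => ?_⟩,
    fun Q hQ => congrArg Subtype.val (n2 ⟨Q, hQ.1⟩ fun n i => ?_), fun F => ?_⟩
  · simpa only [if_neg hn.ne'] using n1 n i
  · rcases n.eq_zero_or_pos with rfl | hn
    · have := hQ.1
      simp
    · rw [if_neg hn.ne']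
      exact hQ.2 n hn i
  · exact (ProbabilityMeasure.tendsto_iff_forall_integral_tendsto.1 n3 F).congr
      fun a => (hm a _).2

end Vale.Agent.N144.Lw
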