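import Vale.Agent.N144.W.Blk

/-!
Moments of the smeared spin field in boundary layers and in the whole domain.
-/

set_option linter.all false

noncomputable section

namespace Vale.Agent.N144.Sf.Bk

open MeasureTheory Filter Topology Metric Vale.Agent.P144 Vale.Agent.P144Z Vale.Agent.P144W
open Vale.Agent.P144F58 Vale.Agent.P144W.Sp

variable {E : Fam} {μ : Measure (ℝ → Config)} {K D S : Set ℂ} {n : ℕ} {g : ℂ → ℝ}

/-- test functions bounded by one that vanish outside a set -/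
structure Tg (S : Set ℂ) (g : ℂ → ℝ) : Prop where
  meas : Measurable g
  bd : ∀ x, |g x| ≤ 1
  sup : ∀ x, g x ≠ 0 → x ∈ S

theorem Tg.tf {z : ℂ} {ε : ℝ} (h : Tg S g) (hS : S ⊆ ball z ε) : Tf z ε g :=
  ⟨h.meas, h.bd, fun x hx => hS (h.sup x hx)⟩

theorem Tg.mono {S' : Set ℂ} (h : Tg S g) (hS : S ⊆ S') : Tg S' g :=
  ⟨h.meas, h.bd, fun x hx => hS (h.sup x hx)⟩

theorem Tg.cut {s : Set ℂ} (h : Tg S g) (hs : MeasurableSet s) : Tg (S ∩ s) (pc g s) :=
  ⟨h.meas.indicator hs, fun x => (pc_abs g s x).trans (h.bd x),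
    fun x e => ⟨h.sup x (pc_ne e).2, (pc_ne e).1⟩⟩

theorem facts (h : IsProbabilityMeasure μ) {a : ℝ} (ha : 0 < a) {z ε} (hg : Tf z ε g) :
    Sml.BM (fun ω : ℝ → Config => smear a g (ω a)) ∧
      ∀ ω : ℝ → Config, |smear a g (ω a)| ≤ a ^ (-(1 / 8) : ℝ) * ∫ x, |g x| := by
  have k := (fub _ μ _ (fd_one (K := ball z ε) measurableSet_ball isBounded_ball h ha) a ha).1
    z ε g hg
  have e : sm (p1 (ball z ε) a) a g = fun ω => smear a g (ω a) := funext (sm_one hg.sup a)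
  rw [e] at k
  exact ⟨⟨k.1, _, k.2.2.2.1⟩, k.2.2.2.1⟩

theorem smear_int {z ε} (hg : Tf z ε g) (a : ℝ) (σ : Config) :
    Integrable fun x => g x * (a ^ (-(1 / 8) : ℝ) * sp (σ (fl a x))) :=
  hg.int.mul_bdd (c := |a ^ (-(1 / 8) : ℝ)|)
    ((spin_meas a).comp (f := fun x : ℂ => (x, σ))
      (measurable_id.prodMk measurable_const)).aestronglyMeasurable
    (Eventually.of_forall fun x => by rw [Real.norm_eq_abs, abs_mul, abs_sp, mul_one])

theorem smear_split {z ε} (hg : Tf z ε g) {s : Set ℂ} (hs : MeasurableSet s) (a : ℝ) (σ : Config) :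
    smear a g σ = smear a (pc g s) σ + smear a (pc g sᶜ) σ := by
  unfold smear
  rw [← integral_add (smear_int (pc_tf hg hs fun x _ => hg.sup x) a σ)
    (smear_int (pc_tf hg hs.compl fun x _ => hg.sup x) a σ)]
  refine integral_congr_ae (Eventually.of_forall fun x => ?_)
  simp only [pc, ← add_mul, Set.indicator_self_add_compl_apply]

/-- the points at distance at least `t` from the complement -/
def Kt (D : Set ℂ) (t : ℝ) : Set ℂ := {x | ball x t ⊆ D}

theorem kt_closed (D : Set ℂ) (t : ℝ) : IsClosed (Kt D t) := by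
  have : Kt D t = (thickening t Dᶜ)ᶜ := by
    ext x
    simp only [Kt, Set.mem_setOf_eq, Set.mem_compl_iff, mem_thickening_iff, not_exists, not_and]
    exact ⟨fun h z hz hd => hz (h (mem_ball'.2 hd)), fun h z hz => by
      by_contra hn
      exact h z hn (mem_ball'.1 hz)⟩
  rw [this]
  exact isOpen_thickening.isClosed_compl

theorem kt_sub {t : ℝ} (ht : 0 < t) : Kt D t ⊆ D := fun x hx => hx (mem_ball_self ht)

theorem kt_compact (hD : Bornology.IsBounded D) {t : ℝ} (ht : 0 < t) : IsCompact (Kt D t) :=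
  Metric.isCompact_of_isClosed_isBounded (kt_closed D t) (hD.subset (kt_sub ht))

/-- sums over boxes -/
theorem boxes (h : IsProbabilityMeasure μ) (hn : Even n) (h0 : n ≠ 0) {A κ ε₀ : ℝ} (hA : 0 < A)
    (hκ : 1 ≤ κ) (hB : Blk D μ n A κ ε₀) {a s t R : ℝ} (ha : 0 < a) (hs : 0 < s) (h1 : 2 * s ≤ ε₀)
    (h2 : 4 * κ * s ≤ t) (W : Finset (ℤ × ℤ)) (hg : Tf 0 R g)
    (hW : ∀ x, g x ≠ 0 → x ∈ Kt D t ∧ bx s x ∈ W) :
    ∫ ω, smear a g (ω a) ^ n ∂μ ≤ (W.card * (A * (2 * s) ^ (15 / 8 : ℝ))) ^ n := by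
  have F := fd_one (K := ball 0 R) measurableSet_ball isBounded_ball h ha
  obtain ⟨s1, -⟩ := sm_sum fub F ha W (bx_meas s) hg fun x e => (hW x e).2
  have ms : ∀ w : W, MeasurableSet {y | bx s y = w} := fun w =>
    bx_meas s (measurableSet_singleton w.1)
  have t1 : ∀ w : W, Tf 0 R (pc g {y | bx s y = w}) := fun w =>
    pc_tf hg (ms w) fun x _ => hg.sup x
  simp only [sm_one hg.sup, sm_one (t1 _).sup] at s1
  have := mink (μ := μ) (Finset.univ : Finset W)
    (X := fun w ω => smear a (pc g {y | bx s y = w}) (ω a))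
    (r := fun _ => A * (2 * s) ^ (15 / 8 : ℝ)) hn h0 (fun _ _ => by positivity)
    (fun w _ => ((facts h ha (t1 w)).1.pow n).int μ) fun w _ => ?_
  · simpa only [← s1, Finset.sum_const, Finset.card_univ, Fintype.card_coe, nsmul_eq_mul]
      using this
  by_cases e : ∀ x, pc g {y | bx s y = w} x = 0
  · simp only [smear, e, zero_mul, integral_zero, zero_pow h0]
    positivity
  obtain ⟨x, hx⟩ := not_forall.1 e
  have k : ∀ y, bx s y = w → y ∈ ball (⟨s * w.1.1, s * w.1.2⟩ : ℂ) (2 * s) := fun y e => by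
    have := bx_ball hs y
    rwa [e] at this
  refine hB a ha _ (by positivity) h1 _ _ (fun y hy => (hW x (pc_ne hx).2).1 ?_)
    (pc_tf hg (ms w) fun y e _ => k y e)
  have y1 := mem_ball.1 hy
  have y2 := mem_ball.1 (k x (pc_ne hx).1)
  have y3 := dist_triangle_right y x (⟨s * w.1.1, s * w.1.2⟩ : ℂ)
  rw [mem_ball]
  nlinarith

/-- thin layers -/
def LayL (D : Set ℂ) : Prop :=
  ∃ C : ℝ, ∀ t > (0 : ℝ), volume {x | (ball x t ∩ D).Nonempty ∧ ¬ball x t ⊆ D} ≤
    ENNReal.ofReal (C * (t + t ^ 2))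

theorem lay_le (hL : LayL D) : ∃ C > (0 : ℝ), ∀ t > (0 : ℝ), t ≤ 2 →
    volume {x | (ball x t ∩ D).Nonempty ∧ ¬ball x t ⊆ D} ≤ ENNReal.ofReal (C * t) := by
  obtain ⟨C, hC⟩ := hL
  refine ⟨3 * (|C| + 1), by positivity, fun t ht h2 =>
    (hC t ht).trans (ENNReal.ofReal_le_ofReal ?_)⟩
  have h1 : C * (t + t ^ 2) ≤ (|C| + 1) * (t + t ^ 2) :=
    mul_le_mul_of_nonneg_right (by linarith [le_abs_self C]) (by positivity)
  have h3 : (|C| + 1) * (t + t ^ 2) ≤ (|C| + 1) * (3 * t) :=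
    mul_le_mul_of_nonneg_left (by nlinarith) (by positivity)
  linarith

theorem cnt (hL : LayL D) : ∃ C > (0 : ℝ), ∀ s t : ℝ, 0 < s → 4 * s ≤ t → t ≤ 1 →
    ∀ W : Finset (ℤ × ℤ), (∀ w ∈ W, ∃ x ∈ D, bx s x = w ∧ ¬ball x t ⊆ D) →
      W.card * s ^ 2 ≤ C * t := by
  obtain ⟨C, C0, hC⟩ := lay_le hL
  refine ⟨4 * C, by positivity, fun s t hs h1 h2 W hW => ?_⟩
  have ht : 0 < t := by linarith
  let B : ℤ × ℤ → Set ℂ := fun w => ball ⟨s * (w.1 + 1 / 2), s * (w.2 + 1 / 2)⟩ (s / 2)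
  have k : ∀ w, ∀ y ∈ B w, bx s y = w := fun w y hy => by
    have hy := mem_ball.1 hy
    rw [dist_eq_norm] at hy
    have a := abs_lt.1 ((Complex.abs_re_le_norm _).trans_lt hy)
    have b := abs_lt.1 ((Complex.abs_im_le_norm _).trans_lt hy)
    simp only [Complex.sub_re, Complex.sub_im] at a b
    refine Prod.ext ?_ ?_ <;> simp only [bx] <;> rw [Int.floor_eq_iff, le_div_iff₀ hs,
      div_lt_iff₀ hs] <;> constructor <;> linarith [a.1, a.2, b.1, b.2]
  have v : volume (⋃ w ∈ W, B w) = ∑ w ∈ W, volume (B w) :=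
    measure_biUnion_finset (fun w _ w' _ e => Set.disjoint_left.2 fun y h h' =>
      e ((k w y h).symm.trans (k w' y h'))) fun _ _ => measurableSet_ball
  have u : (⋃ w ∈ W, B w) ⊆ {x | (ball x (2 * t) ∩ D).Nonempty ∧ ¬ball x (2 * t) ⊆ D} := by
    intro y hy
    obtain ⟨w, hw, hy⟩ := Set.mem_iUnion₂.1 hy
    obtain ⟨x, xD, e, hx⟩ := hW w hw
    have y1 := mem_ball.1 (bx_ball hs x)
    have y2 := mem_ball.1 (bx_ball hs y)
    rw [e] at y1
    rw [k w y hy] at y2
    have y3 := dist_triangle_right x y (⟨s * w.1, s * w.2⟩ : ℂ)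
    refine ⟨⟨x, mem_ball.2 (by linarith), xD⟩, fun h => hx fun p hp => h ?_⟩
    have y4 := mem_ball.1 hp
    have y5 := dist_triangle p x y
    rw [mem_ball]
    linarith
  have w := (v.symm.le.trans (measure_mono u)).trans (hC (2 * t) (by linarith) (by linarith))
  have e : ∀ w, volume (B w) = ENNReal.ofReal ((s / 2) ^ 2 * Real.pi) := fun w => by
    rw [Complex.volume_ball, ENNReal.ofReal_mul (by positivity),
      ENNReal.ofReal_pow (by positivity), ← NNReal.coe_real_pi, ENNReal.ofReal_coe_nnreal]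
  simp only [e, Finset.sum_const, nsmul_eq_mul] at w
  rw [← ENNReal.ofReal_natCast, ← ENNReal.ofReal_mul (by positivity),
    ENNReal.ofReal_le_ofReal_iff (by positivity)] at w
  have p : 0 ≤ (W.card : ℝ) * s ^ 2 := by positivity
  nlinarith [Real.two_le_pi]

/-- the moments in a boundary layer -/
theorem layer (h : Rp E μ) (hD : Bornology.IsBounded D) (hL : LayL D) (hS : SepL D E)
    (hn : Even n) (h0 : n ≠ 0) : ∃ M > (0 : ℝ), ∃ u₀ > (0 : ℝ), ∀ a > (0 : ℝ), ∀ u > (0 : ℝ),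
      u ≤ u₀ → ∀ g, Tg (D ∩ (Kt D (u ^ 2))ᶜ) g → ∫ ω, smear a g (ω a) ^ n ∂μ ≤ (M * u) ^ n := by
  classical
  haveI := h.1
  obtain ⟨A, κ, ε₀, hA, hκ, hε₀, hB⟩ := blk h hS hn h0
  obtain ⟨C, C0, hC⟩ := lay_le hL
  obtain ⟨C', C1, hC'⟩ := cnt hL
  obtain ⟨R, hR⟩ := hD.subset_ball 0
  obtain ⟨N, hN⟩ : ∃ N, N = 256 * C' * κ ^ 2 * A := ⟨_, rfl⟩
  have N0 : 0 < N := by rw [hN]; positivity
  refine ⟨C + 2 * N, by positivity, min 1 ε₀, by positivity, fun a ha => ?_⟩
  have base : ∀ u > (0 : ℝ), u ≤ 1 → u ^ 2 ≤ a → ∀ g, Tg (D ∩ (Kt D (u ^ 2))ᶜ) g →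
      ∫ ω, smear a g (ω a) ^ n ∂μ ≤ ((C + 2 * N) * u) ^ n := by
    intro u hu u1 ua g hg
    have u2 : 0 < u ^ 2 := by positivity
    have tf : Tf 0 R g := hg.tf (Set.inter_subset_left.trans hR)
    have v := hC (u ^ 2) u2 (by nlinarith)
    have a1 : ∫ x, |g x| ≤ C * u ^ 2 := by
      rw [integral_eq_lintegral_of_nonneg_ae (Eventually.of_forall fun x => abs_nonneg _)
        hg.meas.abs.aestronglyMeasurable]
      refine ENNReal.toReal_le_of_le_ofReal (by positivity) (le_trans ?_ v)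
      refine le_trans (lintegral_mono fun x => ?_) (lintegral_indicator_one_le _)
      by_cases e : g x = 0
      · simp [e]
      · rw [Set.indicator_of_mem (show x ∈ {x | (ball x (u ^ 2) ∩ D).Nonempty ∧
          ¬ball x (u ^ 2) ⊆ D} from ⟨⟨x, mem_ball_self u2, (hg.sup x e).1⟩, (hg.sup x e).2⟩)]
        simpa using hg.bd x
    have a2 : a ^ (-(1 / 8) : ℝ) ≤ u⁻¹ := by
      refine (Real.rpow_le_rpow_of_nonpos u2 ua (by norm_num)).trans ?_
      rw [← Real.rpow_natCast, ← Real.rpow_mul hu.le, ← Real.rpow_neg_one]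
      exact Real.rpow_le_rpow_of_exponent_ge hu u1 (by norm_num)
    have a3 : ∀ ω : ℝ → Config, |smear a g (ω a)| ≤ (C + 2 * N) * u := fun ω => by
      refine ((facts h.1 ha tf).2 ω).trans ((mul_le_mul a2 a1
        (integral_nonneg fun x => abs_nonneg _) (by positivity)).trans ?_)
      rw [show u⁻¹ * (C * u ^ 2) = C * u by field_simp]
      nlinarith
    refine (integral_mono_of_nonneg (Eventually.of_forall fun ω => hn.pow_nonneg _)
      (integrable_const (((C + 2 * N) * u) ^ n)) (Eventually.of_forall fun ω => ?_)).trans (by simp)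
    show _ ^ n ≤ _
    rw [← hn.pow_abs]
    exact pow_le_pow_left₀ (abs_nonneg _) (a3 ω) n
  have ind : ∀ k : ℕ, ∀ u > (0 : ℝ), u ≤ min 1 ε₀ → u ^ 2 * (1 / 4) ^ k ≤ a →
      ∀ g, Tg (D ∩ (Kt D (u ^ 2))ᶜ) g →
        ∫ ω, smear a g (ω a) ^ n ∂μ ≤ ((C + 2 * N) * u) ^ n := by
    intro k
    induction k with
    | zero => exact fun u hu u1 ua => base u hu (u1.trans (min_le_left _ _)) (by simpa using ua)
    | succ k ih =>
      intro u hu u0 ua g hg
      have u1 : u ≤ 1 := u0.trans (min_le_left _ _)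
      have u2 : u ≤ ε₀ := u0.trans (min_le_right _ _)
      have u3 : u ^ 2 ≤ u := by nlinarith
      have tf : Tf 0 R g := hg.tf (Set.inter_subset_left.trans hR)
      have mK := (kt_closed D ((u / 2) ^ 2)).measurableSet
      have g1 := hg.cut mK
      have g2 := hg.cut mK.compl
      have t1 : Tf 0 R _ := g1.tf ((Set.inter_subset_left.trans Set.inter_subset_left).trans hR)
      have t2 : Tf 0 R _ := g2.tf ((Set.inter_subset_left.trans Set.inter_subset_left).trans hR)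
      have b2 := ih (u / 2) (by positivity) (by linarith) (by
        rw [pow_succ _ k] at ua
        linarith) _ (g2.mono fun x hx => ⟨hx.1.1, hx.2⟩)
      obtain ⟨s, hs⟩ : ∃ s, s = u ^ 2 / (16 * κ) := ⟨_, rfl⟩
      have s0 : 0 < s := by rw [hs]; positivity
      have s1 : 16 * κ * s = u ^ 2 := by rw [hs]; field_simp
      have s2 : 16 * s ≤ u ^ 2 := by nlinarith
      let W := (bxs s 0 R).filter fun w => ∃ x ∈ D, bx s x = w ∧ ¬ball x (u ^ 2) ⊆ D
      have c1 := hC' s (u ^ 2) s0 (by linarith) (by linarith) W fun w hw =>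
        (Finset.mem_filter.1 hw).2
      have b1 := boxes h.1 hn h0 hA hκ hB ha s0 (by linarith) (t := (u / 2) ^ 2) (by linarith) W t1
        fun x hx => ⟨(g1.sup x hx).2, Finset.mem_filter.2 ⟨mem_bxs s0 (t1.sup x hx),
          x, (g1.sup x hx).1.1, rfl, (g1.sup x hx).1.2⟩⟩
      have c2 : (2 * s) ^ (15 / 8 : ℝ) ≤ u ^ 3 := by
        refine (Real.rpow_le_rpow (by positivity) (show 2 * s ≤ u ^ 2 by linarith)
          (by norm_num)).trans ?_
        rw [← Real.rpow_natCast, ← Real.rpow_mul hu.le, ← Real.rpow_natCast]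
        exact Real.rpow_le_rpow_of_exponent_ge hu u1 (by norm_num)
      have c3 : (W.card : ℝ) * u ^ 2 ≤ 256 * C' * κ ^ 2 := by
        refine le_of_mul_le_mul_right ?_ (show 0 < u ^ 2 by positivity)
        calc (W.card : ℝ) * u ^ 2 * u ^ 2 = 256 * κ ^ 2 * (W.card * s ^ 2) := by
              rw [mul_assoc, ← s1]; ring
          _ ≤ 256 * κ ^ 2 * (C' * u ^ 2) := by gcongr
          _ = _ := by ring
      have c4 : (W.card : ℝ) * (A * (2 * s) ^ (15 / 8 : ℝ)) ≤ N * u := by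
        calc (W.card : ℝ) * (A * (2 * s) ^ (15 / 8 : ℝ)) ≤ W.card * (A * u ^ 3) := by gcongr
          _ = W.card * u ^ 2 * (A * u) := by ring
          _ ≤ 256 * C' * κ ^ 2 * (A * u) := by gcongr
          _ = N * u := by rw [hN]; ring
      have := mink2 hn h0 (show 0 < N * u by positivity) (by positivity)
        (((facts h.1 ha t1).1.pow n).int μ) (((facts h.1 ha t2).1.pow n).int μ)
        (b1.trans (pow_le_pow_left₀ (by positivity) c4 n)) b2
      simp only [← smear_split tf mK] at this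
      refine this.trans (pow_le_pow_left₀ (by positivity) ?_ n)
      nlinarith
  intro u hu u0
  obtain ⟨k, hk⟩ := exists_pow_lt_of_lt_one (div_pos ha (pow_pos hu 2))
    (show (1 / 4 : ℝ) < 1 by norm_num)
  rw [lt_div_iff₀ (pow_pos hu 2)] at hk
  exact ind k u hu u0 (by linarith)

/-- the moments in the whole domain -/
theorem glob (h : Rp E μ) (hD : Bornology.IsBounded D) (hL : LayL D) (hS : SepL D E)
    (hn : Even n) (h0 : n ≠ 0) : ∃ M > (0 : ℝ), ∀ a > (0 : ℝ), ∀ g, Tg D g →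
      ∫ ω, smear a g (ω a) ^ n ∂μ ≤ M ^ n := by
  haveI := h.1
  obtain ⟨A, κ, ε₀, hA, hκ, hε₀, hB⟩ := blk h hS hn h0
  obtain ⟨M, M0, u, hu, hM⟩ := layer h hD hL hS hn h0
  obtain ⟨R, hR⟩ := hD.subset_ball 0
  obtain ⟨s, s0, s1, s2⟩ : ∃ s : ℝ, 0 < s ∧ 2 * s ≤ ε₀ ∧ 4 * κ * s ≤ u ^ 2 := by
    refine ⟨min (ε₀ / 2) (u ^ 2 / (4 * κ)), by positivity, ?_, ?_⟩
    · linarith [min_le_left (ε₀ / 2) (u ^ 2 / (4 * κ))]
    · rw [mul_comm, ← le_div_iff₀ (by positivity)]
      exact min_le_right _ _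
  refine ⟨((bxs s 0 R).card * (A * (2 * s) ^ (15 / 8 : ℝ)) + 1) + M * u, by positivity,
    fun a ha g hg => ?_⟩
  have mK := (kt_closed D (u ^ 2)).measurableSet
  have g1 := hg.cut mK
  have g2 := hg.cut mK.compl
  have t1 : Tf 0 R _ := g1.tf (Set.inter_subset_left.trans hR)
  have t2 : Tf 0 R _ := g2.tf (Set.inter_subset_left.trans hR)
  have b1 := boxes h.1 hn h0 hA hκ hB ha s0 s1 s2 (bxs s 0 R) t1
    fun x hx => ⟨(g1.sup x hx).2, mem_bxs s0 (t1.sup x hx)⟩
  have := mink2 hn h0 (by positivity) (by positivity)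
    (((facts h.1 ha t1).1.pow n).int μ) (((facts h.1 ha t2).1.pow n).int μ)
    (b1.trans (pow_le_pow_left₀ (by positivity) (le_add_of_nonneg_right zero_le_one) n))
    (hM a ha u hu le_rfl _ g2)
  simpa only [← smear_split (hg.tf hR) mK] using this

end Vale.Agent.N144.Sf.Bk
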