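import Vale.Agent.N144.W.Defs
import Vale.Agent.N144.Sf.Soft

/-!
The moments of the spin field converge up to the boundary.
-/

set_option linter.all false

noncomputable section

namespace Vale.Agent.N144.WM

open MeasureTheory Filter Topology Metric Set Vale.Agent.P144 Vale.Agent.P144F58
open Vale.Agent.P144Z

/-- The second moment of the field in a thin layer is small. -/
def Layer (D : Set ℂ) (E : Fam) : Prop :=
  ∃ M u₀ : ℝ, 0 < u₀ ∧ ∀ a > (0 : ℝ), ∀ u : ℝ, 0 < u → u ≤ u₀ → ∀ g : ℂ → ℝ, Measurable g →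
    (∀ x, |g x| ≤ 1) → (∀ x, g x ≠ 0 → x ∈ D ∧ ¬ball x (u ^ 2) ⊆ D) →
    E a (fun σ => smear a g σ ^ 2) ≤ (M * u) ^ 2

/-- The even moments of the field are bounded. -/
def Glob (D : Set ℂ) (E : Fam) : Prop :=
  ∀ n : ℕ, Even n → ∃ M : ℝ, ∀ a > (0 : ℝ), ∀ g : ℂ → ℝ, Measurable g → (∀ x, |g x| ≤ 1) →
    Function.support g ⊆ D → E a (fun σ => smear a g σ ^ n) ≤ M ^ n

theorem prod_le {ι : Type} [DecidableEq ι] {x y : ι → ℝ} {T : ℝ} (hT : 1 ≤ T)
    (hx : ∀ i, |x i| ≤ T) (hy : ∀ i, |y i| ≤ T) (s : Finset ι) :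
    |∏ i ∈ s, x i - ∏ i ∈ s, y i| ≤ T ^ s.card * ∑ i ∈ s, |x i - y i| := by
  induction s using Finset.induction_on with
  | empty => simp
  | insert j s hj ih =>
    have h1 : |∏ i ∈ s, y i| ≤ T ^ s.card := by
      rw [Finset.abs_prod, ← Finset.prod_const]
      exact Finset.prod_le_prod (fun i _ => abs_nonneg _) fun i _ => hy i
    have h2 : T ^ s.card ≤ T ^ s.card * T := le_mul_of_one_le_right (by positivity) hT
    rw [Finset.prod_insert hj, Finset.prod_insert hj, Finset.sum_insert hj,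
      Finset.card_insert_of_notMem hj, show x j * ∏ i ∈ s, x i - y j * ∏ i ∈ s, y i =
        (∏ i ∈ s, y i) * (x j - y j) + x j * (∏ i ∈ s, x i - ∏ i ∈ s, y i) by ring, mul_add,
      pow_succ]
    refine (abs_add_le _ _).trans (add_le_add ?_ ?_)
    · rw [abs_mul]
      exact mul_le_mul_of_nonneg_right (h1.trans h2) (abs_nonneg _)
    · rw [abs_mul, mul_comm _ T, mul_assoc]
      exact mul_le_mul (hx j) ih (abs_nonneg _) (by positivity)

theorem prod_diff {n : ℕ} (hn : 0 < n) (x y : Fin n → ℝ) {u : ℝ} (hu : 0 < u) :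
    |∏ i, x i - ∏ i, y i| ≤
      ∑ i, (u * (1 + ∑ j, (x j ^ (2 * n) + y j ^ (2 * n))) + u⁻¹ * (x i - y i) ^ 2) := by
  have ev : Even (2 * n) := even_two_mul n
  have p0 : ∀ j, 0 ≤ x j ^ (2 * n) + y j ^ (2 * n) := fun j =>
    add_nonneg (ev.pow_nonneg _) (ev.pow_nonneg _)
  have p1 := fun j => Finset.single_le_sum (fun j _ => p0 j) (Finset.mem_univ j)
  have p2 := Finset.sum_nonneg fun j (_ : j ∈ Finset.univ) => p0 j
  generalize ∑ j, (x j ^ (2 * n) + y j ^ (2 * n)) = Q at p1 p2
  have n0 : 2 * n ≠ 0 := by omega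
  have e := Real.rpow_inv_natCast_pow (show 0 ≤ 1 + Q by linarith) n0
  have T0 : 0 ≤ (1 + Q) ^ (((2 * n : ℕ) : ℝ)⁻¹) := by positivity
  generalize (1 + Q) ^ (((2 * n : ℕ) : ℝ)⁻¹) = T at e T0
  have k : ∀ v : ℝ, v ^ (2 * n) ≤ 1 + Q → |v| ≤ T := fun v hv => by
    rw [← pow_le_pow_iff_left₀ (abs_nonneg v) T0 n0, ev.pow_abs, e]
    exact hv
  have h := prod_le (x := x) (y := y) (T := T) (by simpa using k 1 (by rw [one_pow]; linarith))
    (fun i => k _ (by linarith [p1 i, ev.pow_nonneg (y i)]))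
    (fun i => k _ (by linarith [p1 i, ev.pow_nonneg (x i)])) Finset.univ
  rw [Finset.card_univ, Fintype.card_fin, Finset.mul_sum] at h
  refine h.trans (Finset.sum_le_sum fun i _ => ?_)
  rw [← e, mul_comm 2 n, pow_mul, ← sq_abs (x i - y i)]
  have q0 : 0 ≤ T ^ n * |x i - y i| := by positivity
  generalize |x i - y i| = d at q0 ⊢
  generalize T ^ n = S at q0 ⊢
  have : u * S ^ 2 + u⁻¹ * d ^ 2 - 2 * (S * d) = u⁻¹ * (u * S - d) ^ 2 := by
    field_simp
    ring
  have : 0 ≤ u⁻¹ * (u * S - d) ^ 2 := by positivity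
  linarith

theorem smear_div (a B : ℝ) (hB : 0 < B) (g : ℂ → ℝ) (σ : Config) :
    smear a g σ = B * smear a (fun x => g x / B) σ := by
  rw [smear, smear, ← integral_const_mul]
  congr 1
  funext x
  field_simp

/-- The moments converge. -/
theorem momB_of {J lam β Z Zε : ℝ} {V : Finset Site → ℝ} {D : Set ℂ} {b : Option (ℝ → Config)}
    {C : Pts → ℝ} (hJ : 0 < J) (hD : Bornology.IsBounded D) (ho : IsOpen D)
    (hL : LocDiff D (crit J D b) (inDom J lam V β D b) Z Zε) (hS : SepD D (inDom J lam V β D b))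
    (h0 : ∀ p, Good D p → p.m = 0 → Lim (crit J D b) p (C p))
    (h1 : Layer D (inDom J lam V β D b)) (h2 : Glob D (inDom J lam V β D b))
    (hI : ∀ n > 0, ∀ f : Fin n → ℂ → ℝ, (∀ i, Test (f i) ∧ Function.support (f i) ⊆ D) →
      Integrable (fun x : Fin n → ℂ => (∏ i, f i (x i)) * C ⟨n, 0, x, ![], ![]⟩)) :
    MomB D (inDom J lam V β D b) Z C := by
  intro n hn f hf
  refine ⟨hI n hn f hf, ?_⟩
  choose ρ hρ using fun a => P144M13.gibbs_law J lam V β (b.map fun η => η a) (disc D a) id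
  have e : ∀ a G, ∫ σ, G σ ∂(ρ a : Measure Config) = inDom J lam V β D b a G :=
    fun a G => (hρ a G).2
  have ig : ∀ a (G : Config → ℝ), Integrable G (ρ a : Measure Config) := fun a G => (hρ a G).1
  obtain ⟨M₁, u₀, u0, h1⟩ := h1
  obtain ⟨M₂, h2⟩ := h2 (2 * n) (even_two_mul n)
  obtain ⟨B, B0, hB⟩ : ∃ B > (0 : ℝ), ∀ i x, |f i x| ≤ B := by
    choose B hB using fun i => (hf i).1.2.1
    have p := Finset.sum_nonneg fun j (_ : j ∈ Finset.univ) => abs_nonneg (B j)
    refine ⟨∑ i, |B i| + 1, by linarith, fun i x => ?_⟩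
    have := Finset.single_le_sum (fun j _ => abs_nonneg (B j)) (Finset.mem_univ i)
    linarith [hB i x, le_abs_self (B i)]
  have d1 : ∀ {g : ℂ → ℝ}, (∀ x, |g x| ≤ B) → ∀ x, |g x / B| ≤ 1 := fun h x => by
    rw [abs_div, abs_of_pos B0, div_le_one B0]
    exact h x
  let K : ℝ → Set ℂ := fun u => (thickening (u ^ 2) Dᶜ)ᶜ
  have cK : ∀ u, IsClosed (K u) := fun u => isOpen_thickening.isClosed_compl
  have sK : ∀ u > (0 : ℝ), K u ⊆ D := fun u hu =>
    compl_subset_comm.1 (self_subset_thickening (pow_pos hu 2) _)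
  have iK : ∀ u x, x ∈ K u ↔ ball x (u ^ 2) ⊆ D := fun u x => by
    simp only [K, mem_compl_iff, mem_thickening_iff, not_exists, not_and]
    exact ⟨fun h y hy => by_contra fun c => h y c (mem_ball'.1 hy),
      fun h y hy c => hy (h (mem_ball'.2 c))⟩
  let g : ℝ → Fin n → ℂ → ℝ := fun u i => (K u).indicator (f i)
  have gb : ∀ u i x, |g u i x| ≤ |f i x| := fun u i x =>
    norm_indicator_le_norm_self (s := K u) (f i) x
  have gs : ∀ u i, Function.support (g u i) ⊆ K u ∩ Function.support (f i) := fun u i =>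
    (support_indicator ..).subset
  have tg : ∀ u i, Test (g u i) := fun u i => ⟨(hf i).1.1.indicator (cK u).measurableSet,
    ⟨B, fun x => (gb u i x).trans (hB i x)⟩,
    (hf i).1.2.2.subset ((gs u i).trans inter_subset_right)⟩
  have gD : ∀ u i, Function.support (g u i) ⊆ D := fun u i =>
    ((gs u i).trans inter_subset_right).trans (hf i).2
  have m2 : ∀ a > (0 : ℝ), ∀ h : ℂ → ℝ, Measurable h → (∀ x, |h x| ≤ B) →
      Function.support h ⊆ D →
      ∫ σ, smear a h σ ^ (2 * n) ∂(ρ a : Measure Config) ≤ B ^ (2 * n) * M₂ ^ (2 * n) := by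
    intro a ha h k1 k2 k3
    simp only [smear_div a B B0 h, mul_pow, integral_const_mul]
    rw [e]
    exact mul_le_mul_of_nonneg_left (h2 a ha _ (k1.div_const B) (d1 k2) fun x hx =>
      k3 fun c => hx (by simp only [c, zero_div])) (by positivity)
  obtain ⟨c, hc⟩ : ∃ c, c = n * (1 + n * (2 * (B ^ (2 * n) * M₂ ^ (2 * n))) + B ^ 2 * M₁ ^ 2) :=
    ⟨_, rfl⟩
  have sl : ∀ (F : Fin n → ℝ) (r : ℝ), (∀ i, F i ≤ r) → ∑ i, F i ≤ n * r := fun F r h => by
    have := Finset.sum_le_card_nsmul Finset.univ F r fun i _ => h i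
    rwa [Finset.card_fin, nsmul_eq_mul] at this
  have k1 : ∀ a > (0 : ℝ), ∀ u : ℝ, 0 < u → u ≤ u₀ →
      |inDom J lam V β D b a (fun σ => ∏ i, smear a (f i) σ) -
        inDom J lam V β D b a fun σ => ∏ i, smear a (g u i) σ| ≤ c * u := by
    intro a ha u hu hu'
    haveI := (ρ a).2
    rw [← e, ← e, ← integral_sub (ig a _) (ig a _)]
    refine abs_integral_le_integral_abs.trans ((integral_mono (ig a _) (ig a _) fun σ =>
      prod_diff hn (fun i => smear a (f i) σ) (fun i => smear a (g u i) σ) hu).trans ?_)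
    rw [integral_finset_sum _ fun i _ => ig a _, hc, mul_assoc]
    refine sl _ _ fun i => ?_
    rw [integral_add (ig a _) (ig a _), integral_const_mul, integral_const_mul,
      integral_add (ig a _) (ig a _), integral_finset_sum _ fun i _ => ig a _, integral_const,
      probReal_univ, one_smul, add_mul, mul_comm u]
    refine add_le_add (mul_le_mul_of_nonneg_right (add_le_add le_rfl ?_) hu.le) ?_
    · refine sl _ _ fun j => ?_
      rw [integral_add (ig a _) (ig a _), two_mul (_ * _)]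
      exact add_le_add (m2 a ha _ (hf j).1.1 (hB j) (hf j).2)
        (m2 a ha _ (tg u j).1 (fun x => (gb u j x).trans (hB j x)) (gD u j))
    · have e1 : ∀ σ, smear a (f i) σ - smear a (g u i) σ =
          B * smear a (fun x => (K u)ᶜ.indicator (f i) x / B) σ := fun σ => by
        rw [← smear_div a B B0, smear, smear, smear,
          ← integral_sub (smear_int (hf i).1 a σ) (smear_int (tg u i) a σ)]
        congr 1
        funext x
        rw [← sub_mul, indicator_compl, Pi.sub_apply]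
      have e2 := h1 a ha u hu hu' (fun x => (K u)ᶜ.indicator (f i) x / B)
        (((hf i).1.1.indicator (cK u).measurableSet.compl).div_const B)
        (d1 fun x => (norm_indicator_le_norm_self (s := (K u)ᶜ) (f i) x).trans (hB i x)) fun x hx => by
          have : x ∈ Function.support ((K u)ᶜ.indicator (f i)) := fun c =>
            hx (by simp only [c, zero_div])
          rw [support_indicator] at this
          exact ⟨(hf i).2 this.2, fun c => this.1 ((iK u x).2 c)⟩
      simp only [e1, mul_pow, integral_const_mul]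
      rw [e, inv_mul_le_iff₀ hu]
      refine (mul_le_mul_of_nonneg_left e2 (sq_nonneg B)).trans (le_of_eq ?_)
      ring
  have k2 : Tendsto (fun u => Z ^ n * ∫ x : Fin n → ℂ, (∏ i, g u i (x i)) * C ⟨n, 0, x, ![], ![]⟩)
      (𝓝[>] 0) (𝓝 (Z ^ n * ∫ x : Fin n → ℂ, (∏ i, f i (x i)) * C ⟨n, 0, x, ![], ![]⟩)) := by
    refine Tendsto.const_mul _ (tendsto_integral_filter_of_dominated_convergence _
      (Eventually.of_forall fun u => (hI n hn _ fun i => ⟨tg u i, gD u i⟩).1)
      (Eventually.of_forall fun u => ae_of_all _ fun x => ?_) (hI n hn f hf).norm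
      (ae_of_all _ fun x => tendsto_const_nhds.congr' ?_))
    · rw [norm_mul, norm_mul, norm_prod, norm_prod]
      exact mul_le_mul_of_nonneg_right (Finset.prod_le_prod (fun _ _ => norm_nonneg _)
        fun i _ => gb u i _) (norm_nonneg _)
    · have : ∀ i, ∀ᶠ u in 𝓝[>] (0 : ℝ), f i (x i) = g u i (x i) := fun i => by
        by_cases hx : f i (x i) = 0
        · exact Eventually.of_forall fun u => by
            simp only [g, indicator, hx, ite_self]
        · obtain ⟨r, r0, hr⟩ := Metric.isOpen_iff.1 ho _ ((hf i).2 hx)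
          have t : Tendsto (fun u : ℝ => u ^ 2) (𝓝[>] 0) (𝓝 (0 ^ 2)) :=
            ((continuous_pow 2).tendsto 0).mono_left nhdsWithin_le_nhds
          filter_upwards [t.eventually_le_const (show (0 : ℝ) ^ 2 < r by rwa [zero_pow two_ne_zero])]
            with u hu
          exact (indicator_of_mem ((iK u _).2 ((ball_subset_ball hu).trans hr)) _).symm
      filter_upwards [eventually_all.2 this] with u hu
      simp only [hu]
  refine Metric.tendsto_nhds.2 fun ε hε => ?_
  have t : Tendsto (fun u : ℝ => c * u) (𝓝[>] 0) (𝓝 (c * 0)) :=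
    (tendsto_id.mono_left nhdsWithin_le_nhds).const_mul c
  obtain ⟨u, ⟨q1, q2⟩, q3, q4⟩ := (((Metric.tendsto_nhds.1 k2 (ε / 3) (by positivity)).and
    (t.eventually_le_const (show c * 0 < ε / 3 by linarith))).and
    ((eventually_mem_nhdsWithin (s := Ioi (0 : ℝ))).and
      (mem_nhdsWithin_of_mem_nhds (Iic_mem_nhds u0)))).exists
  have k3 := Sf.mom_lim hJ hD (isCompact_of_isClosed_isBounded (cK u) (hD.subset (sK u q3))) ho
    (sK u q3) hL hS h0 hn fun i => ⟨tg u i, (gs u i).trans inter_subset_left⟩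
  filter_upwards [Metric.tendsto_nhds.1 k3 (ε / 3) (by positivity), self_mem_nhdsWithin]
    with a q5 ha
  have q6 := k1 a ha u q3 q4
  rw [← Real.dist_eq] at q6
  exact (dist_triangle4 _ _ _ _).trans_lt (by linarith)

end Vale.Agent.N144.WM
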