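import Vale.Agent.N144.W.Fld
import Vale.Agent.N144.W.MomT
import Vale.Agent.N144.W.LawB
import Vale.Agent.N144.W.Lyr

/-!
From the bound at all scales to the field up to the boundary.
-/

namespace Vale.Agent.N144.WM

open Vale.Agent.P144 Vale.Agent.P144Z

theorem sepD {D : Set ℂ} {E : Fam} (h : SepW D E) : SepD D E := fun s hs n hn δ hδ => by
  obtain ⟨K, T, κ, ε₀, h1, h2, h3, h4, h⟩ := h n hn δ hδ
  refine ⟨K, T, min ε₀ (s / κ), h1, h2, by positivity, fun a ε z x ha a1 a2 hz =>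
    h a ε z x ha a1 (a2.trans (min_le_left _ _)) ((Metric.ball_subset_ball ?_).trans hz)⟩
  exact (le_div_iff₀' (by linarith)).1 (a2.trans (min_le_right _ _))

theorem softW_of (h : ∀ (J lam β : ℝ) (V : Finset Site → ℝ) (D : Set ℂ) (b : Option (ℝ → Config)),
    Bornology.IsBounded D → IsOpen D → Lay D → SepW D (inDom J lam V β D b) →
      Layer D (inDom J lam V β D b) ∧ Glob D (inDom J lam V β D b)) : SoftW := by
  intro J hJ lam β Z Zε V D b C hD ho hL hZ hd hS h0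
  have hG : Lw.G2 J D :=
    let ⟨M, hM⟩ := (h _ _ _ _ D _ hD ho hL (Lw.sepW_zero hJ hD _)).2 2 even_two
    ⟨M ^ 2, hM⟩
  have hM := momB_of hJ hD ho hd (sepD hS) h0 (h _ _ _ _ D _ hD ho hL hS).1
    (h _ _ _ _ D _ hD ho hL hS).2 fun n hn f hf => Lw.intB hJ hD ho hG h0 hn hf
  have hB := Lw.lawB_of hJ hD ho hZ hG h0 hM
  exact ⟨hM, hB, WF.fieldB hD hL hS hB⟩

theorem softW : SoftW := softW_of fun J lam β V D b hD _ hL hS => by
  obtain ⟨μ, hμ⟩ := Sf.exists_rp J lam V β D b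
  refine ⟨?_, fun n hn => ?_⟩
  · obtain ⟨M, -, u₀, u0, h⟩ := Sf.Bk.layer hμ hD hL hS even_two two_ne_zero
    exact ⟨M, u₀, u0, fun a ha u hu hu' g g1 g2 g3 =>
      (hμ.2 a _).symm.trans_le (h a ha u hu hu' g ⟨g1, g2, g3⟩)⟩
  · rcases eq_or_ne n 0 with rfl | h0
    · refine ⟨1, fun a _ g _ _ _ => (hμ.2 a _).symm.trans_le ?_⟩
      have := hμ.1
      simp
    · obtain ⟨M, -, h⟩ := Sf.Bk.glob hμ hD hL hS hn h0
      exact ⟨M, fun a ha g g1 g2 g3 => (hμ.2 a _).symm.trans_le (h a ha g ⟨g1, g2, g3⟩)⟩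

end Vale.Agent.N144.WM
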