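import Vale.Agent.N144.W.Fin
import Vale.Agent.N144.W.Flow
import Vale.Agent.N144.W.Clus
import Vale.Agent.N144.W.Lay
import Vale.Agent.N144.W.Soft

/-!
The final statement, with the same three clauses for the field in the plane and in the domains.
-/

namespace Vale.Agent.N144.WL

open Filter Topology Vale.Agent.P144 Vale.Agent.P144Z

theorem genMW : GenMW := MW.genMW_of Cl.shrW Cl.gapW3

open Vale.Agent.P144F58 in
theorem fin4 :
    ∀ J > 0,
    ∃ (C : Pts → ℝ) (CD : Set ℂ → Option (ℝ → Config) → Pts → ℝ),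
    (∃ E₀, PlaneFam J 0 (fun _ => 0) (Kc / J) E₀) ∧
    (∀ E₀, PlaneFam J 0 (fun _ => 0) (Kc / J) E₀ → LocLim Set.univ E₀ C) ∧
    (∀ p, Good Set.univ p → (∀ E₀, PlaneFam J 0 (fun _ => 0) (Kc / J) E₀ → Lim E₀ p (C p)) ∧
      (∀ j, C { p with j := j } = C p) ∧ (p.m = 0 → Even p.n → 0 < C p) ∧
      ∀ w t : ℂ, w ≠ 0 → C p = (‖w‖ ^ (1 / 8 : ℝ)) ^ p.n * ‖w‖ ^ p.m *
        C { p with x := fun i => w * p.x i + t, y := fun k => w * p.y k + t }) ∧
    (∀ D b, P144Y.Nice D b → LocLim D (crit J D b) (CD D b) ∧ ∀ p, Good D p →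
      Lim (crit J D b) p (CD D b p) ∧ (∀ j, CD D b { p with j := j } = CD D b p) ∧
      (p.m = 0 → (b = none ∧ Even p.n ∨ b = some fun _ _ => true) → 0 < CD D b p) ∧
      ∀ D' φ, P144Y.Nice D' b → DifferentiableOn ℂ φ D → Set.BijOn φ D D' →
        CD D b p = (∏ i, ‖deriv φ (p.x i)‖ ^ (1 / 8 : ℝ)) * (∏ k, ‖deriv φ (p.y k)‖) *
          CD D' b { p with x := fun i => φ (p.x i), y := fun k => φ (p.y k) }) ∧
    ∀ K < 1, ∀ V, IsPotential V → ∃ lam₀ > 0,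
      ∃ β Zσ Zε : ℝ → ℝ, AnalyticOnNhd ℝ β (Set.Ioo (-lam₀) lam₀) ∧
      AnalyticOnNhd ℝ Zσ (Set.Ioo (-lam₀) lam₀) ∧ AnalyticOnNhd ℝ Zε (Set.Ioo (-lam₀) lam₀) ∧
      β 0 = Kc / J ∧ Zσ 0 = 1 ∧ Zε 0 = 1 ∧ ∀ lam : ℝ, |lam| < lam₀ →
        0 < β lam ∧ 0 < Zσ lam ∧ 0 < Zε lam ∧
        (∃ μ, IsPlaneState J lam V (β lam) μ ∧ IsTorusState J lam V (β lam) μ ∧
          (∀ p, Good Set.univ p → Lim (famOf μ) p (Zσ lam ^ p.n * Zε lam ^ p.m * C p)) ∧
          LocLim Set.univ (famOf μ) (fun p => Zσ lam ^ p.n * Zε lam ^ p.m * C p) ∧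
          P144V.LawD μ (Zσ lam) C ∧ MomB Set.univ (famOf μ) (Zσ lam) C ∧
          LawB Set.univ (famOf μ) (Zσ lam) C ∧ FieldB Set.univ (famOf μ) (Zσ lam) C) ∧
        ∀ D b, (IsC1 D ∨ IsPC1 D ∨ IsPolygon D ∨
              IsOpen D ∧ Bornology.IsBounded D ∧ Convex ℝ D) ∧ (StdBC b ∨ SignBC D b) ∨
            IsLip K D ∧ StdBC b →
          LocDiff D (crit J D b) (inDom J lam V (β lam) D b) (Zσ lam) (Zε lam) ∧
            Identity D (crit J D b) (inDom J lam V (β lam) D b) (Zσ lam) (Zε lam) ∧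
            (P144Y.Nice D b → LocLim D (inDom J lam V (β lam) D b)
                (fun p => Zσ lam ^ p.n * Zε lam ^ p.m * CD D b p) ∧
              (∃ U : TopologicalSpace.Opens ℂ, ↑U = D ∧
                P144M13.FieldLim U (inDom J lam V (β lam) D b) (Zσ lam) (CD D b)) ∧
              MomB D (inDom J lam V (β lam) D b) (Zσ lam) (CD D b) ∧
              LawB D (inDom J lam V (β lam) D b) (Zσ lam) (CD D b) ∧
              FieldB D (inDom J lam V (β lam) D b) (Zσ lam) (CD D b)) ∧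
            (StdBC b → ∀ C' : Pts → ℝ, (∀ p, Good D p → p.m = 0 → Lim (crit J D b) p (C' p)) →
              (∃ U : TopologicalSpace.Opens ℂ, ↑U = D ∧
                P144M13.FieldLim U (inDom J lam V (β lam) D b) (Zσ lam) C') ∧
              MomB D (inDom J lam V (β lam) D b) (Zσ lam) C' ∧
              LawB D (inDom J lam V (β lam) D b) (Zσ lam) C' ∧
              FieldB D (inDom J lam V (β lam) D b) (Zσ lam) C') := by
  intro J hJ
  obtain ⟨C, CD, h1, h2, h3, h4, h⟩ := finW_of genMW Ly.layStmt WM.softW J hJ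
  refine ⟨C, CD, h1, h2, h3, h4, fun K hK V hV => ?_⟩
  obtain ⟨lam₀, h0, β, Zσ, Zε, a1, a2, a3, a4, a5, a6, h⟩ := h K hK V hV
  refine ⟨lam₀, h0, β, Zσ, Zε, a1, a2, a3, a4, a5, a6, fun lam hl => ?_⟩
  obtain ⟨b1, b2, b3, ⟨μ, m1, m2, m3, m4, m5, m6, m7⟩, h⟩ := h lam hl
  have h00 := P144W.spin_mom0 hJ (fun p hp => (h3 p hp).1) fun p hp => (h3 p hp).2.2.1
  have := m1.1
  have hL := P144W.C13.law hJ h00 m5
  exact ⟨b1, b2, b3, ⟨μ, m1, m2, m3, m4, m6, fun n hn f hf => m5 n hn f fun i => (hf i).1,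
    fun k f hf => hL k f fun i => (hf i).1,
    fun U s hU _ hs => m7 U s hU (Set.subset_univ _) hs⟩, h⟩

end Vale.Agent.N144.WL
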