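import Vale.Agent.N144.W.Defs
import Vale.Agent.N144.Sb.Main

/-!
The spin field converges in law in `H^{-s}(U)` for all open `U ⊆ D`.
-/

set_option linter.all false

noncomputable section

namespace Vale.Agent.N144.WF

open MeasureTheory Filter Topology Metric Set TopologicalSpace Vale.Agent.P144 Vale.Agent.P144W
open Vale.Agent.P144F58 Vale.Agent.P144H Vale.Agent.P153.H212 Vale.Agent.P144Z
open Vale.Agent.P153DH (Rep H0 wt JS)
open Vale.Agent.N144.Sb
open scoped FourierTransform SchwartzMap ENNReal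

theorem cs_int {X : Type} [MeasurableSpace X] {m : Measure X} [IsFiniteMeasure m] {f : X → ℝ}
    (h1 : Integrable f m) (h2 : Integrable (fun x => f x ^ 2) m) :
    (∫ x, f x ∂m) ^ 2 ≤ m.real univ * ∫ x, f x ^ 2 ∂m := by
  set v := m.real univ with hv
  set I := ∫ x, f x ∂m with hI
  rcases (measureReal_nonneg : 0 ≤ v).eq_or_lt with h | h
  · have : m = 0 := by
      rw [← Measure.measure_univ_eq_zero, ← measureReal_eq_zero_iff (measure_ne_top _ _)]
      exact h.symm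
    simp [hI, hv, this]
  · have k : 0 ≤ ∫ x, (v ^ 2 * f x ^ 2 - 2 * v * I * f x + I ^ 2) ∂m :=
      integral_nonneg fun x => by
        have := sq_nonneg (v * f x - I)
        show (0 : ℝ) ≤ v ^ 2 * f x ^ 2 - 2 * v * I * f x + I ^ 2
        nlinarith
    have i : Integrable (fun x => v ^ 2 * f x ^ 2 - 2 * v * I * f x) m :=
      (h2.const_mul _).sub (h1.const_mul _)
    rw [integral_add i (integrable_const _),
      integral_sub (h2.const_mul _) (h1.const_mul _), integral_const_mul, integral_const_mul,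
      integral_const, smul_eq_mul, ← hv, ← hI] at k
    rw [← hv] at h
    refine le_of_mul_le_mul_left ?_ h
    nlinarith

section

variable {H : Type} [NormedAddCommGroup H] [InnerProductSpace ℝ H] [CompleteSpace H]
  {ρ : Measure Config} [IsProbabilityMeasure ρ]

theorem geo {Y : ℕ → Config → H} {W : Config → H} (bY : ∀ n, Bm (Y n)) (bW : Bm W) {A : ℝ}
    (d1 : ∀ i, ∫ σ, ‖Y (i + 1) σ - Y i σ‖ ^ 2 ∂ρ ≤ A * (1 / 4) ^ i) {e : ℕ → ℝ}
    (he : Tendsto e atTop (𝓝 0)) (dW : ∀ n σ, ‖W σ - Y n σ‖ ≤ e n) (j : ℕ) :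
    ∫ σ, ‖W σ - Y j σ‖ ^ 2 ∂ρ ≤ 8 * A * (1 / 4) ^ j := by
  have A0 : 0 ≤ A := by
    have := (integral_nonneg fun σ => sq_nonneg _).trans (d1 0)
    rwa [pow_zero, mul_one] at this
  have d2 : ∀ n i, ∫ σ, ‖Y (i + n) σ - Y i σ‖ ^ 2 ∂ρ ≤ 4 * A * (1 / 4) ^ i := by
    intro n
    induction n with
    | zero =>
      intro i
      simp only [add_zero, sub_self, norm_zero, ne_eq, OfNat.ofNat_ne_zero, not_false_eq_true,
        zero_pow, integral_zero]
      positivity
    | succ n ih =>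
      intro i
      have k1 := tri (ρ := ρ) ((bY (i + 1 + n)).sub (bY (i + 1)))
        ((bY (i + 1)).sub (bY i)) (fun σ => norm_nonneg _)
        fun σ => norm_sub_le_norm_sub_add_norm_sub (Y (i + 1 + n) σ) _ (Y i σ)
      have k2 := ih (i + 1)
      have k3 := d1 i
      rw [show i + (n + 1) = i + 1 + n by ring]
      rw [pow_succ] at k2
      linarith
  have lim : Tendsto (fun n : ℕ => 2 * e (n + j) ^ 2 + 8 * A * (1 / 4) ^ j)
      atTop (𝓝 (8 * A * (1 / 4) ^ j)) := by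
    have := ((((tendsto_add_atTop_iff_nat j).2 he).pow 2).const_mul 2).add_const
      (8 * A * (1 / 4) ^ j)
    rwa [zero_pow two_ne_zero, mul_zero, zero_add] at this
  refine ge_of_tendsto' lim fun n => ?_
  have k1 := tri (ρ := ρ) (bW.sub (bY (j + n))) ((bY (j + n)).sub (bY j))
    (fun σ => norm_nonneg _) fun σ => norm_sub_le_norm_sub_add_norm_sub (W σ) _ (Y j σ)
  have k2 : ∫ σ, ‖W σ - Y (j + n) σ‖ ^ 2 ∂ρ ≤ e (j + n) ^ 2 :=
    (integral_mono (bW.sub (bY (j + n))).int (integrable_const _) fun σ =>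
      pow_le_pow_left₀ (norm_nonneg _) (dW _ σ) 2).trans (by simp)
  have k3 := d2 n j
  rw [add_comm n j]
  linarith

theorem momLoc {A : Set ℂ} (mA : MeasurableSet A) (bA : Bornology.IsBounded A) {a : ℝ}
    (ha : 0 < a) {b : ℂ → H} (hb : StronglyMeasurable b) {M : ℝ} (hM : ∀ z, ‖b z‖ ≤ M)
    {G : ℂ → ℝ} (hG : Integrable G) (G0 : ∀ u, 0 ≤ G u) {h : ℝ} (h0 : 0 < h)
    (hh : ∀ z ∈ A, ∀ w ∈ A, w ≠ z → ‖w - z‖ < 2 * h →
      |∫ σ, ph a z σ * ph a w σ ∂ρ| * |inner ℝ (b z) (b w)| ≤ G (w - z)) :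
    ∫ σ, ‖∫ z in A, ph a z σ • b z‖ ^ 2 ∂ρ ≤
      (∫ u, G u) * (volume.real (thickening h A)) ^ 2 / (Real.pi * h ^ 2) := by
  set A' := thickening h A with hA'
  haveI : IsFiniteMeasure (volume.restrict A) := isFiniteMeasure_restrict.2 bA.measure_lt_top.ne
  haveI : IsFiniteMeasure (volume.restrict A') :=
    isFiniteMeasure_restrict.2 bA.thickening.measure_lt_top.ne
  have M0 : 0 ≤ M := (norm_nonneg _).trans (hM 0)
  have pi0 := Real.pi_pos
  set v := Real.pi * h ^ 2 with hv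
  have v0 : 0 < v := by positivity
  have vb : ∀ y : ℂ, volume.real (ball y h) = v := fun y => by
    rw [Measure.real, Complex.volume_ball, ENNReal.toReal_mul, ENNReal.toReal_pow,
      ENNReal.toReal_ofReal h0.le, hv, mul_comm]
    rfl
  let Φ : (Config × ℂ) × ℂ → H :=
    {q : (Config × ℂ) × ℂ | dist q.2 q.1.2 < h}.indicator fun q => ph a q.2 q.1.1 • b q.2
  have mΦ : StronglyMeasurable Φ :=
    ((sm_ph a hb).comp_measurable (measurable_snd.prodMk measurable_fst.fst)).indicator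
      (measurableSet_lt (measurable_snd.dist measurable_fst.snd) measurable_const)
  have bΦ : ∀ q, ‖Φ q‖ ≤ a ^ (-(1 / 8) : ℝ) * M := fun q => by
    refine (norm_indicator_le_norm_self _ _).trans ?_
    rw [norm_smul]
    exact mul_le_mul (ph_bd ha _ _) (hM _) (norm_nonneg _) (by positivity)
  let X : Config × ℂ → H := fun q => ∫ z in A, Φ (q, z)
  have mX : StronglyMeasurable X := mΦ.integral_prod_right'
  have bX : ∀ q, ‖X q‖ ≤ a ^ (-(1 / 8) : ℝ) * M * (volume.restrict A).real univ := fun q =>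
    norm_integral_le_of_norm_le_const (Eventually.of_forall fun z => bΦ _)
  have e1 : ∀ σ y, X (σ, y) = ∫ z in A ∩ ball y h, ph a z σ • b z := fun σ y => by
    rw [← setIntegral_indicator measurableSet_ball]
    rfl
  have e2 : ∀ σ, ∫ y in A', X (σ, y) = v • ∫ z in A, ph a z σ • b z := fun σ => by
    have i1 : Integrable (Function.uncurry fun y z => Φ ((σ, y), z))
        ((volume.restrict A').prod (volume.restrict A)) :=
      Integrable.of_bound (mΦ.comp_measurable ((measurable_const.prodMk measurable_fst).prodMk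
        measurable_snd)).aestronglyMeasurable _ (Eventually.of_forall fun q => bΦ _)
    simp only [X]
    rw [integral_integral_swap i1, ← integral_smul]
    refine setIntegral_congr_fun mA fun z hz => ?_
    have : ∀ y, Φ ((σ, y), z) = (ball z h).indicator (fun _ => ph a z σ • b z) y := fun y => by
      simp only [Φ, indicator, mem_setOf_eq, mem_ball, dist_comm z y]
    simp only [this]
    rw [setIntegral_indicator measurableSet_ball, inter_eq_right.2 (ball_subset_thickening hz h),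
      setIntegral_const, vb]
  set w := volume.real A' with hw
  have w' : (volume.restrict A').real univ = w := by
    rw [measureReal_restrict_apply_univ]
  have iX : Integrable (fun q => ‖X q‖ ^ 2) (ρ.prod (volume.restrict A')) :=
    Integrable.of_bound (mX.norm.measurable.pow_const 2).aestronglyMeasurable
      ((a ^ (-(1 / 8) : ℝ) * M * (volume.restrict A).real univ) ^ 2)
      (Eventually.of_forall fun q => by
        rw [norm_pow, norm_norm]
        exact pow_le_pow_left₀ (norm_nonneg _) (bX q) 2)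
  have e3 : ∀ σ, v ^ 2 * ‖∫ z in A, ph a z σ • b z‖ ^ 2 ≤ w * ∫ y in A', ‖X (σ, y)‖ ^ 2 :=
    fun σ => by
      have m1 : StronglyMeasurable fun y => X (σ, y) :=
        mX.comp_measurable (measurable_const.prodMk measurable_id)
      have := cs_int (m := volume.restrict A') (f := fun y => ‖X (σ, y)‖)
        (Integrable.of_bound m1.norm.aestronglyMeasurable _ (Eventually.of_forall fun y => by
          rw [norm_norm]
          exact bX _))
        (Integrable.of_bound (m1.norm.measurable.pow_const 2).aestronglyMeasurable _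
          (Eventually.of_forall fun y => by
            rw [norm_pow, norm_norm]
            exact pow_le_pow_left₀ (norm_nonneg _) (bX _) 2))
      rw [w'] at this
      refine le_trans ?_ this
      rw [← mul_pow, ← Real.norm_of_nonneg v0.le, ← norm_smul, ← e2]
      exact pow_le_pow_left₀ (norm_nonneg _) (norm_integral_le_integral_norm _) 2
  have I0 : 0 ≤ ∫ u, G u := integral_nonneg G0
  have e4 : ∀ y, ∫ σ, ‖X (σ, y)‖ ^ 2 ∂ρ ≤ (∫ u, G u) * v := fun y => by
    haveI : IsFiniteMeasure (volume.restrict (A ∩ ball y h)) :=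
      isFiniteMeasure_restrict.2 (bA.subset inter_subset_left).measure_lt_top.ne
    simp only [e1]
    refine (mom (mA.inter measurableSet_ball) ha hb hM hG G0 fun z hz w hw e =>
      hh z hz.1 w hw.1 e ?_).trans (mul_le_mul_of_nonneg_left ?_ I0)
    · have := dist_triangle_right w z y
      rw [← dist_eq_norm]
      linarith [mem_ball.1 hz.2, mem_ball.1 hw.2]
    · rw [measureReal_restrict_apply_univ, ← vb y]
      exact measureReal_mono inter_subset_right measure_ball_lt_top.ne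
  have e5 : ∫ σ, (∫ y in A', ‖X (σ, y)‖ ^ 2) ∂ρ ≤ (∫ u, G u) * v * w := by
    rw [integral_integral_swap (f := fun σ y => ‖X (σ, y)‖ ^ 2) iX, ← w']
    refine (le_abs_self _).trans ?_
    rw [← Real.norm_eq_abs]
    refine norm_integral_le_of_norm_le_const (Eventually.of_forall fun y => ?_)
    rw [Real.norm_of_nonneg (integral_nonneg fun σ => sq_nonneg _)]
    exact e4 y
  have e6 := integral_mono ((bm_int (m := volume.restrict A) ha hb hM).int.const_mul (v ^ 2))
    (iX.integral_prod_left.const_mul w) e3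
  rw [integral_const_mul, integral_const_mul] at e6
  have w0 : 0 ≤ w := measureReal_nonneg
  rw [le_div_iff₀ v0]
  refine le_of_mul_le_mul_left ?_ v0
  have := mul_le_mul_of_nonneg_left e5 w0
  nlinarith

end

/-- The two-point bound for points much closer to each other than to the boundary. -/
def Loc (D : Set ℂ) (K κ ε a : ℝ) (ρ : Measure Config) : Prop :=
  ∀ z w : ℂ, w ≠ z → ‖w - z‖ ≤ ε → ball z (κ * ‖w - z‖) ⊆ D →
    |∫ σ, ph a z σ * ph a w σ ∂ρ| ≤ K * ‖w - z‖ ^ (-(1 / 4) : ℝ)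

/-- The bound on second moments. -/
def Mo (U : Set ℂ) (γ A a : ℝ) (ρ : Measure Config) : Prop :=
  ∀ (H : Type) [NormedAddCommGroup H] [InnerProductSpace ℝ H] [CompleteSpace H] (b : ℂ → H)
    (M : ℝ) (g : ℂ → ℝ), StronglyMeasurable b → (∀ z, ‖b z‖ ≤ M) → Integrable g →
    (∀ u, 0 ≤ g u) →
    (∀ z ∈ U, ∀ w ∈ U, w ≠ z → ‖w - z‖ ^ (-γ) * |inner ℝ (b z) (b w)| ≤ g (w - z)) →
    ∫ σ, ‖∫ z in U, ph a z σ • b z‖ ^ 2 ∂ρ ≤ A * ∫ u, g u

theorem rp {θ : ℝ} (θ0 : 0 < θ) (j : ℕ) (y : ℝ) : (θ ^ j) ^ y = (θ ^ y) ^ j := by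
  rw [← Real.rpow_natCast, ← Real.rpow_mul θ0.le, mul_comm, Real.rpow_mul θ0.le,
    Real.rpow_natCast]

theorem exists_th {δ : ℝ} (h : 0 < δ) : ∃ θ : ℝ, 0 < θ ∧ θ < 1 ∧ θ ^ δ = 1 / 4 :=
  ⟨(1 / 4) ^ δ⁻¹, by positivity, Real.rpow_lt_one (by norm_num) (by norm_num) (inv_pos.2 h),
    Real.rpow_inv_rpow (by norm_num) h.ne'⟩

/-- The layers of a bounded set, in the form that is used. -/
theorem lay {D : Set ℂ} (hL : Lay D) (t₀ : ℝ) : ∃ C : ℝ, 0 ≤ C ∧ ∀ t h : ℝ, 0 < t → t ≤ t₀ →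
    h ≤ t → volume.real (thickening h (D ∩ thickening t Dᶜ)) ≤ C * t := by
  obtain ⟨C, hC⟩ := hL
  refine ⟨|C| * (2 + 4 * |t₀|), by positivity, fun t h t0 t1 ht => ?_⟩
  have k : C * (2 * t + (2 * t) ^ 2) ≤ |C| * (2 + 4 * |t₀|) * t := by
    have h1 : 2 * t + (2 * t) ^ 2 ≤ (2 + 4 * |t₀|) * t := by nlinarith [le_abs_self t₀]
    rw [mul_assoc]
    exact mul_le_mul (le_abs_self C) h1 (by positivity) (abs_nonneg C)
  refine ENNReal.toReal_le_of_le_ofReal (by positivity) ((measure_mono ?_).trans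
    ((hC (2 * t) (by positivity)).trans (ENNReal.ofReal_le_ofReal k)))
  intro y hy
  obtain ⟨z, ⟨z1, z2⟩, hz⟩ := mem_thickening_iff.1 hy
  obtain ⟨x, x1, x2⟩ := mem_thickening_iff.1 z2
  refine ⟨⟨z, ?_, z1⟩, fun c => x1 (c ?_)⟩
  · rw [mem_ball, dist_comm]
    linarith
  · rw [mem_ball, dist_comm]
    linarith [dist_triangle y z x]

theorem mo_of {D U : Set ℂ} (hD : Bornology.IsBounded D) (hL : Lay D) (mU : MeasurableSet U)
    (hU : U ⊆ D) {K κ ε γ : ℝ} (hK : 0 ≤ K) (hκ : 0 < κ) (hε : 0 < ε) (hγ : 1 / 4 < γ) :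
    ∃ A : ℝ, 0 ≤ A ∧ ∀ a > (0 : ℝ), ∀ ρ : Measure Config, IsProbabilityMeasure ρ →
      Loc D K κ ε a ρ → Mo U γ A a ρ := by
  obtain ⟨θ, θ0, θ1, θ2⟩ := exists_th (sub_pos.2 hγ)
  obtain ⟨R, R0, hR⟩ := hD.subset_ball_lt 0 0
  obtain ⟨t₀, ht₀⟩ : ∃ t₀, t₀ = 2 * R + 1 := ⟨_, rfl⟩
  have t0 : 0 < t₀ := by linarith
  obtain ⟨C, C0, hC⟩ := lay hL t₀
  obtain ⟨c, c0, c1, c2, c3⟩ : ∃ c : ℝ, 0 < c ∧ c ≤ 1 ∧ κ * (2 * c) ≤ 1 ∧ 2 * c * t₀ ≤ ε := by
    refine ⟨min 1 (min (1 / (2 * κ)) (ε / (2 * t₀))), by positivity, min_le_left _ _, ?_, ?_⟩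
    · have := (le_div_iff₀ (by positivity)).1
        ((min_le_right 1 _).trans (min_le_left (1 / (2 * κ)) (ε / (2 * t₀))))
      linarith
    · have := (le_div_iff₀ (by positivity)).1
        ((min_le_right 1 _).trans (min_le_right (1 / (2 * κ)) (ε / (2 * t₀))))
      linarith
  have pi0 := Real.pi_pos
  obtain ⟨B, hB⟩ : ∃ B, B = K * (2 * (c * θ * t₀)) ^ (γ - 1 / 4) * C ^ 2 /
    (Real.pi * (c * θ) ^ 2) := ⟨_, rfl⟩
  refine ⟨8 * B, by rw [hB]; positivity, fun a ha ρ _ h H _ _ _ b M g hb hM hg g0 hh => ?_⟩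
  have M0 : 0 ≤ M := (norm_nonneg _).trans (hM 0)
  let t : ℕ → ℝ := fun n => t₀ * θ ^ n
  have tp : ∀ n, 0 < t n := fun n => mul_pos t0 (pow_pos θ0 n)
  have ts : ∀ n, t (n + 1) = θ * t n := fun n => by simp only [t]; ring
  have tl : ∀ n, t n ≤ t₀ := fun n => mul_le_of_le_one_right t0.le (pow_le_one₀ θ0.le θ1.le)
  have tm : ∀ n, t (n + 1) ≤ t n := fun n => by
    rw [ts]
    exact mul_le_of_le_one_left (tp n).le θ1.le
  let S : ℕ → Set ℂ := fun n => U ∩ thickening (t n) Dᶜ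
  have mS : ∀ n, MeasurableSet (S n) := fun n => mU.inter isOpen_thickening.measurableSet
  have sS : ∀ n, S n ⊆ D ∩ thickening (t n) Dᶜ := fun n => inter_subset_inter_left _ hU
  have bS : ∀ n, Bornology.IsBounded (S n) := fun n => hD.subset (inter_subset_left.trans hU)
  haveI : ∀ n, IsFiniteMeasure (volume.restrict (S n)) := fun n =>
    isFiniteMeasure_restrict.2 (bS n).measure_lt_top.ne
  have fin : ∀ n (r : ℝ), volume (thickening r (D ∩ thickening (t n) Dᶜ)) ≠ ⊤ := fun n r =>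
    (hD.subset inter_subset_left).thickening.measure_lt_top.ne
  have S0 : S 0 = U := by
    refine inter_eq_left.2 fun z hz => mem_thickening_iff.2 ⟨z + (2 * R : ℝ), fun c => ?_, ?_⟩
    · have h1 := mem_ball_zero_iff.1 (hR c)
      have h2 := mem_ball_zero_iff.1 (hR (hU hz))
      have h3 := norm_sub_le (z + (2 * R : ℝ)) z
      rw [add_sub_cancel_left, Complex.norm_real, Real.norm_of_nonneg (by positivity)] at h3
      linarith
    · rw [dist_self_add_right, Complex.norm_real, Real.norm_of_nonneg (by positivity)]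
      simp only [t, pow_zero, mul_one]
      linarith
  have I0 : 0 ≤ ∫ u, g u := integral_nonneg g0
  have key := geo (ρ := ρ) (Y := fun n σ => ∫ z in S n, ph a z σ • b z) (W := fun _ => 0)
    (fun n => bm_int ha hb hM) ⟨stronglyMeasurable_const, 0, fun _ => norm_zero.le⟩
    (A := B * ∫ u, g u) (fun n => ?_) (e := fun n => a ^ (-(1 / 8) : ℝ) * M * (C * t n))
    (by
      have := (((tendsto_pow_atTop_nhds_zero_of_lt_one θ0.le θ1).const_mul t₀).const_mul
        C).const_mul (a ^ (-(1 / 8) : ℝ) * M)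
      rwa [mul_zero, mul_zero, mul_zero] at this) (fun n σ => ?_) 0
  · simp only [zero_sub, norm_neg, S0, pow_zero, mul_one] at key
    rwa [mul_assoc]
  · have r0 : 0 < c * θ * t n := mul_pos (mul_pos c0 θ0) (tp n)
    have r1 : c * θ * t n ≤ t n :=
      mul_le_of_le_one_left (tp n).le (mul_le_one₀ c1 θ0.le θ1.le)
    have e : ∀ σ, ‖(∫ z in S (n + 1), ph a z σ • b z) - ∫ z in S n, ph a z σ • b z‖ =
        ‖∫ z in S n \ S (n + 1), ph a z σ • b z‖ := fun σ => by
      rw [integral_diff (mS _) (int_ph ha hb hM σ)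
        (inter_subset_inter_right _ (thickening_mono (tm n) _)), norm_sub_rev]
    simp only [e]
    refine (momLoc ((mS n).diff (mS _)) ((bS n).subset diff_subset) ha hb hM
      (hg.const_mul (K * (2 * (c * θ * t n)) ^ (γ - 1 / 4)))
      (fun u => mul_nonneg (by positivity) (g0 u)) r0 fun z hz w hw e l => ?_).trans ?_
    · have n0 : 0 < ‖w - z‖ := norm_pos_iff.2 (sub_ne_zero.2 e)
      have k1 := h z w e (by nlinarith [tl n, mul_pos c0 (tp n)]) fun x hx => by
        by_contra hx'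
        refine hz.2 ⟨hz.1.1, mem_thickening_iff.2 ⟨x, hx', ?_⟩⟩
        rw [dist_comm, ts]
        refine (mem_ball.1 hx).trans_le ((mul_le_mul_of_nonneg_left l.le hκ.le).trans ?_)
        nlinarith [mul_pos θ0 (tp n)]
      have k2 : ‖w - z‖ ^ (-(1 / 4) : ℝ) ≤
          (2 * (c * θ * t n)) ^ (γ - 1 / 4) * ‖w - z‖ ^ (-γ) := by
        rw [show (-(1 / 4) : ℝ) = (γ - 1 / 4) + -γ by ring, Real.rpow_add n0]
        exact mul_le_mul_of_nonneg_right (Real.rpow_le_rpow n0.le l.le (by linarith))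
          (by positivity)
      refine (mul_le_mul_of_nonneg_right (k1.trans (mul_le_mul_of_nonneg_left k2 hK))
        (abs_nonneg _)).trans ?_
      rw [← mul_assoc, mul_assoc (K * _)]
      exact mul_le_mul_of_nonneg_left (hh z hz.1.1 w hw.1.1 e) (by positivity)
    · have k1 : volume.real (thickening (c * θ * t n) (S n \ S (n + 1))) ≤ C * t n :=
        (measureReal_mono (thickening_subset_of_subset _ (diff_subset.trans (sS n)))
          (fin n _)).trans (hC _ _ (tp n) (tl n) r1)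
      rw [integral_const_mul]
      refine (div_le_div_of_nonneg_right (mul_le_mul_of_nonneg_left
        (pow_le_pow_left₀ measureReal_nonneg k1 2) (by positivity)) (by positivity)).trans
        (le_of_eq ?_)
      have := (tp n).ne'
      rw [hB, show 2 * (c * θ * t n) = 2 * (c * θ * t₀) * θ ^ n by
        simp only [t]; ring, Real.mul_rpow (by positivity) (by positivity), rp θ0, θ2]
      field_simp
  · rw [zero_sub, norm_neg]
    refine (norm_integral_le_of_norm_le_const (C := a ^ (-(1 / 8) : ℝ) * M)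
      (Eventually.of_forall fun z => ?_)).trans (mul_le_mul_of_nonneg_left ?_ (by positivity))
    · rw [norm_smul]
      exact mul_le_mul (ph_bd ha z σ) (hM z) (norm_nonneg _) (by positivity)
    · rw [measureReal_restrict_apply_univ]
      exact (measureReal_mono ((sS n).trans (self_subset_thickening (tp n) _))
        (fin n _)).trans (hC _ _ (tp n) (tl n) le_rfl)

/-- The field in `L²` with the weight of `H^{-s}`, and its approximations. -/
theorem lim2 {s γ : ℝ} (g0 : 0 ≤ γ) (g1 : γ < 2) (hs : γ < 2 * s) {U : Set ℂ}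
    (mU : MeasurableSet U) [IsFiniteMeasure (volume.restrict U)] (K : ℝ) :
    ∃ (k : ℕ → ℂ → L2) (N : ℕ → ℝ) (A : ℝ) (W : ℝ → Config → L2), (∀ j, Continuous (k j)) ∧
      (∀ j z, ‖k j z‖ ≤ N j) ∧ ∀ a > (0 : ℝ), Bm (W a) ∧
      (∀ σ (g : 𝓢(ℂ, ℂ)), inner ℝ (W a σ) (JS s g) = ∫ z in U, (g z).re * ph a z σ) ∧
      ∀ ρ : Measure Config, IsProbabilityMeasure ρ → Mo U γ K a ρ →
        ∀ j, ∫ σ, ‖W a σ - ∫ z in U, ph a z σ • k j z‖ ^ 2 ∂ρ ≤ A * (1 / 4) ^ j := by
  obtain ⟨s', s0, s1, s2⟩ : ∃ s', γ / 2 < s' ∧ s' ≤ 1 ∧ s' ≤ s :=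
    ⟨min s 1, lt_min (by linarith) (by linarith), min_le_right _ _, min_le_left _ _⟩
  obtain ⟨θ, θ0, θ1, θ2⟩ := exists_th (sub_pos.2 s0)
  obtain ⟨M, m1, hM⟩ := exists_M (s := s) (by linarith)
  have t0 : ∀ j : ℕ, 0 < θ ^ j := fun j => pow_pos θ0 j
  choose N n1 n2 using fun j : ℕ => M_step hM (s' := s') (by linarith) s1 s2 (t0 (j + 1))
    (pow_le_pow_of_le_one θ0.le θ1.le (Nat.le_succ j))
  obtain ⟨c₀, c0, h₀⟩ := heat (γ := 0) le_rfl two_pos
  obtain ⟨c₁, c1, h₁⟩ := heat g0 g1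
  set v := (volume.restrict U).real univ with hv
  have v0 : 0 ≤ v := measureReal_nonneg
  have eS : ∀ j : ℕ, StronglyMeasurable (E (θ ^ j)) := fun j => (E_cont (t0 j)).stronglyMeasurable
  let V : ℕ → ℝ → Config → L2 := fun j a σ => ∫ z in U, ph a z σ • E (θ ^ j) z
  have hk : ∀ j z, ‖M (E (θ ^ j) z)‖ ≤ √(p (θ ^ j) 0) := fun j z => (m1 _).trans (E_norm (t0 j) z)
  have ck : ∀ j : ℕ, Continuous fun z => M (E (θ ^ j) z) := fun j =>
    M.continuous.comp (E_cont (t0 j))
  let Y : ℕ → ℝ → Config → L2 := fun j a σ => ∫ z in U, ph a z σ • M (E (θ ^ j) z)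
  have bY : ∀ j, ∀ a > (0 : ℝ), Bm (Y j a) := fun j a ha =>
    bm_int ha (ck j).stronglyMeasurable (hk j)
  have bV : ∀ j, ∀ a > (0 : ℝ), Bm (V j a) := fun j a ha => bm_int ha (eS j) (E_norm (t0 j))
  have st : ∀ j, ∀ a > (0 : ℝ), ∀ σ,
      ‖Y (j + 1) a σ - Y j a σ‖ ≤ (θ ^ j) ^ (s' / 2) * ‖V (j + 1) a σ‖ := fun j a ha σ => by
    refine le_trans (le_of_eq (congrArg norm ?_)) (n1 j _)
    simp only [Y, V]
    rw [← integral_sub (int_ph ha (ck _).stronglyMeasurable (hk _) σ)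
      (int_ph ha (ck _).stronglyMeasurable (hk _) σ),
      ← (N j).integral_comp_comm (int_ph ha (eS _) (E_norm (t0 _)) σ)]
    simp only [← smul_sub, n2, map_smul]
  obtain ⟨r, hr⟩ : ∃ r, r = θ ^ (s' / 2) := ⟨_, rfl⟩
  have r0 : 0 ≤ r := by rw [hr]; positivity
  have r1 : r < 1 := by
    rw [hr]
    exact Real.rpow_lt_one θ0.le θ1 (by linarith)
  have dt : ∀ a > (0 : ℝ), ∃ B, ∀ σ j, dist (Y j a σ) (Y (j + 1) a σ) ≤ B * r ^ j := fun a ha => by
    refine ⟨√((a ^ (-(1 / 8) : ℝ)) ^ 2 * c₀ * v), fun σ j => ?_⟩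
    have := mom (ρ := Measure.dirac σ) mU ha (eS (j + 1)) (E_norm (t0 _))
      ((h₀ _ (t0 (j + 1))).1.const_mul ((a ^ (-(1 / 8) : ℝ)) ^ 2))
      (fun u => by
        have := p_pos (t0 (j + 1)) u
        positivity) fun z hz w hw e => by
        rw [E_inner (t0 _), abs_of_pos (p_pos (t0 _) _), integral_dirac, neg_zero, Real.rpow_zero,
          one_mul, abs_mul, pow_two]
        exact mul_le_mul_of_nonneg_right (mul_le_mul (ph_bd ha z σ) (ph_bd ha w σ) (abs_nonneg _)
          (by positivity)) (p_pos (t0 _) _).le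
    rw [integral_const_mul, (h₀ _ (t0 _)).2, integral_dirac, zero_div, neg_zero, Real.rpow_zero,
      mul_one] at this
    rw [dist_comm, dist_eq_norm, mul_comm, hr, ← rp θ0]
    exact (st j a ha σ).trans (mul_le_mul_of_nonneg_left (Real.le_sqrt_of_sq_le this)
      (by positivity))
  choose! B hB using dt
  choose! W hW using fun a (ha : a > (0 : ℝ)) σ =>
    cauchySeq_tendsto_of_complete (cauchySeq_of_le_geometric r (B a) r1 (hB a ha σ))
  have dW : ∀ a > (0 : ℝ), ∀ σ j, ‖W a σ - Y j a σ‖ ≤ B a * r ^ j / (1 - r) := fun a ha σ j => by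
    rw [← dist_eq_norm, dist_comm]
    exact dist_le_of_le_geometric_of_tendsto r (B a) r1 (hB a ha σ) (hW a ha σ) j
  have bW : ∀ a > (0 : ℝ), Bm (W a) := fun a ha => by
    obtain ⟨N₀, hN⟩ := (bY 0 a ha).2
    refine ⟨stronglyMeasurable_of_tendsto atTop (fun j => (bY j a ha).1)
      (tendsto_pi_nhds.2 (hW a ha)), B a * r ^ 0 / (1 - r) + N₀, fun σ => ?_⟩
    have := norm_add_le (W a σ - Y 0 a σ) (Y 0 a σ)
    rw [sub_add_cancel] at this
    exact this.trans (add_le_add (dW a ha σ 0) (hN σ))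
  obtain ⟨A, hA⟩ : ∃ A, A = K * (c₁ * θ ^ (-(γ / 2))) := ⟨_, rfl⟩
  refine ⟨fun j z => M (E (θ ^ j) z), _, 8 * A, W, ck, hk, fun a ha => ⟨bW a ha, fun σ g => ?_,
    fun ρ _ h j => ?_⟩⟩
  · obtain ⟨e, e1, e2⟩ := M_JS hM g t0 (tendsto_pow_atTop_nhds_zero_of_lt_one θ0.le θ1)
    refine tendsto_nhds_unique ((hW a ha σ).inner tendsto_const_nhds) ?_
    rw [tendsto_iff_norm_sub_tendsto_zero]
    refine squeeze_zero (g := fun j => a ^ (-(1 / 8) : ℝ) * e j * v) (fun _ => norm_nonneg _)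
      (fun j => ?_) (by simpa using (e1.const_mul (a ^ (-(1 / 8) : ℝ))).mul_const v)
    have i1 := int_ph (m := volume.restrict U) ha (ck j).stronglyMeasurable (hk j) σ
    have i2 := int_ph (m := volume.restrict U) ha (b := fun z => (g z).re)
      (Complex.continuous_re.comp g.continuous).stronglyMeasurable
      (fun z => (Complex.abs_re_le_norm _).trans (g.norm_le_seminorm ℝ z)) σ
    simp only [smul_eq_mul, mul_comm (ph a _ σ)] at i2
    simp only [Y]
    rw [real_inner_comm, ← integral_inner i1, ← integral_sub (i1.const_inner _) i2]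
    refine norm_integral_le_of_norm_le_const (Eventually.of_forall fun z => ?_)
    rw [real_inner_smul_right, real_inner_comm, mul_comm (g z).re, ← mul_sub, norm_mul]
    exact mul_le_mul (ph_bd ha z σ) (e2 j z) (norm_nonneg _) (by positivity)
  · refine geo (Y := fun j => Y j a) (fun j => bY j a ha) (bW a ha) (fun i => ?_)
      (e := fun j => B a * r ^ j / (1 - r)) (by
        have := ((tendsto_pow_atTop_nhds_zero_of_lt_one r0 r1).const_mul (B a)).div_const (1 - r)
        rwa [mul_zero, zero_div] at this) (fun j σ => dW a ha σ j) j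
    have k1 := h _ _ _ _ (eS (i + 1)) (E_norm (t0 _)) (h₁ _ (t0 (i + 1))).1
      (fun u => by
        have := p_pos (t0 (i + 1)) u
        positivity) fun z _ w _ _ => by
        rw [E_inner (t0 _), abs_of_pos (p_pos (t0 _) _)]
    rw [(h₁ _ (t0 _)).2] at k1
    have k2 : ∫ σ, ‖Y (i + 1) a σ - Y i a σ‖ ^ 2 ∂ρ ≤
        ∫ σ, ((θ ^ i) ^ (s' / 2)) ^ 2 * ‖V (i + 1) a σ‖ ^ 2 ∂ρ :=
      integral_mono ((bY _ a ha).sub (bY _ a ha)).int ((bV _ a ha).int.const_mul _) fun σ => by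
        simpa only [mul_pow] using pow_le_pow_left₀ (norm_nonneg _) (st i a ha σ) 2
    rw [integral_const_mul] at k2
    refine k2.trans ((mul_le_mul_of_nonneg_left k1 (sq_nonneg _)).trans (le_of_eq ?_))
    rw [hA, ← θ2, ← rp θ0, pow_succ θ,
      Real.mul_rpow (t0 i).le θ0.le, ← Real.rpow_natCast _ 2, ← Real.rpow_mul (t0 i).le,
      show s' - γ / 2 = s' / 2 * (2 : ℕ) + -(γ / 2) by push_cast; ring, Real.rpow_add (t0 i)]
    ring

section

variable {U : Opens ℂ} {H : Type} [NormedAddCommGroup H] [InnerProductSpace ℝ H] {s : ℝ}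
  {J : SmoothOn U →ₗ[ℝ] H}

theorem conv {γ K : ℝ} (g0 : 0 ≤ γ) (g1 : γ < 2) (hs : γ < 2 * s) (hK : 0 ≤ K)
    (hU : Bornology.IsBounded (U : Set ℂ)) (hJ : IsH0 s J) {ρ : ℝ → Measure Config}
    (hρ : ∀ a, IsProbabilityMeasure (ρ a)) (h2 : ∀ a > (0 : ℝ), Mo U γ K a (ρ a)) :
    ∃ W : ℝ → Config → H, (∀ a > (0 : ℝ), Bm (W a) ∧
      ∀ σ f, inner ℝ (J f) (W a σ) = smear a f σ) ∧ ∀ ε > 0, ∃ F : Submodule ℝ H,
        FiniteDimensional ℝ F ∧ ∃ B : ℝ, ∀ a > (0 : ℝ), ∫ σ, ‖W a σ‖ ^ 2 ∂ρ a ≤ B ∧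
          ∫ σ, infDist (W a σ) (F : Set H) ^ 2 ∂ρ a ≤ ε := by
  haveI := hJ.1
  obtain ⟨hsc, T, t1, t2⟩ := proj hJ
  have mU : MeasurableSet (U : Set ℂ) := U.isOpen.measurableSet
  haveI : IsFiniteMeasure (volume.restrict (U : Set ℂ)) :=
    isFiniteMeasure_restrict.2 hU.measure_lt_top.ne
  obtain ⟨k, N, A, W, k1, k2, h⟩ := lim2 g0 g1 hs mU K
  obtain ⟨R, hR⟩ := hU.subset_ball 0
  obtain ⟨c, hc⟩ : ∃ c, c = K * ∫ u, (ball (0 : ℂ) (R + R)).indicator
    (fun w => ‖w‖ ^ (-γ)) u := ⟨_, rfl⟩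
  have G0 : ∀ u, 0 ≤ (ball (0 : ℂ) (R + R)).indicator (fun w => ‖w‖ ^ (-γ)) u :=
    fun u => indicator_nonneg (fun w _ => by positivity) u
  have c0 : 0 ≤ c := by
    rw [hc]
    exact mul_nonneg hK (integral_nonneg G0)
  have mm : ∀ a > (0 : ℝ), ∀ b : ℂ → H, Continuous b → ∀ M η : ℝ, (∀ z, ‖b z‖ ≤ M) →
      (∀ z ∈ (U : Set ℂ), ‖b z‖ ≤ η) →
      ∫ σ, ‖∫ z in U, ph a z σ • b z‖ ^ 2 ∂ρ a ≤ c * η ^ 2 := by
    intro a ha b hb M η b1 b2
    have := h2 a ha H b M _ hb.stronglyMeasurable b1 ((sing_int g1 (R + R)).const_mul (η ^ 2))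
      (fun u => mul_nonneg (by positivity) (G0 u)) fun z hz w hw e => by
        have hw' : w - z ∈ ball (0 : ℂ) (R + R) := by
          rw [mem_ball_zero_iff]
          exact (norm_sub_le _ _).trans_lt
            (add_lt_add (mem_ball_zero_iff.1 (hR hw)) (mem_ball_zero_iff.1 (hR hz)))
        rw [indicator_of_mem hw', mul_comm (η ^ 2)]
        refine mul_le_mul_of_nonneg_left ((abs_real_inner_le_norm _ _).trans ?_) (by positivity)
        rw [pow_two]
        exact mul_le_mul (b2 z hz) (b2 w hw) (norm_nonneg _) ((norm_nonneg _).trans (b2 z hz))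
    rw [integral_const_mul] at this
    exact this.trans (le_of_eq (by rw [hc]; ring))
  refine ⟨fun a σ => T (W a σ), fun a ha => ⟨(h a ha).1.map T, fun σ f => ?_⟩, fun ε hε => ?_⟩
  · obtain ⟨g, g1, g2⟩ := t2 f
    rw [g2, (h a ha).2.1, smear]
    simp only [g1]
    exact setIntegral_eq_integral_of_forall_compl_eq_zero fun z hz => by
      rw [image_eq_zero_of_notMem_tsupport fun h => hz (f.tsupport_subset h), zero_mul]
  obtain ⟨j, hj⟩ := (((tendsto_pow_atTop_nhds_zero_of_lt_one (r := (1 / 4 : ℝ)) (by norm_num)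
    (by norm_num)).const_mul A).eventually_le_const (show A * 0 < ε / 4 by linarith)).exists
  obtain ⟨η, η0, hη⟩ : ∃ η > (0 : ℝ), c * η ^ 2 ≤ ε / 4 := by
    refine ⟨√(ε / 4 / (c + 1)), by positivity, ?_⟩
    rw [Real.sq_sqrt (by positivity), ← mul_div_assoc, div_le_iff₀ (by positivity)]
    nlinarith
  have cb : Continuous fun z => T (k j z) := T.continuous.comp (k1 j)
  have bb : ∀ z, ‖T (k j z)‖ ≤ N j := fun z => (t1 _).trans (k2 j z)
  obtain ⟨F, Q, f1, f2, f3⟩ := P153DK.fin_near ((isCompact_closedBall (0 : ℂ) R).image cb) η0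
  refine ⟨F, f1, 2 * (ε / 4) + 2 * (c * N j ^ 2), fun a ha => ?_⟩
  haveI := hρ a
  have b0 := bm_int (m := volume.restrict U) ha (k1 j).stronglyMeasurable (k2 j)
  have b1 := (h a ha).1.sub b0
  have b2 := ((h a ha).2.2 _ (hρ a) (h2 a ha) j).trans hj
  have e : ∀ σ, T (∫ z in U, ph a z σ • k j z) = ∫ z in U, ph a z σ • T (k j z) := fun σ => by
    rw [← T.integral_comp_comm (int_ph ha (k1 j).stronglyMeasurable (k2 j) σ)]
    simp only [map_smul]
  have b3 : ∀ σ, ‖T (W a σ) - ∫ z in U, ph a z σ • T (k j z)‖ ≤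
      ‖W a σ - ∫ z in U, ph a z σ • k j z‖ := fun σ => by
    rw [← e, ← map_sub]
    exact t1 _
  constructor
  · have := tri (ρ := ρ a) (g := fun σ => ‖T (W a σ)‖) b1
      (bm_int (m := volume.restrict U) ha cb.stronglyMeasurable bb) (fun _ => norm_nonneg _)
      fun σ => by
        have := norm_add_le (T (W a σ) - ∫ z in U, ph a z σ • T (k j z))
          (∫ z in U, ph a z σ • T (k j z))
        rw [sub_add_cancel] at this
        exact this.trans (add_le_add (b3 σ) le_rfl)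
    linarith [mm a ha _ cb _ _ bb fun z _ => bb z]
  · have cq : Continuous fun z => T (k j z) - Q (T (k j z)) := cb.sub (Q.continuous.comp cb)
    have bq : ∀ z, ‖T (k j z) - Q (T (k j z))‖ ≤ N j + ‖Q‖ * N j := fun z =>
      (norm_sub_le _ _).trans (add_le_add (bb z) (Q.le_opNorm_of_le (bb z)))
    have := tri (ρ := ρ a) (g := fun σ => infDist (T (W a σ)) (F : Set H)) b1
      (bm_int (m := volume.restrict U) ha cq.stronglyMeasurable bq) (fun _ => infDist_nonneg)
      fun σ => by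
        have i1 := int_ph (m := volume.restrict U) ha cb.stronglyMeasurable bb σ
        refine (infDist_le_dist_of_mem (f2 (∫ z in U, ph a z σ • T (k j z)))).trans ?_
        rw [dist_eq_norm]
        refine (norm_sub_le_norm_sub_add_norm_sub _ (∫ z in U, ph a z σ • T (k j z)) _).trans
          (add_le_add (b3 σ) (le_of_eq ?_))
        rw [← Q.integral_comp_comm i1, ← integral_sub i1 (Q.integrable_comp i1)]
        simp only [map_smul, smul_sub]
    linarith [mm a ha _ cq _ _ bq fun z hz => f3 _ ⟨z, ball_subset_closedBall (hR hz), rfl⟩]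

theorem core {γ K : ℝ} (g0 : 0 ≤ γ) (g1 : γ < 2) (hs : γ < 2 * s) (hK : 0 ≤ K)
    (hU : Bornology.IsBounded (U : Set ℂ)) (hJ : IsH0 s J) {ρ : ℝ → Measure Config}
    (hρ : ∀ a, IsProbabilityMeasure (ρ a)) (h2 : ∀ a > (0 : ℝ), Mo U γ K a (ρ a)) {Z : ℝ}
    {C : Pts → ℝ} (hL : ∀ (k : ℕ) (f : Fin k → SmoothOn U), ∃ ν, HasMom Z C (fun i => f i) ν ∧
      (∀ ν', HasMom Z C (fun i => f i) ν' → ν' = ν) ∧
      ∀ F : BoundedContinuousFunction (EuclideanSpace ℝ (Fin k)) ℝ,
        Tendsto (fun a => ∫ σ, F (WithLp.toLp 2 fun i => smear a (f i) σ) ∂ρ a) (𝓝[>] 0)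
          (𝓝 (∫ y, F y ∂ν))) :
    ∃ X : ℝ → Config → StrongDual ℝ H,
      (∀ a > 0, @Measurable _ _ _ (borel _) (X a) ∧ ∀ σ f, X a σ (J f) = smear a f σ) ∧
      ∃ P, DualMom Z C J P ∧ (∀ P', DualMom Z C J P' → P' = P) ∧
        ∀ F : BoundedContinuousFunction (StrongDual ℝ H) ℝ,
          Tendsto (fun a => ∫ σ, F (X a σ) ∂ρ a) (𝓝[>] 0) (𝓝 (∫ T, F T ∂P)) := by
  haveI := hJ.1
  haveI := (proj hJ).1
  borelize H
  obtain ⟨W, w1, w5⟩ := conv g0 g1 hs hK hU hJ hρ h2
  obtain ⟨t, t0, t1⟩ : ∃ t : ℝ → ℝ, (∀ a, 0 < t a) ∧ ∀ a > 0, t a = a :=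
    ⟨fun a => if 0 < a then a else 1, fun a => by
      dsimp only
      split_ifs with h
      exacts [h, one_pos], fun a ha => if_pos ha⟩
  choose ν hν hu hl using hL
  have ce : ∀ f, Continuous fun T : StrongDual ℝ H => T (J f) := fun f =>
    (ContinuousLinearMap.apply ℝ ℝ (J f)).continuous
  have cv : ∀ k (f : Fin k → SmoothOn U), Continuous fun T : StrongDual ℝ H =>
      (WithLp.toLp 2 fun i => T (J (f i)) : EuclideanSpace ℝ (Fin k)) := fun k f =>
    (PiLp.continuous_toLp 2 _).comp (continuous_pi fun i => ce (f i))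
  have c0 : Continuous fun y : EuclideanSpace ℝ (Fin 1) => y 0 := by fun_prop
  let γ : SmoothOn U → Measure ℝ := fun φ => (ν 1 fun _ => φ).map fun y => y 0
  have hγ : ∀ φ, IsProbabilityMeasure (γ φ) := fun φ =>
    haveI := (hν 1 fun _ => φ).1
    Measure.isProbabilityMeasure_map c0.measurable.aemeasurable
  have h1 : ∀ φ (F : ℝ → ℝ), Continuous F → (∃ M, ∀ x, |F x| ≤ M) →
      Tendsto (fun a => ∫ σ, F (inner ℝ (J φ) (W (t a) σ)) ∂ρ (t a)) (𝓝[>] 0)
        (𝓝 (∫ x, F x ∂γ φ)) := by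
    rintro φ F c ⟨N, hN⟩
    rw [integral_map c0.measurable.aemeasurable c.aestronglyMeasurable]
    refine (hl 1 (fun _ => φ) (BoundedContinuousFunction.ofNormedAddCommGroup
      (fun y => F (y 0)) (c.comp c0) N fun y => hN _)).congr' ?_
    filter_upwards [self_mem_nhdsWithin] with a ha
    simp only [t1 a ha, (w1 a ha).2]
    rfl
  have key := fun (u : ℕ → ℝ) (hu : Tendsto u atTop (𝓝[>] 0)) =>
    (P153DI.hil_rv (fun n => ρ (t (u n))) (fun _ => hρ _) (fun n => W (t (u n)))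
      (fun n => (w1 _ (t0 _)).1.1.measurable.aemeasurable) (fun n => (w1 _ (t0 _)).1.int)
      (by
        obtain ⟨F, -, B, h⟩ := w5 1 one_pos
        exact ⟨B, fun n => (h _ (t0 _)).1⟩) (fun ε hε => by
        obtain ⟨F, f1, B, h⟩ := w5 ε hε
        exact ⟨F, f1, fun n => (h _ (t0 _)).2⟩) J hJ.2.1 γ hγ
      fun i F c b => (h1 i F c b).comp hu).2
  obtain ⟨u, hu0⟩ := (𝓝[>] (0 : ℝ)).exists_seq_tendsto
  obtain ⟨τ, τ1, τ2⟩ := (key u hu0).1
  have mr : Measurable (P153DK.rz : H → StrongDual ℝ H) := P153DK.cont_rz.measurable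
  let P : Measure (StrongDual ℝ H) := τ.map P153DK.rz
  haveI hP : IsProbabilityMeasure P := Measure.isProbabilityMeasure_map mr.aemeasurable
  have pm : ∀ φ, P.map (fun T => T (J φ)) = γ φ := fun φ => by
    rw [Measure.map_map (ce φ).measurable mr, ← τ2]
    congr 1
    funext w
    exact P153DK.rz_apply w _
  have lim' : ∀ F : BoundedContinuousFunction (StrongDual ℝ H) ℝ,
      Tendsto (fun a => ∫ σ, F (P153DK.rz (W a σ)) ∂ρ a) (𝓝[>] 0) (𝓝 (∫ T, F T ∂P)) := fun F => by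
    rw [integral_map mr.aemeasurable F.continuous.aestronglyMeasurable]
    refine Tendsto.congr' (f₁ := fun a => ∫ σ, F (P153DK.rz (W (t a) σ)) ∂ρ (t a)) ?_
      (tendsto_of_seq_tendsto fun v hv => (key v hv).2 τ τ1 τ2 _
        (F.continuous.comp P153DK.cont_rz) ⟨‖F‖, fun x => F.norm_coe_le_norm _⟩)
    filter_upwards [self_mem_nhdsWithin] with a ha
    rw [t1 a ha]
  have hX : ∀ a > 0, ∀ σ f, P153DK.rz (W a σ) (J f) = smear a f σ := fun a ha σ f =>
    (P153DK.rz_apply _ _).trans ((w1 a ha).2 σ f)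
  refine ⟨fun a σ => P153DK.rz (W a σ), fun a ha => ⟨mr.comp (w1 a ha).1.1.measurable, hX a ha⟩, P,
    ⟨hP, fun n hn f => ?_⟩, fun P' h' => ?_, lim'⟩
  · haveI := (hν n f).1
    have e : P.map (fun T => WithLp.toLp 2 fun i => T (J (f i))) = ν n f := by
      refine ext_of_forall_integral_eq_of_IsFiniteMeasure fun F => ?_
      rw [integral_map (cv n f).measurable.aemeasurable F.continuous.aestronglyMeasurable]
      refine tendsto_nhds_unique (lim' (F.compContinuous ⟨_, cv n f⟩)) ((hl n f F).congr' ?_)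
      filter_upwards [self_mem_nhdsWithin] with a ha
      simp only [BoundedContinuousFunction.compContinuous_apply, ContinuousMap.coe_mk, hX a ha]
    obtain ⟨k1, k2⟩ := (hν n f).2 n hn id
    have cp : Continuous fun y : EuclideanSpace ℝ (Fin n) => ∏ j, y (id j) := by fun_prop
    rw [← e] at k1 k2
    rw [integral_map (cv n f).measurable.aemeasurable cp.aestronglyMeasurable] at k2
    exact ⟨(integrable_map_measure cp.aestronglyMeasurable
      (cv n f).measurable.aemeasurable).1 k1, k2⟩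
  · haveI := h'.1
    refine P153DK.uniq_dual J hJ.2.1 fun φ => ?_
    have e : P'.map (fun T => WithLp.toLp 2 fun _ : Fin 1 => T (J φ)) = ν 1 fun _ => φ := by
      refine hu 1 _ _ ⟨Measure.isProbabilityMeasure_map
        (cv 1 fun _ => φ).measurable.aemeasurable, fun n hn i => ?_⟩
      have cp : Continuous fun y : EuclideanSpace ℝ (Fin 1) => ∏ j, y (i j) := by fun_prop
      obtain ⟨k1, k2⟩ := h'.2 n hn fun _ => φ
      rw [integral_map (cv 1 fun _ => φ).measurable.aemeasurable cp.aestronglyMeasurable]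
      exact ⟨(integrable_map_measure cp.aestronglyMeasurable
        (cv 1 fun _ => φ).measurable.aemeasurable).2 k1, k2⟩
    rw [pm]
    show _ = (ν 1 fun _ => φ).map fun y => y 0
    rw [← e, Measure.map_map c0.measurable (cv 1 fun _ => φ).measurable]
    rfl

end

theorem loc_of {D : Set ℂ} {E : Fam} (hS : SepW D E) : ∃ K κ ε : ℝ, 0 ≤ K ∧ 0 < κ ∧ 0 < ε ∧
    ∀ a > (0 : ℝ), ∀ ρ : Measure Config, IsProbabilityMeasure ρ →
      (∀ G, ∫ σ, G σ ∂ρ = E a G) → Loc D K κ ε a ρ := by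
  obtain ⟨K, T, κ, ε, hK, hT, hκ, hε, h⟩ := hS 2 even_two (1 / 2) (by norm_num)
  refine ⟨K * 2 ^ (-(1 / 4) : ℝ) + (2 / T) ^ (-(1 / 4) : ℝ), κ * 2, ε / 2, by positivity,
    by linarith, by linarith, fun a ha ρ _ e z w hw h1 h2 => ?_⟩
  have hr : 0 < ‖w - z‖ := norm_pos_iff.2 (sub_ne_zero.2 hw)
  have sq : ∀ t : ℝ, 0 ≤ t → (t ^ (-(1 / 8) : ℝ)) ^ 2 = t ^ (-(1 / 4) : ℝ) := fun t ht => by
    rw [← Real.rpow_natCast, ← Real.rpow_mul ht]
    norm_num
  have p1 : 0 ≤ K * 2 ^ (-(1 / 4) : ℝ) * ‖w - z‖ ^ (-(1 / 4) : ℝ) := by positivity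
  have p2 : 0 ≤ (2 / T) ^ (-(1 / 4) : ℝ) * ‖w - z‖ ^ (-(1 / 4) : ℝ) := by positivity
  rw [add_mul]
  by_cases c : T * a ≤ 2 * ‖w - z‖
  · have := h a (2 * ‖w - z‖) z ![z, w] ha c (by linarith) (by rwa [← mul_assoc]) (fun i => by
      fin_cases i
      · simpa using hr
      · simp only [mem_ball, dist_eq_norm]
        show ‖w - z‖ < _
        linarith) (fun i j hij => by
      fin_cases i <;> fin_cases j
      · exact absurd rfl hij
      · show _ ≤ ‖z - w‖
        rw [norm_sub_rev z w]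
        linarith
      · show _ ≤ ‖w - z‖
        linarith
      · exact absurd rfl hij)
    rw [sq _ (by positivity), Real.mul_rpow (by norm_num) hr.le, ← Sf.cs, Sf.cs_eq, ← e] at this
    simp only [Fin.prod_univ_two] at this
    have this' : |∫ σ, ph a z σ * ph a w σ ∂ρ| ≤ _ := this
    linarith
  · have h1 : |∫ σ, ph a z σ * ph a w σ ∂ρ| ≤ a ^ (-(1 / 4) : ℝ) := by
      rw [← Real.norm_eq_abs, ← sq a ha.le]
      refine (norm_integral_le_of_norm_le_const (C := (a ^ (-(1 / 8) : ℝ)) ^ 2)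
        (Eventually.of_forall fun σ => ?_)).trans (by simp)
      rw [Real.norm_eq_abs, abs_mul, pow_two]
      exact mul_le_mul (ph_bd ha _ σ) (ph_bd ha _ σ) (abs_nonneg _) (by positivity)
    have h2 : a ^ (-(1 / 4) : ℝ) ≤ (2 / T * ‖w - z‖) ^ (-(1 / 4) : ℝ) := by
      refine Real.rpow_le_rpow_of_nonpos (by positivity) ?_ (by norm_num)
      rw [div_mul_eq_mul_div, div_le_iff₀ hT]
      linarith
    rw [Real.mul_rpow (by positivity) hr.le] at h2
    linarith

/-- The field in `H^{-s}(U)`, up to the boundary. -/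
theorem fieldB {J lam β Z : ℝ} {V : Finset Site → ℝ} {D : Set ℂ} {b : Option (ℝ → Config)}
    {C : Pts → ℝ} (hD : Bornology.IsBounded D) (hL : Lay D) (hS : SepW D (inDom J lam V β D b))
    (hB : LawB D (inDom J lam V β D b) Z C) : FieldB D (inDom J lam V β D b) Z C := by
  intro U s hU hK hs
  refine ⟨let ⟨R, _, hR⟩ := exists_R U s; ⟨_, _, _, R, hR⟩, fun H _ _ I hI => ?_⟩
  choose ρ hρ using fun a => P144M13.gibbs_law J lam V β (b.map fun η => η a) (disc D a) id
  have e : ∀ a G, ∫ σ, G σ ∂(ρ a : Measure Config) = inDom J lam V β D b a G :=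
    fun a G => (hρ a G).2
  obtain ⟨K, κ, ε, k0, k1, k2, h⟩ := loc_of hS
  obtain ⟨γ, g0, g1⟩ := exists_between (lt_min (show (1 / 4 : ℝ) < 2 by norm_num)
    (show 1 / 4 < 2 * s by linarith))
  obtain ⟨A, A0, hA⟩ := mo_of hD hL U.isOpen.measurableSet hK k0 k1 k2 g0
  have hB' := fun k (f : Fin k → SmoothOn U) => hB k (fun i => f i) fun i =>
    ⟨test (f i), (subset_tsupport _).trans ((f i).tsupport_subset.trans hK)⟩
  simp only [DualLim, ← e] at hB' ⊢
  exact core (by linarith) (g1.trans_le (min_le_left _ _)) (g1.trans_le (min_le_right _ _)) A0 hU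
    hI (fun a => (ρ a).2) (fun a ha => hA a ha _ (ρ a).2 (h a ha _ (ρ a).2 (e a))) hB'

end Vale.Agent.N144.WF
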